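import Crest.Agent.R347.D.Dat
import Crest.Agent.R347.Link
import Crest.Agent.R347.SysInit
import Crest.Agent.R347.SysRules
import Crest.Agent.R347.SysRules2
import Crest.Agent.R347.ORules2

/-! Row 347: first bounds from the data (computer generated) -/

set_option autoImplicit false
set_option Elab.async false
set_option linter.unusedVariables false

namespace Crest.Agent.R347.Num

variable {M : Model} {O : OSys}

theorem upA11 (H : Base M O) : O.A 11 ≤ (((51563987 / 50000000) : ℚ) : ℝ) :=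
  H.L.upA H.h11 (1015519443 / 1000000000) (-1940720003 / 10000000000) (-1806694137 / 10000000000) (-2606161577 / 2000000000) (2999273349 / 10000000000) (by decide +kernel)
theorem hiA11 (H : Base M O) : O.S0 5 11 ≤ (((1181391869 / 1000000000) : ℚ) : ℝ) :=
  H.L.hiS0 H.h11 (by decide +kernel)
theorem upB11 (H : Base M O) : O.B 11 ≤ (((154581197 / 156250000) : ℚ) : ℝ) :=
  H.L.upB H.h11 (198929099 / 200000000) (-1575555587 / 10000000000) (-86469037 / 500000000) (-12671363773 / 10000000000) (55753003 / 200000000) (by decide +kernel)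
theorem hiB11 (H : Base M O) : O.Rz 5 11 ≤ (((4794509151 / 5000000000) : ℚ) : ℝ) :=
  H.L.hiRz H.h11 (by decide +kernel)
theorem upC11 (H : Base M O) : O.A1 11 ≤ (((3575473731 / 5000000000) : ℚ) : ℝ) :=
  H.L.upA1 H.h11 (845632749 / 1000000000) (3046505413 / 5000000000) (-11776979 / 78125000) (-93109019 / 2500000000) (-680186887 / 2500000000) (by decide +kernel)
theorem hiC11 (H : Base M O) : O.S1 5 11 ≤ (((419557931 / 2000000000) : ℚ) : ℝ) :=
  H.L.hiS1 H.h11 (by decide +kernel)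
theorem upD11 (H : Base M O) : O.B0 11 ≤ (((7196516477 / 10000000000) : ℚ) : ℝ) :=
  H.L.upB0 H.h11 (212080711 / 250000000) (3068603313 / 5000000000) (-1492782477 / 10000000000) (-153509829 / 2500000000) (-558649223 / 2000000000) (by decide +kernel)
theorem hiD11 (H : Base M O) : O.R0 5 11 ≤ (((545910113 / 2500000000) : ℚ) : ℝ) :=
  H.L.hiR0 H.h11 (by decide +kernel)
theorem upE11 (H : Base M O) : O.Bx 11 ≤ (((6431974173 / 10000000000) : ℚ) : ℝ) :=
  H.L.upBx H.h11 (100249487 / 125000000) (4562001921 / 10000000000) (-410577721 / 2000000000) (22690353 / 2500000000) (-608002993 / 2000000000) (by decide +kernel)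
theorem hiE11 (H : Base M O) : O.Rx 5 11 ≤ (((710874687 / 5000000000) : ℚ) : ℝ) :=
  H.L.hiRx H.h11 (by decide +kernel)
theorem upA12 (H : Base M O) : O.A 12 ≤ (((1024754257 / 1000000000) : ℚ) : ℝ) :=
  H.L.upA H.h12 (202460293 / 200000000) (-1829487819 / 10000000000) (-23246309 / 125000000) (-787272057 / 625000000) (2619634993 / 10000000000) (by decide +kernel)
theorem hiA12 (H : Base M O) : O.S0 5 12 ≤ (((143599723 / 125000000) : ℚ) : ℝ) :=
  H.L.hiS0 H.h12 (by decide +kernel)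
theorem upB12 (H : Base M O) : O.B 12 ≤ (((1240255239 / 1250000000) : ℚ) : ℝ) :=
  H.L.upB H.h12 (996094469 / 1000000000) (-1552241387 / 10000000000) (-900560673 / 5000000000) (-1234420811 / 1000000000) (2489113251 / 10000000000) (by decide +kernel)
theorem hiB12 (H : Base M O) : O.Rz 5 12 ≤ (((305283239 / 312500000) : ℚ) : ℝ) :=
  H.L.hiRz H.h12 (by decide +kernel)
theorem upC12 (H : Base M O) : O.A1 12 ≤ (((1800923519 / 2500000000) : ℚ) : ℝ) :=
  H.L.upA1 H.h12 (169749157 / 200000000) (5796870141 / 10000000000) (-208036743 / 1250000000) (-760687 / 20000000) (-553445187 / 2000000000) (by decide +kernel)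
theorem hiC12 (H : Base M O) : O.S1 5 12 ≤ (((139798811 / 625000000) : ℚ) : ℝ) :=
  H.L.hiS1 H.h12 (by decide +kernel)
theorem upD12 (H : Base M O) : O.B0 12 ≤ (((905022737 / 1250000000) : ℚ) : ℝ) :=
  H.L.upB0 H.h12 (106361573 / 125000000) (5821960051 / 10000000000) (-1660283593 / 10000000000) (-282009139 / 5000000000) (-70576769 / 250000000) (by decide +kernel)
theorem hiD12 (H : Base M O) : O.R0 5 12 ≤ (((2309912539 / 10000000000) : ℚ) : ℝ) :=
  H.L.hiR0 H.h12 (by decide +kernel)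
theorem upE12 (H : Base M O) : O.Bx 12 ≤ (((6638675957 / 10000000000) : ℚ) : ℝ) :=
  H.L.upBx H.h12 (25461897 / 31250000) (92134883 / 200000000) (-2069694381 / 10000000000) (-18779929 / 5000000000) (-601197383 / 2000000000) (by decide +kernel)
theorem hiE12 (H : Base M O) : O.Rx 5 12 ≤ (((1668828569 / 10000000000) : ℚ) : ℝ) :=
  H.L.hiRx H.h12 (by decide +kernel)
theorem upA13 (H : Base M O) : O.A 13 ≤ (((1019885791 / 1000000000) : ℚ) : ℝ) :=
  H.L.upA H.h13 (20197879 / 20000000) (-345794907 / 2000000000) (-950097609 / 5000000000) (-2435643687 / 2000000000) (141343151 / 625000000) (by decide +kernel)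
theorem hiA13 (H : Base M O) : O.S0 5 13 ≤ (((1126526659 / 1000000000) : ℚ) : ℝ) :=
  H.L.hiS0 H.h13 (by decide +kernel)
theorem upB13 (H : Base M O) : O.B 13 ≤ (((9944825277 / 10000000000) : ℚ) : ℝ) :=
  H.L.upB H.h13 (124654681 / 125000000) (-1522045281 / 10000000000) (-1856444093 / 10000000000) (-239942693 / 200000000) (272687339 / 1250000000) (by decide +kernel)
theorem hiB13 (H : Base M O) : O.Rz 5 13 ≤ (((4963447169 / 5000000000) : ℚ) : ℝ) :=
  H.L.hiRz H.h13 (by decide +kernel)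
theorem upC13 (H : Base M O) : O.A1 13 ≤ (((3629816281 / 5000000000) : ℚ) : ℝ) :=
  H.L.upA1 H.h13 (426017387 / 500000000) (1108446911 / 2000000000) (-89260571 / 500000000) (-2523199 / 62500000) (-2787765867 / 10000000000) (by decide +kernel)
theorem hiC13 (H : Base M O) : O.S1 5 13 ≤ (((2387652667 / 10000000000) : ℚ) : ℝ) :=
  H.L.hiS1 H.h13 (by decide +kernel)
theorem upD13 (H : Base M O) : O.B0 13 ≤ (((7289081457 / 10000000000) : ℚ) : ℝ) :=
  H.L.upB0 H.h13 (106720147 / 125000000) (5556280203 / 10000000000) (-1786637499 / 10000000000) (-543270101 / 10000000000) (-566072219 / 2000000000) (by decide +kernel)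
theorem hiD13 (H : Base M O) : O.R0 5 13 ≤ (((1225048141 / 5000000000) : ℚ) : ℝ) :=
  H.L.hiR0 H.h13 (by decide +kernel)
theorem upE13 (H : Base M O) : O.Bx 13 ≤ (((1704504219 / 2500000000) : ℚ) : ℝ) :=
  H.L.upBx H.h13 (206428209 / 250000000) (4625432967 / 10000000000) (-208220669 / 1000000000) (-152927217 / 10000000000) (-1481989183 / 5000000000) (by decide +kernel)
theorem hiE13 (H : Base M O) : O.Rx 5 13 ≤ (((383064489 / 2000000000) : ℚ) : ℝ) :=
  H.L.hiRx H.h13 (by decide +kernel)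
theorem upA14 (H : Base M O) : O.A 14 ≤ (((31758541 / 31250000) : ℚ) : ℝ) :=
  H.L.upA H.h14 (50405191 / 50000000) (-20489331 / 125000000) (-48255951 / 250000000) (-2944283601 / 2500000000) (1926557119 / 10000000000) (by decide +kernel)
theorem hiA14 (H : Base M O) : O.S0 5 14 ≤ (((277981897 / 250000000) : ℚ) : ℝ) :=
  H.L.hiS0 H.h14 (by decide +kernel)
theorem upB14 (H : Base M O) : O.B 14 ≤ (((1992697031 / 2000000000) : ℚ) : ℝ) :=
  H.L.upB H.h14 (249543147 / 250000000) (-1486866643 / 10000000000) (-237248683 / 1250000000) (-1164269133 / 1000000000) (1876924517 / 10000000000) (by decide +kernel)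
theorem hiB14 (H : Base M O) : O.Rz 5 14 ≤ (((201416063 / 200000000) : ℚ) : ℝ) :=
  H.L.hiRz H.h14 (by decide +kernel)
theorem upC14 (H : Base M O) : O.A1 14 ≤ (((1463940763 / 2000000000) : ℚ) : ℝ) :=
  H.L.upA1 H.h14 (213888169 / 250000000) (1065388421 / 2000000000) (-1874264703 / 10000000000) (-109723151 / 2500000000) (-2787740237 / 10000000000) (by decide +kernel)
theorem hiC14 (H : Base M O) : O.S1 5 14 ≤ (((510180461 / 2000000000) : ℚ) : ℝ) :=
  H.L.hiS1 H.h14 (by decide +kernel)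
theorem upD14 (H : Base M O) : O.B0 14 ≤ (((229487049 / 312500000) : ℚ) : ℝ) :=
  H.L.upB0 H.h14 (856947231 / 1000000000) (1333702603 / 2500000000) (-1878109571 / 10000000000) (-68115557 / 1250000000) (-176250451 / 625000000) (by decide +kernel)
theorem hiD14 (H : Base M O) : O.R0 5 14 ≤ (((81382743 / 312500000) : ℚ) : ℝ) :=
  H.L.hiR0 H.h14 (by decide +kernel)
theorem upE14 (H : Base M O) : O.Bx 14 ≤ (((6976183823 / 10000000000) : ℚ) : ℝ) :=
  H.L.upBx H.h14 (33409421 / 40000000) (925076513 / 2000000000) (-2089512857 / 10000000000) (-128566841 / 5000000000) (-291648713 / 1000000000) (by decide +kernel)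
theorem hiE14 (H : Base M O) : O.Rx 5 14 ≤ (((2161166149 / 10000000000) : ℚ) : ℝ) :=
  H.L.hiRx H.h14 (by decide +kernel)
theorem upA15 (H : Base M O) : O.A 15 ≤ (((253407997 / 250000000) : ℚ) : ℝ) :=
  H.L.upA H.h15 (503396461 / 500000000) (-155864049 / 1000000000) (-975723169 / 5000000000) (-2848260327 / 2500000000) (3155041 / 19531250) (by decide +kernel)
theorem hiA15 (H : Base M O) : O.S0 5 15 ≤ (((220641811 / 200000000) : ℚ) : ℝ) :=
  H.L.hiS0 H.h15 (by decide +kernel)
theorem upB15 (H : Base M O) : O.B 15 ≤ (((9979391869 / 10000000000) : ℚ) : ℝ) :=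
  H.L.upB H.h15 (499484531 / 500000000) (-1447913613 / 10000000000) (-481989171 / 2500000000) (-11289474701 / 10000000000) (79176359 / 500000000) (by decide +kernel)
theorem hiB15 (H : Base M O) : O.Rz 5 15 ≤ (((255167851 / 250000000) : ℚ) : ℝ) :=
  H.L.hiRz H.h15 (by decide +kernel)
theorem upC15 (H : Base M O) : O.A1 15 ≤ (((1846019797 / 2500000000) : ℚ) : ℝ) :=
  H.L.upA1 H.h15 (17186133 / 20000000) (1029235821 / 2000000000) (-1936428401 / 10000000000) (-120653409 / 2500000000) (-1385808993 / 5000000000) (by decide +kernel)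
theorem hiC15 (H : Base M O) : O.S1 5 15 ≤ (((681631079 / 2500000000) : ℚ) : ℝ) :=
  H.L.hiS1 H.h15 (by decide +kernel)
theorem upD15 (H : Base M O) : O.B0 15 ≤ (((7403493633 / 10000000000) : ℚ) : ℝ) :=
  H.L.upB0 H.h15 (430217783 / 500000000) (5150702107 / 10000000000) (-1941040329 / 10000000000) (-563200897 / 10000000000) (-279594349 / 1000000000) (by decide +kernel)
theorem hiD15 (H : Base M O) : O.R0 5 15 ≤ (((2772063949 / 10000000000) : ℚ) : ℝ) :=
  H.L.hiR0 H.h15 (by decide +kernel)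
theorem upE15 (H : Base M O) : O.Bx 15 ≤ (((222435401 / 312500000) : ℚ) : ℝ) :=
  H.L.upBx H.h15 (105459803 / 125000000) (922364561 / 2000000000) (-1045609733 / 5000000000) (-351903897 / 10000000000) (-1432485053 / 5000000000) (by decide +kernel)
theorem hiE15 (H : Base M O) : O.Rx 5 15 ≤ (((1203451613 / 5000000000) : ℚ) : ℝ) :=
  H.L.hiRx H.h15 (by decide +kernel)
theorem upA16 (H : Base M O) : O.A 16 ≤ (((63235013 / 62500000) : ℚ) : ℝ) :=
  H.L.upA H.h16 (1005862917 / 1000000000) (-742136361 / 5000000000) (-98258107 / 500000000) (-1102595027 / 1000000000) (664118691 / 5000000000) (by decide +kernel)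
theorem hiA16 (H : Base M O) : O.S0 5 16 ≤ (((549565483 / 500000000) : ℚ) : ℝ) :=
  H.L.hiS0 H.h16 (by decide +kernel)
theorem upB16 (H : Base M O) : O.B 16 ≤ (((9993579391 / 10000000000) : ℚ) : ℝ) :=
  H.L.upB H.h16 (499839459 / 500000000) (-351146601 / 2500000000) (-974118317 / 5000000000) (-2735848461 / 2500000000) (1306678219 / 10000000000) (by decide +kernel)
theorem hiB16 (H : Base M O) : O.Rz 5 16 ≤ (((206780279 / 200000000) : ℚ) : ℝ) :=
  H.L.hiRz H.h16 (by decide +kernel)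
theorem upC16 (H : Base M O) : O.A1 16 ≤ (((1863142939 / 2500000000) : ℚ) : ℝ) :=
  H.L.upA1 H.h16 (86328279 / 100000000) (4994967411 / 10000000000) (-1976019299 / 10000000000) (-266184587 / 5000000000) (-2742773901 / 10000000000) (by decide +kernel)
theorem hiC16 (H : Base M O) : O.S1 5 16 ≤ (((2914313857 / 10000000000) : ℚ) : ℝ) :=
  H.L.hiS1 H.h16 (by decide +kernel)
theorem upD16 (H : Base M O) : O.B0 16 ≤ (((7468367521 / 10000000000) : ℚ) : ℝ) :=
  H.L.upB0 H.h16 (216049293 / 250000000) (4997733869 / 10000000000) (-198055671 / 1000000000) (-296829773 / 5000000000) (-1380524513 / 5000000000) (by decide +kernel)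
theorem hiD16 (H : Base M O) : O.R0 5 16 ≤ (((369141361 / 1250000000) : ℚ) : ℝ) :=
  H.L.hiR0 H.h16 (by decide +kernel)
theorem upE16 (H : Base M O) : O.Bx 16 ≤ (((7247055931 / 10000000000) : ℚ) : ℝ) :=
  H.L.upBx H.h16 (851296419 / 1000000000) (4589222833 / 10000000000) (-104336549 / 500000000) (-438984853 / 10000000000) (-2810074041 / 10000000000) (by decide +kernel)
theorem hiE16 (H : Base M O) : O.Rx 5 16 ≤ (((2653453113 / 10000000000) : ℚ) : ℝ) :=
  H.L.hiRx H.h16 (by decide +kernel)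
theorem upA17 (H : Base M O) : O.A 17 ≤ (((202110953 / 200000000) : ℚ) : ℝ) :=
  H.L.upA H.h17 (100526353 / 100000000) (-175020291 / 1250000000) (-986525741 / 5000000000) (-10678441417 / 10000000000) (53369289 / 500000000) (by decide +kernel)
theorem hiA17 (H : Base M O) : O.S0 5 17 ≤ (((549439559 / 500000000) : ℚ) : ℝ) :=
  H.L.hiS0 H.h17 (by decide +kernel)
theorem upB17 (H : Base M O) : O.B 17 ≤ (((250181547 / 250000000) : ℚ) : ℝ) :=
  H.L.upB H.h17 (250090757 / 250000000) (-335814049 / 2500000000) (-1960973661 / 10000000000) (-10610857857 / 10000000000) (210371057 / 2000000000) (by decide +kernel)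
theorem hiB17 (H : Base M O) : O.Rz 5 17 ≤ (((1047165141 / 1000000000) : ℚ) : ℝ) :=
  H.L.hiRz H.h17 (by decide +kernel)
theorem upC17 (H : Base M O) : O.A1 17 ≤ (((1881483709 / 2500000000) : ℚ) : ℝ) :=
  H.L.upA1 H.h17 (43376073 / 50000000) (4875060171 / 10000000000) (-1991601589 / 10000000000) (-294365471 / 5000000000) (-675347167 / 2500000000) (by decide +kernel)
theorem hiC17 (H : Base M O) : O.S1 5 17 ≤ (((48665973 / 156250000) : ℚ) : ℝ) :=
  H.L.hiS1 H.h17 (by decide +kernel)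
theorem upD17 (H : Base M O) : O.B0 17 ≤ (((7538774177 / 10000000000) : ℚ) : ℝ) :=
  H.L.upB0 H.h17 (434130573 / 500000000) (121922389 / 250000000) (-199570293 / 1000000000) (-317694531 / 5000000000) (-2715079951 / 10000000000) (by decide +kernel)
theorem hiD17 (H : Base M O) : O.R0 5 17 ≤ (((1573822067 / 5000000000) : ℚ) : ℝ) :=
  H.L.hiR0 H.h17 (by decide +kernel)
theorem upE17 (H : Base M O) : O.Bx 17 ≤ (((7367824699 / 10000000000) : ℚ) : ℝ) :=
  H.L.upBx H.h17 (429180169 / 500000000) (17842299 / 39062500) (-2070527279 / 10000000000) (-26121309 / 500000000) (-549936961 / 2000000000) (by decide +kernel)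
theorem hiE17 (H : Base M O) : O.Rx 5 17 ≤ (((1451264407 / 5000000000) : ℚ) : ℝ) :=
  H.L.hiRx H.h17 (by decide +kernel)
theorem loC9 (H : Base M O) : (((1007613701 / 1000000000) : ℚ) : ℝ) ≤ O.C 9 :=
  Sys.CLo H.a9 (by decide)
theorem loD9 (H : Base M O) : (((19941528873 / 20000000000) : ℚ) : ℝ) ≤ O.D 9 :=
  Sys.DLo H.b9 (hiA14 H) (upA14 H) (hiD14 H) (upD14 H) (hiE14 H) (upE14 H) (by decide +kernel)
theorem loC10 (H : Base M O) : (((20100730461 / 20000000000) : ℚ) : ℝ) ≤ O.C 10 :=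
  Sys.CLo H.a10 (by decide)
theorem loD10 (H : Base M O) : (((19959209273 / 20000000000) : ℚ) : ℝ) ≤ O.D 10 :=
  Sys.DLo H.b10 (hiA14 H) (upA14 H) (hiD14 H) (upD14 H) (hiE14 H) (upE14 H) (by decide +kernel)
theorem loC11 (H : Base M O) : (((100328019833 / 100000000000) : ℚ) : ℝ) ≤ O.C 11 :=
  Sys.CLo H.a11 (by decide)
theorem loD11 (H : Base M O) : (((12481721489 / 12500000000) : ℚ) : ℝ) ≤ O.D 11 :=
  Sys.DLo H.b11 (hiA14 H) (upA14 H) (hiD14 H) (upD14 H) (hiE14 H) (upE14 H) (by decide +kernel)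
theorem loC12 (H : Base M O) : (((100208174707 / 100000000000) : ℚ) : ℝ) ≤ O.C 12 :=
  Sys.CLo H.a12 (by decide)
theorem loD12 (H : Base M O) : (((24972867187 / 25000000000) : ℚ) : ℝ) ≤ O.D 12 :=
  Sys.DLo H.b12 (hiA14 H) (upA14 H) (hiD14 H) (upD14 H) (hiE14 H) (upE14 H) (by decide +kernel)
theorem loC13 (H : Base M O) : (((20025291663 / 20000000000) : ℚ) : ℝ) ≤ O.C 13 :=
  Sys.CLo H.a13 (by decide)
theorem loD13 (H : Base M O) : (((199831711941 / 200000000000) : ℚ) : ℝ) ≤ O.D 13 :=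
  Sys.DLo H.b13 (hiA14 H) (upA14 H) (hiD14 H) (upD14 H) (hiE14 H) (upE14 H) (by decide +kernel)
theorem loC14 (H : Base M O) : (((100070764639 / 100000000000) : ℚ) : ℝ) ≤ O.C 14 :=
  Sys.CLo H.a14 (by decide)
theorem loD14 (H : Base M O) : (((999313272861 / 1000000000000) : ℚ) : ℝ) ≤ O.D 14 :=
  Sys.DLo H.b14 (hiA14 H) (upA14 H) (hiD14 H) (upD14 H) (hiE14 H) (upE14 H) (by decide +kernel)
theorem loC15 (H : Base M O) : (((7815058407 / 7812500000) : ℚ) : ℝ) ≤ O.C 15 :=
  Sys.CLo H.a15 (by decide)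
theorem loD15 (H : Base M O) : (((124926017793 / 125000000000) : ℚ) : ℝ) ≤ O.D 15 :=
  Sys.DLo H.b15 (hiA14 H) (upA14 H) (hiD14 H) (upD14 H) (hiE14 H) (upE14 H) (by decide +kernel)
theorem loC16 (H : Base M O) : (((2000133334491 / 2000000000000) : ℚ) : ℝ) ≤ O.C 16 :=
  Sys.CLo H.a16 (by decide)
theorem loD16 (H : Base M O) : (((99946290463 / 100000000000) : ℚ) : ℝ) ≤ O.D 16 :=
  Sys.DLo H.b16 (hiA14 H) (upA14 H) (hiD14 H) (upD14 H) (hiE14 H) (upE14 H) (by decide +kernel)
theorem loC17 (H : Base M O) : (((999885964951 / 1000000000000) : ℚ) : ℝ) ≤ O.C 17 :=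
  Sys.CLo H.a17 (by decide)
theorem loD17 (H : Base M O) : (((249872718693 / 250000000000) : ℚ) : ℝ) ≤ O.D 17 :=
  Sys.DLo H.b17 (hiA14 H) (upA14 H) (hiD14 H) (upD14 H) (hiE14 H) (upE14 H) (by decide +kernel)
theorem loC18 (H : Base M O) : (((499879355857 / 500000000000) : ℚ) : ℝ) ≤ O.C 18 :=
  Sys.CLo H.a18 (by decide)
theorem loD18 (H : Base M O) : (((499750509761 / 500000000000) : ℚ) : ℝ) ≤ O.D 18 :=
  Sys.DLo H.b18 (hiA14 H) (upA14 H) (hiD14 H) (upD14 H) (hiE14 H) (upE14 H) (by decide +kernel)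
theorem loC19 (H : Base M O) : (((99966693063 / 100000000000) : ℚ) : ℝ) ≤ O.C 19 :=
  Sys.CLo H.a19 (by decide)
theorem loD19 (H : Base M O) : (((9994993549 / 10000000000) : ℚ) : ℝ) ≤ O.D 19 :=
  Sys.DLo H.b19 (hiA14 H) (upA14 H) (hiD14 H) (upD14 H) (hiE14 H) (upE14 H) (by decide +kernel)
theorem loC20 (H : Base M O) : (((999598577643 / 1000000000000) : ℚ) : ℝ) ≤ O.C 20 :=
  Sys.CLo H.a20 (by decide)
theorem loD20 (H : Base M O) : (((999489899007 / 1000000000000) : ℚ) : ℝ) ≤ O.D 20 :=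
  Sys.DLo H.b20 (hiA14 H) (upA14 H) (hiD14 H) (upD14 H) (hiE14 H) (upE14 H) (by decide +kernel)
theorem loC21 (H : Base M O) : (((124943203903 / 125000000000) : ℚ) : ℝ) ≤ O.C 21 :=
  Sys.CLo H.a21 (by decide)
theorem loD21 (H : Base M O) : (((999475322923 / 1000000000000) : ℚ) : ℝ) ≤ O.D 21 :=
  Sys.DLo H.b21 (hiA14 H) (upA14 H) (hiD14 H) (upD14 H) (hiE14 H) (upE14 H) (by decide +kernel)
theorem loC22 (H : Base M O) : (((49975138787 / 50000000000) : ℚ) : ℝ) ≤ O.C 22 :=
  Sys.CLo H.a22 (by decide)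
theorem loD22 (H : Base M O) : (((999457392777 / 1000000000000) : ℚ) : ℝ) ≤ O.D 22 :=
  Sys.DLo H.b22 (hiA14 H) (upA14 H) (hiD14 H) (upD14 H) (hiE14 H) (upE14 H) (by decide +kernel)
theorem loE8 (H : Base M O) : (((745503247 / 1000000000) : ℚ) : ℝ) ≤ O.Co 8 :=
  OSys.CoLo H.e8
theorem loE22 (H : Base M O) : (((73946047 / 100000000) : ℚ) : ℝ) ≤ O.Co 22 :=
  OSys.CoLo H.e22
theorem loE34 (H : Base M O) : (((739500703 / 1000000000) : ℚ) : ℝ) ≤ O.Co 34 :=
  OSys.CoLo H.e34
theorem loE36 (H : Base M O) : (((184877903 / 250000000) : ℚ) : ℝ) ≤ O.Co 36 :=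
  OSys.CoLo H.e36
theorem loA11 (H : Base M O) : (((99966203 / 100000000) : ℚ) : ℝ) ≤ O.A 11 :=
  Sys.ALo (hiA11 H) (loC22 H) (loD22 H) (9899019953 / 10000000000) (3161311 / 2000000000) (by decide +kernel)
theorem loB11 (H : Base M O) : (((9856172529 / 10000000000) : ℚ) : ℝ) ≤ O.B 11 :=
  Sys.BLo (hiA11 H) (loA11 H) (upA11 H) (hiB11 H) (loC12 H) (loD12 H) (8497897 / 500000000) (168223827449 / 200000000000) (9814519729 / 10000000000) (69297131 / 100000000000) (by decide +kernel)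
theorem loA12 (H : Base M O) : (((9996790953 / 10000000000) : ℚ) : ℝ) ≤ O.A 12 :=
  Sys.ALo (hiA12 H) (loC22 H) (loD22 H) (4957507241 / 5000000000) (33982403 / 50000000000) (by decide +kernel)
theorem loB12 (H : Base M O) : (((989170083 / 1000000000) : ℚ) : ℝ) ≤ O.B 12 :=
  Sys.BLo (hiA12 H) (loA12 H) (upA12 H) (hiB12 H) (loC12 H) (loD12 H) (2650597 / 250000000) (878267678919 / 1000000000000) (196981879 / 200000000) (9481089 / 12500000000) (by decide +kernel)
theorem loA13 (H : Base M O) : (((999670437 / 1000000000) : ℚ) : ℝ) ≤ O.A 13 :=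
  Sys.ALo (hiA13 H) (loC22 H) (loD22 H) (9926128699 / 10000000000) (17047659 / 50000000000) (by decide +kernel)
theorem loB13 (H : Base M O) : (((1983052661 / 2000000000) : ℚ) : ℝ) ≤ O.B 13 :=
  Sys.BLo (hiA13 H) (loA13 H) (upA13 H) (hiB13 H) (loC13 H) (loD13 H) (23946633 / 5000000000) (895799883519 / 1000000000000) (1974488897 / 2000000000) (52732819 / 100000000000) (by decide +kernel)
theorem loA14 (H : Base M O) : (((9996526107 / 10000000000) : ℚ) : ℝ) ≤ O.A 14 :=
  Sys.ALo (hiA14 H) (loC22 H) (loD22 H) (2483359353 / 2500000000) (20275399 / 100000000000) (by decide +kernel)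
theorem loB14 (H : Base M O) : (((2482852577 / 2500000000) : ℚ) : ℝ) ≤ O.B 14 :=
  Sys.BLo (hiA14 H) (loA14 H) (upA14 H) (hiB14 H) (loC13 H) (loD13 H) (35043943 / 10000000000) (915234982767 / 1000000000000) (4940587183 / 5000000000) (20569011 / 25000000000) (by decide +kernel)
theorem loA15 (H : Base M O) : (((4998155733 / 5000000000) : ℚ) : ℝ) ≤ O.A 15 :=
  Sys.ALo (hiA15 H) (loC22 H) (loD22 H) (9937727493 / 10000000000) (14410851 / 100000000000) (by decide +kernel)
theorem loB15 (H : Base M O) : (((248562083 / 250000000) : ℚ) : ℝ) ≤ O.B 15 :=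
  Sys.BLo (hiA15 H) (loA15 H) (upA15 H) (hiB15 H) (loC14 H) (loD14 H) (9097073 / 5000000000) (230781443263 / 250000000000) (2472252237 / 2500000000) (14137359 / 20000000000) (by decide +kernel)
theorem loA16 (H : Base M O) : (((2499020031 / 2500000000) : ℚ) : ℝ) ≤ O.A 16 :=
  Sys.ALo (hiA16 H) (loC22 H) (loD22 H) (4969790971 / 5000000000) (6098547 / 50000000000) (by decide +kernel)
theorem loB16 (H : Base M O) : (((9949904319 / 10000000000) : ℚ) : ℝ) ≤ O.B 16 :=
  Sys.BLo (hiA16 H) (loA16 H) (upA16 H) (hiB16 H) (loC15 H) (loD15 H) (645649 / 625000000) (9280814457 / 10000000000) (1978521129 / 2000000000) (16156549 / 25000000000) (by decide +kernel)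
theorem loA17 (H : Base M O) : (((2498959741 / 2500000000) : ℚ) : ℝ) ≤ O.A 17 :=
  Sys.ALo (hiA17 H) (loC22 H) (loD22 H) (9939405231 / 10000000000) (6064167 / 50000000000) (by decide +kernel)
theorem loB17 (H : Base M O) : (((9954391867 / 10000000000) : ℚ) : ℝ) ≤ O.B 17 :=
  Sys.BLo (hiA17 H) (loA17 H) (upA17 H) (hiB17 H) (loC16 H) (loD16 H) (8131283 / 12500000000) (930094239043 / 1000000000000) (2473200133 / 2500000000) (62347623 / 100000000000) (by decide +kernel)
theorem hiO17 (H : Base M O) : O.Ao 4 17 ≤ (((3965351531 / 500000000000) : ℚ) : ℝ) :=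
  H.L.hiAo H.h17 (by decide +kernel)
theorem hiP17 (H : Base M O) : O.Bo 4 17 ≤ (((1716864503 / 250000000000) : ℚ) : ℝ) :=
  H.L.hiBo H.h17 (by decide +kernel)
theorem upW17 (H : Base M O) : O.ω 17 ≤ (((314276297 / 50000000000) : ℚ) : ℝ) :=
  H.L.upW H.h17 (loA17 H) (326274333 / 500000000) (-10678441417 / 10000000000) (53369289 / 500000000) (1999583853 / 2000000000) (-7311276469 / 20000000000) (-7135626923 / 50000000000) (by decide +kernel)

end Crest.Agent.R347.Num
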