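import Crest.Agent.R347.D.C0

/-! Row 347: the numerical chain (computer generated) -/

set_option autoImplicit false
set_option Elab.async false
set_option linter.unusedVariables false

namespace Crest.Agent.R347.Num

variable {M : Model} {O : OSys}

theorem n45 (H : Base M O) : O.Mu 11 (10463288229 / 10000000000) :=
  Sys.MuI (upA11 H) (loB11 H) (by decide +kernel)
theorem n46 (H : Base M O) : LeQ (O.u 11) (4999839451081 / 5000000000000) 1 :=
  Sys.PuUp (upA11 H) (upB11 H) (by decide +kernel)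
theorem n52 (H : Base M O) : O.SZ 5 11 (183391 / 1000000) :=
  Sys.SZI (hiA11 H) (hiB11 H) (loA11 H) (loB11 H) (by decide +kernel)
theorem n57 (H : Base M O) : O.SX 9 11 (605087 / 10000000) :=
  Sys.SXI (hiC11 H) (upC11 H) (hiD11 H) (upD11 H) (hiE11 H) (upE11 H) (loA11 H) (loB11 H) (1383 / 1250000) (66961 / 50000000) (204883 / 100000000) (by decide +kernel)
theorem n58 (H : Base M O) : O.SX 10 11 (54761 / 1250000) :=
  Sys.SXI (hiC11 H) (upC11 H) (hiD11 H) (upD11 H) (hiE11 H) (upE11 H) (loA11 H) (loB11 H) (259673 / 500000000) (642111 / 1000000000) (25747 / 25000000) (by decide +kernel)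
theorem n59 (H : Base M O) : O.SX 11 11 (318063 / 10000000) :=
  Sys.SXI (hiC11 H) (upC11 H) (hiD11 H) (upD11 H) (hiE11 H) (upE11 H) (loA11 H) (loB11 H) (243783 / 1000000000) (307873 / 1000000000) (517681 / 1000000000) (by decide +kernel)
theorem n60 (H : Base M O) : O.SX 12 11 (46271 / 2000000) :=
  Sys.SXI (hiC11 H) (upC11 H) (hiD11 H) (upD11 H) (hiE11 H) (upE11 H) (loA11 H) (loB11 H) (114433 / 1000000000) (4613 / 31250000) (13011 / 50000000) (by decide +kernel)
theorem n61 (H : Base M O) : O.SX 13 11 (168497 / 10000000) :=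
  Sys.SXI (hiC11 H) (upC11 H) (hiD11 H) (upD11 H) (hiE11 H) (upE11 H) (loA11 H) (loB11 H) (134287 / 2500000000) (176943 / 2500000000) (32701 / 250000000) (by decide +kernel)
theorem n63 (H : Base M O) : O.SX 15 11 (895761 / 100000000) :=
  Sys.SXI (hiC11 H) (upC11 H) (hiD11 H) (upD11 H) (hiE11 H) (upE11 H) (loA11 H) (loB11 H) (23671 / 2000000000) (162711 / 10000000000) (41313 / 1250000000) (by decide +kernel)
theorem n64 (H : Base M O) : O.SX 16 11 (13071 / 2000000) :=
  Sys.SXI (hiC11 H) (upC11 H) (hiD11 H) (upD11 H) (hiE11 H) (upE11 H) (loA11 H) (loB11 H) (13889 / 2500000000) (780147 / 100000000000) (166133 / 10000000000) (by decide +kernel)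
theorem n65 (H : Base M O) : O.SX 17 11 (59619 / 12500000) :=
  Sys.SXI (hiC11 H) (upC11 H) (hiD11 H) (upD11 H) (hiE11 H) (upE11 H) (loA11 H) (loB11 H) (130391 / 50000000000) (374057 / 100000000000) (52193 / 6250000000) (by decide +kernel)
theorem n66 (H : Base M O) : O.SX 18 11 (87033 / 25000000) :=
  Sys.SXI (hiC11 H) (upC11 H) (hiD11 H) (upD11 H) (hiE11 H) (upE11 H) (loA11 H) (loB11 H) (30603 / 25000000000) (179349 / 100000000000) (41977 / 10000000000) (by decide +kernel)
theorem n67 (H : Base M O) : O.SX 19 11 (254133 / 100000000) :=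
  Sys.SXI (hiC11 H) (upC11 H) (hiD11 H) (upD11 H) (hiE11 H) (upE11 H) (loA11 H) (loB11 H) (574603 / 1000000000000) (859923 / 1000000000000) (52751 / 25000000000) (by decide +kernel)
theorem n73 (H : Base M O) : O.SX 28 11 (14983 / 100000000) :=
  Sys.SXI (hiC11 H) (upC11 H) (hiD11 H) (upD11 H) (hiE11 H) (upE11 H) (loA11 H) (loB11 H) (635739 / 1000000000000000) (57581 / 50000000000000) (432309 / 100000000000000) (by decide +kernel)
theorem n102 (H : Base M O) : O.Mu 12 (1035973767 / 1000000000) :=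
  Sys.MuI (upA12 H) (loB12 H) (by decide +kernel)
theorem n103 (H : Base M O) : LeQ (O.u 12) (2000040574147 / 2000000000000) 1 :=
  Sys.PuUp (upA12 H) (upB12 H) (by decide +kernel)
theorem n109 (H : Base M O) : O.SZ 5 12 (150643 / 1000000) :=
  Sys.SZI (hiA12 H) (hiB12 H) (loA12 H) (loB12 H) (by decide +kernel)
theorem n115 (H : Base M O) : O.SX 10 12 (452799 / 10000000) :=
  Sys.SXI (hiC12 H) (upC12 H) (hiD12 H) (upD12 H) (hiE12 H) (upE12 H) (loA12 H) (loB12 H) (110183 / 125000000) (20531 / 20000000) (71961 / 50000000) (by decide +kernel)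
theorem n124 (H : Base M O) : O.SX 19 12 (266387 / 100000000) :=
  Sys.SXI (hiC12 H) (upC12 H) (hiD12 H) (upD12 H) (hiE12 H) (upE12 H) (loA12 H) (loB12 H) (39249 / 25000000000) (52427 / 25000000000) (398511 / 100000000000) (by decide +kernel)
theorem n125 (H : Base M O) : O.SX 20 12 (194923 / 100000000) :=
  Sys.SXI (hiC12 H) (upC12 H) (hiD12 H) (upD12 H) (hiE12 H) (upE12 H) (loA12 H) (loB12 H) (776979 / 1000000000000) (105379 / 100000000000) (41427 / 20000000000) (by decide +kernel)
theorem n126 (H : Base M O) : O.SX 21 12 (35661 / 25000000) :=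
  Sys.SXI (hiC12 H) (upC12 H) (hiD12 H) (upD12 H) (hiE12 H) (upE12 H) (loA12 H) (loB12 H) (38453 / 100000000000) (52953 / 100000000000) (107663 / 100000000000) (by decide +kernel)
theorem n127 (H : Base M O) : O.SX 22 12 (104393 / 100000000) :=
  Sys.SXI (hiC12 H) (upC12 H) (hiD12 H) (upD12 H) (hiE12 H) (upE12 H) (loA12 H) (loB12 H) (38061 / 200000000000) (26609 / 100000000000) (559601 / 1000000000000) (by decide +kernel)
theorem n128 (H : Base M O) : O.SX 24 12 (559181 / 1000000000) :=
  Sys.SXI (hiC12 H) (upC12 H) (hiD12 H) (upD12 H) (hiE12 H) (upE12 H) (loA12 H) (loB12 H) (466113 / 10000000000000) (335949 / 5000000000000) (9449 / 62500000000) (by decide +kernel)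
theorem n129 (H : Base M O) : O.SX 26 12 (149777 / 500000000) :=
  Sys.SXI (hiC12 H) (upC12 H) (hiD12 H) (upD12 H) (hiE12 H) (upE12 H) (loA12 H) (loB12 H) (22833 / 2000000000000) (8483 / 500000000000) (10211 / 250000000000) (by decide +kernel)
theorem n130 (H : Base M O) : O.SX 28 12 (80239 / 500000000) :=
  Sys.SXI (hiC12 H) (upC12 H) (hiD12 H) (upD12 H) (hiE12 H) (upE12 H) (loA12 H) (loB12 H) (279623 / 100000000000000) (85681 / 20000000000000) (55173 / 5000000000000) (by decide +kernel)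
theorem n131 (H : Base M O) : O.SX 30 12 (214933 / 2500000000) :=
  Sys.SXI (hiC12 H) (upC12 H) (hiD12 H) (upD12 H) (hiE12 H) (upE12 H) (loA12 H) (loB12 H) (684879 / 1000000000000000) (6761 / 6250000000000) (2329 / 781250000000) (by decide +kernel)
theorem n132 (H : Base M O) : O.SX 32 12 (28787 / 625000000) :=
  Sys.SXI (hiC12 H) (upC12 H) (hiD12 H) (upD12 H) (hiE12 H) (upE12 H) (loA12 H) (loB12 H) (167747 / 1000000000000000) (1067 / 3906250000000) (402693 / 500000000000000) (by decide +kernel)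
theorem n133 (H : Base M O) : O.SX 34 12 (123379 / 5000000000) :=
  Sys.SXI (hiC12 H) (upC12 H) (hiD12 H) (upD12 H) (hiE12 H) (upE12 H) (loA12 H) (loB12 H) (205431 / 5000000000000000) (689731 / 10000000000000000) (108793 / 500000000000000) (by decide +kernel)
theorem n159 (H : Base M O) : O.Mu 13 (10286018229 / 10000000000) :=
  Sys.MuI (upA13 H) (loB13 H) (by decide +kernel)
theorem n160 (H : Base M O) : LeQ (O.u 13) (2500148677599 / 2500000000000) 1 :=
  Sys.PuUp (upA13 H) (upB13 H) (by decide +kernel)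
theorem n166 (H : Base M O) : O.SZ 5 13 (25677 / 200000) :=
  Sys.SZI (hiA13 H) (hiB13 H) (loA13 H) (loB13 H) (by decide +kernel)
theorem n173 (H : Base M O) : O.SX 11 13 (347739 / 10000000) :=
  Sys.SXI (hiC13 H) (upC13 H) (hiD13 H) (upD13 H) (hiE13 H) (upE13 H) (loA13 H) (loB13 H) (71337 / 100000000) (403063 / 500000000) (104709 / 100000000) (by decide +kernel)
theorem n174 (H : Base M O) : O.SX 12 13 (253801 / 10000000) :=
  Sys.SXI (hiC13 H) (upC13 H) (hiD13 H) (upD13 H) (hiE13 H) (upE13 H) (loA13 H) (loB13 H) (369193 / 1000000000) (421859 / 1000000000) (561143 / 1000000000) (by decide +kernel)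
theorem n175 (H : Base M O) : O.SX 13 13 (18561 / 1000000) :=
  Sys.SXI (hiC13 H) (upC13 H) (hiD13 H) (upD13 H) (hiE13 H) (upE13 H) (loA13 H) (loB13 H) (191069 / 1000000000) (110383 / 500000000) (300721 / 1000000000) (by decide +kernel)
theorem n186 (H : Base M O) : O.SX 26 13 (83869 / 250000000) :=
  Sys.SXI (hiC13 H) (upC13 H) (hiD13 H) (upD13 H) (hiE13 H) (upE13 H) (loA13 H) (loB13 H) (182537 / 5000000000000) (487373 / 10000000000000) (452163 / 5000000000000) (by decide +kernel)
theorem n187 (H : Base M O) : O.SX 28 13 (36257 / 200000000) :=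
  Sys.SXI (hiC13 H) (upC13 H) (hiD13 H) (upD13 H) (hiE13 H) (upE13 H) (loA13 H) (loB13 H) (977813 / 100000000000000) (4171 / 312500000000) (259719 / 10000000000000) (by decide +kernel)
theorem n188 (H : Base M O) : O.SX 30 13 (195933 / 2000000000) :=
  Sys.SXI (hiC13 H) (upC13 H) (hiD13 H) (upD13 H) (hiE13 H) (upE13 H) (loA13 H) (loB13 H) (130949 / 50000000000000) (14621 / 4000000000000) (46619 / 6250000000000) (by decide +kernel)
theorem n189 (H : Base M O) : O.SX 32 13 (21177 / 400000000) :=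
  Sys.SXI (hiC13 H) (upC13 H) (hiD13 H) (upD13 H) (hiE13 H) (upE13 H) (loA13 H) (loB13 H) (350733 / 500000000000000) (100103 / 100000000000000) (214221 / 100000000000000) (by decide +kernel)
theorem n190 (H : Base M O) : O.SX 34 13 (286113 / 10000000000) :=
  Sys.SXI (hiC13 H) (upC13 H) (hiD13 H) (upD13 H) (hiE13 H) (upE13 H) (loA13 H) (loB13 H) (187881 / 1000000000000000) (13707 / 50000000000000) (307617 / 500000000000000) (by decide +kernel)
theorem n191 (H : Base M O) : O.SX 36 13 (77311 / 5000000000) :=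
  Sys.SXI (hiC13 H) (upC13 H) (hiD13 H) (upD13 H) (hiE13 H) (upE13 H) (loA13 H) (loB13 H) (25161 / 500000000000000) (750759 / 10000000000000000) (176693 / 1000000000000000) (by decide +kernel)
theorem n223 (H : Base M O) : O.SZ 5 14 (113861 / 1000000) :=
  Sys.SZI (hiA14 H) (hiB14 H) (loA14 H) (loB14 H) (by decide +kernel)
theorem n234 (H : Base M O) : O.SX 15 14 (2183 / 200000) :=
  Sys.SXI (hiC14 H) (upC14 H) (hiD14 H) (upD14 H) (hiE14 H) (upE14 H) (loA14 H) (loB14 H) (909439 / 10000000000) (51431 / 500000000) (131767 / 1000000000) (by decide +kernel)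
theorem n235 (H : Base M O) : O.SX 16 14 (6439 / 800000) :=
  Sys.SXI (hiC14 H) (upC14 H) (hiD14 H) (upD14 H) (hiE14 H) (upE14 H) (loA14 H) (loB14 H) (15283 / 312500000) (111541 / 2000000000) (363157 / 5000000000) (by decide +kernel)
theorem n280 (H : Base M O) : O.SZ 5 15 (52623 / 500000) :=
  Sys.SZI (hiA15 H) (hiB15 H) (loA15 H) (loB15 H) (by decide +kernel)
theorem n287 (H : Base M O) : O.SX 11 15 (204077 / 5000000) :=
  Sys.SXI (hiC15 H) (upC15 H) (hiD15 H) (upD15 H) (hiE15 H) (upE15 H) (loA15 H) (loB15 H) (19617 / 12500000) (83939 / 50000000) (95091 / 50000000) (by decide +kernel)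
theorem n288 (H : Base M O) : O.SX 12 15 (300669 / 10000000) :=
  Sys.SXI (hiC15 H) (upC15 H) (hiD15 H) (upD15 H) (hiE15 H) (upE15 H) (loA15 H) (loB15 H) (174509 / 200000000) (469559 / 500000000) (53801 / 50000000) (by decide +kernel)
theorem n289 (H : Base M O) : O.SX 13 15 (27757 / 1250000) :=
  Sys.SXI (hiC15 H) (upC15 H) (hiD15 H) (upD15 H) (hiE15 H) (upE15 H) (loA15 H) (loB15 H) (3881 / 8000000) (131337 / 250000000) (152199 / 250000000) (by decide +kernel)
theorem n293 (H : Base M O) : O.SX 17 15 (335483 / 50000000) :=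
  Sys.SXI (hiC15 H) (upC15 H) (hiD15 H) (upD15 H) (hiE15 H) (upE15 H) (loA15 H) (loB15 H) (463571 / 10000000000) (514463 / 10000000000) (623847 / 10000000000) (by decide +kernel)
theorem n294 (H : Base M O) : O.SX 18 15 (49859 / 10000000) :=
  Sys.SXI (hiC15 H) (upC15 H) (hiD15 H) (upD15 H) (hiE15 H) (upE15 H) (loA15 H) (loB15 H) (12887 / 500000000) (287793 / 10000000000) (88241 / 2500000000) (by decide +kernel)
theorem n295 (H : Base M O) : O.SX 19 15 (74137 / 20000000) :=
  Sys.SXI (hiC15 H) (upC15 H) (hiD15 H) (upD15 H) (hiE15 H) (upE15 H) (loA15 H) (loB15 H) (143301 / 10000000000) (160993 / 10000000000) (99851 / 5000000000) (by decide +kernel)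
theorem n296 (H : Base M O) : O.SX 20 15 (275697 / 100000000) :=
  Sys.SXI (hiC15 H) (upC15 H) (hiD15 H) (upD15 H) (hiE15 H) (upE15 H) (loA15 H) (loB15 H) (796733 / 100000000000) (900603 / 100000000000) (112989 / 10000000000) (by decide +kernel)
theorem n297 (H : Base M O) : O.SX 21 15 (205109 / 100000000) :=
  Sys.SXI (hiC15 H) (upC15 H) (hiD15 H) (upD15 H) (hiE15 H) (upE15 H) (loA15 H) (loB15 H) (17719 / 4000000000) (503803 / 100000000000) (639271 / 100000000000) (by decide +kernel)
theorem n298 (H : Base M O) : O.SX 22 15 (38157 / 25000000) :=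
  Sys.SXI (hiC15 H) (upC15 H) (hiD15 H) (upD15 H) (hiE15 H) (upE15 H) (loA15 H) (loB15 H) (246289 / 100000000000) (28183 / 10000000000) (36169 / 10000000000) (by decide +kernel)
theorem n330 (H : Base M O) : O.Mu 16 (2033708417 / 2000000000) :=
  Sys.MuI (upA16 H) (loB16 H) (by decide +kernel)
theorem n337 (H : Base M O) : O.SZ 5 16 (12661 / 125000) :=
  Sys.SZI (hiA16 H) (hiB16 H) (loA16 H) (loB16 H) (by decide +kernel)
theorem n342 (H : Base M O) : O.SX 9 16 (828367 / 10000000) :=
  Sys.SXI (hiC16 H) (upC16 H) (hiD16 H) (upD16 H) (hiE16 H) (upE16 H) (loA16 H) (loB16 H) (661347 / 100000000) (344683 / 50000000) (738937 / 100000000) (by decide +kernel)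
theorem n343 (H : Base M O) : O.SX 10 16 (609329 / 10000000) :=
  Sys.SXI (hiC16 H) (upC16 H) (hiD16 H) (upD16 H) (hiE16 H) (upE16 H) (loA16 H) (loB16 H) (75733 / 20000000) (99133 / 25000000) (214169 / 50000000) (by decide +kernel)
theorem n349 (H : Base M O) : O.SX 16 16 (103067 / 10000000) :=
  Sys.SXI (hiC16 H) (upC16 H) (hiD16 H) (upD16 H) (hiE16 H) (upE16 H) (loA16 H) (loB16 H) (16677 / 125000000) (14363 / 100000000) (81251 / 500000000) (by decide +kernel)
theorem n350 (H : Base M O) : O.SX 17 16 (770929 / 100000000) :=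
  Sys.SXI (hiC16 H) (upC16 H) (hiD16 H) (upD16 H) (hiE16 H) (upE16 H) (loA16 H) (loB16 H) (763893 / 10000000000) (413087 / 5000000000) (58873 / 625000000) (by decide +kernel)
theorem n355 (H : Base M O) : O.SX 22 16 (5691 / 3125000) :=
  Sys.SXI (hiC16 H) (upC16 H) (hiD16 H) (upD16 H) (hiE16 H) (upE16 H) (loA16 H) (loB16 H) (470067 / 100000000000) (65031 / 12500000000) (123299 / 20000000000) (by decide +kernel)
theorem n356 (H : Base M O) : O.SX 24 16 (25617 / 25000000) :=
  Sys.SXI (hiC16 H) (upC16 H) (hiD16 H) (upD16 H) (hiE16 H) (upE16 H) (loA16 H) (loB16 H) (154103 / 100000000000) (86067 / 50000000000) (207151 / 100000000000) (by decide +kernel)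
theorem n357 (H : Base M O) : O.SX 26 16 (576853 / 1000000000) :=
  Sys.SXI (hiC16 H) (upC16 H) (hiD16 H) (upD16 H) (hiE16 H) (upE16 H) (loA16 H) (loB16 H) (252599 / 500000000000) (8899 / 15625000000) (139211 / 200000000000) (by decide +kernel)
theorem n358 (H : Base M O) : O.SX 28 16 (20303 / 62500000) :=
  Sys.SXI (hiC16 H) (upC16 H) (hiD16 H) (upD16 H) (hiE16 H) (upE16 H) (loA16 H) (loB16 H) (8281 / 50000000000) (94221 / 500000000000) (46777 / 200000000000) (by decide +kernel)
theorem n359 (H : Base M O) : O.SX 30 16 (182969 / 1000000000) :=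
  Sys.SXI (hiC16 H) (upC16 H) (hiD16 H) (upD16 H) (hiE16 H) (upE16 H) (loA16 H) (loB16 H) (271477 / 5000000000000) (311747 / 5000000000000) (785883 / 10000000000000) (by decide +kernel)
theorem n387 (H : Base M O) : O.Mu 17 (2030369667 / 2000000000) :=
  Sys.MuI (upA17 H) (loB17 H) (by decide +kernel)
theorem n394 (H : Base M O) : O.SZ 5 17 (101169 / 1000000) :=
  Sys.SZI (hiA17 H) (hiB17 H) (loA17 H) (loB17 H) (by decide +kernel)
theorem n405 (H : Base M O) : O.SX 15 17 (31701 / 2000000) :=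
  Sys.SXI (hiC17 H) (upC17 H) (hiD17 H) (upD17 H) (hiE17 H) (upE17 H) (loA17 H) (loB17 H) (42923 / 125000000) (72377 / 200000000) (391173 / 1000000000) (by decide +kernel)
theorem n408 (H : Base M O) : O.SX 18 17 (21241 / 3125000) :=
  Sys.SXI (hiC17 H) (upC17 H) (hiD17 H) (upD17 H) (hiE17 H) (upE17 H) (loA17 H) (loB17 H) (174131 / 2500000000) (148359 / 2000000000) (814409 / 10000000000) (by decide +kernel)
theorem n409 (H : Base M O) : O.SX 19 17 (513439 / 100000000) :=
  Sys.SXI (hiC17 H) (upC17 H) (hiD17 H) (upD17 H) (hiE17 H) (upE17 H) (loA17 H) (loB17 H) (409249 / 10000000000) (437377 / 10000000000) (482689 / 10000000000) (by decide +kernel)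
theorem n410 (H : Base M O) : O.SX 20 17 (48507 / 12500000) :=
  Sys.SXI (hiC17 H) (upC17 H) (hiD17 H) (upD17 H) (hiE17 H) (upE17 H) (loA17 H) (loB17 H) (240459 / 10000000000) (128943 / 5000000000) (286083 / 10000000000) (by decide +kernel)
theorem n411 (H : Base M O) : O.SX 21 17 (293421 / 100000000) :=
  Sys.SXI (hiC17 H) (upC17 H) (hiD17 H) (upD17 H) (hiE17 H) (upE17 H) (loA17 H) (loB17 H) (35321 / 2500000000) (30411 / 2000000000) (84779 / 5000000000) (by decide +kernel)
theorem n412 (H : Base M O) : O.SX 22 17 (221941 / 100000000) :=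
  Sys.SXI (hiC17 H) (upC17 H) (hiD17 H) (upD17 H) (hiE17 H) (upE17 H) (loA17 H) (loB17 H) (415063 / 50000000000) (44827 / 5000000000) (20099 / 2000000000) (by decide +kernel)
theorem n413 (H : Base M O) : O.SX 24 17 (63537 / 50000000) :=
  Sys.SXI (hiC17 H) (upC17 H) (hiD17 H) (upD17 H) (hiE17 H) (upE17 H) (loA17 H) (loB17 H) (143291 / 50000000000) (311683 / 100000000000) (88253 / 25000000000) (by decide +kernel)
theorem n414 (H : Base M O) : O.SX 26 17 (91007 / 125000000) :=
  Sys.SXI (hiC17 H) (upC17 H) (hiD17 H) (upD17 H) (hiE17 H) (upE17 H) (loA17 H) (loB17 H) (494677 / 500000000000) (108357 / 100000000000) (24801 / 20000000000) (by decide +kernel)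
theorem n415 (H : Base M O) : O.SX 28 17 (208653 / 500000000) :=
  Sys.SXI (hiC17 H) (upC17 H) (hiD17 H) (upD17 H) (hiE17 H) (upE17 H) (loA17 H) (loB17 H) (341551 / 1000000000000) (188351 / 500000000000) (1089 / 2500000000) (by decide +kernel)
theorem n416 (H : Base M O) : O.SX 30 17 (239251 / 1000000000) :=
  Sys.SXI (hiC17 H) (upC17 H) (hiD17 H) (upD17 H) (hiE17 H) (upE17 H) (loA17 H) (loB17 H) (117913 / 1000000000000) (130961 / 1000000000000) (19127 / 125000000000) (by decide +kernel)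
theorem n417 (H : Base M O) : O.SX 32 17 (137189 / 1000000000) :=
  Sys.SXI (hiC17 H) (upC17 H) (hiD17 H) (upD17 H) (hiE17 H) (upE17 H) (loA17 H) (loB17 H) (81413 / 2000000000000) (91057 / 2000000000000) (53751 / 1000000000000) (by decide +kernel)
theorem n418 (H : Base M O) : O.SX 34 17 (786731 / 10000000000) :=
  Sys.SXI (hiC17 H) (upC17 H) (hiD17 H) (upD17 H) (hiE17 H) (upE17 H) (loA17 H) (loB17 H) (14053 / 1000000000000) (3957 / 250000000000) (37763 / 2000000000000) (by decide +kernel)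
theorem n419 (H : Base M O) : O.SX 36 17 (451189 / 10000000000) :=
  Sys.SXI (hiC17 H) (upC17 H) (hiD17 H) (upD17 H) (hiE17 H) (upE17 H) (loA17 H) (loB17 H) (97029 / 20000000000000) (27513 / 5000000000000) (663261 / 100000000000000) (by decide +kernel)
theorem n452 (H : Base M O) : LeQ 1 (10000241698101 / 10000000000000) (O.w 14) :=
  Sys.PwLo (loC14 H) (loD14 H) (by decide +kernel)
theorem n459 (H : Base M O) : LeQ 1 (10000241540577 / 10000000000000) (O.w 21) :=
  Sys.PwLo (loC21 H) (loD21 H) (by decide +kernel)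
theorem n460 (H : Base M O) : LeQ 1 (2000048309933 / 2000000000000) (O.w 22) :=
  Sys.PwLo (loC22 H) (loD22 H) (by decide +kernel)
theorem n492 (H : Base M O) : LeQ (O.u 96) 1 (O.a 96) :=
  Sys.Pua (by decide)
theorem n493 (H : Base M O) : LeQ (O.u 104) 1 (O.a 104) :=
  Sys.Pua (by decide)
theorem n500 (H : Base M O) : LeQ (O.u 256) 1 (O.a 256) :=
  Sys.Pua (by decide)
theorem n502 (H : Base M O) : LeQ (O.u 320) 1 (O.a 320) :=
  Sys.Pua (by decide)
theorem n526 (H : Base M O) : O.SZ 9 11 (472151 / 10000000) :=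
  Sys.SZ.pow (n52 H) (by decide +kernel)
theorem n532 (H : Base M O) : O.SZ 9 17 (2023 / 125000) :=
  Sys.SZ.pow (n394 H) (by decide +kernel)
theorem n533 (H : Base M O) : O.SZ 10 11 (336323 / 10000000) :=
  Sys.SZ.pow (n52 H) (by decide +kernel)
theorem n534 (H : Base M O) : O.SZ 10 12 (113467 / 5000000) :=
  Sys.SZ.pow (n109 H) (by decide +kernel)
theorem n539 (H : Base M O) : O.SZ 10 17 (6397 / 625000) :=
  Sys.SZ.pow (n394 H) (by decide +kernel)
theorem n540 (H : Base M O) : O.SZ 11 11 (23957 / 1000000) :=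
  Sys.SZ.pow (n52 H) (by decide +kernel)
theorem n542 (H : Base M O) : O.SZ 11 13 (109329 / 10000000) :=
  Sys.SZ.pow (n166 H) (by decide +kernel)
theorem n546 (H : Base M O) : O.SZ 11 17 (647299 / 100000000) :=
  Sys.SZ.pow (n394 H) (by decide +kernel)
theorem n547 (H : Base M O) : O.SZ 12 11 (170651 / 10000000) :=
  Sys.SZ.pow (n52 H) (by decide +kernel)
theorem n549 (H : Base M O) : O.SZ 12 13 (725161 / 100000000) :=
  Sys.SZ.pow (n166 H) (by decide +kernel)
theorem n553 (H : Base M O) : O.SZ 12 17 (409369 / 100000000) :=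
  Sys.SZ.pow (n394 H) (by decide +kernel)
theorem n554 (H : Base M O) : O.SZ 13 11 (60779 / 5000000) :=
  Sys.SZ.pow (n52 H) (by decide +kernel)
theorem n556 (H : Base M O) : O.SZ 13 13 (15031 / 3125000) :=
  Sys.SZ.pow (n166 H) (by decide +kernel)
theorem n567 (H : Base M O) : O.SZ 14 17 (40933 / 25000000) :=
  Sys.SZ.pow (n394 H) (by decide +kernel)
theorem n568 (H : Base M O) : O.SZ 15 11 (308393 / 50000000) :=
  Sys.SZ.pow (n52 H) (by decide +kernel)
theorem n571 (H : Base M O) : O.SZ 15 14 (73807 / 50000000) :=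
  Sys.SZ.pow (n223 H) (by decide +kernel)
theorem n575 (H : Base M O) : O.SZ 16 11 (8787 / 2000000) :=
  Sys.SZ.pow (n52 H) (by decide +kernel)
theorem n578 (H : Base M O) : O.SZ 16 14 (955873 / 1000000000) :=
  Sys.SZ.pow (n223 H) (by decide +kernel)
theorem n582 (H : Base M O) : O.SZ 17 11 (156479 / 50000000) :=
  Sys.SZ.pow (n52 H) (by decide +kernel)
theorem n586 (H : Base M O) : O.SZ 17 15 (14803 / 31250000) :=
  Sys.SZ.pow (n280 H) (by decide +kernel)
theorem n589 (H : Base M O) : O.SZ 18 11 (222927 / 100000000) :=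
  Sys.SZ.pow (n52 H) (by decide +kernel)
theorem n593 (H : Base M O) : O.SZ 18 15 (150977 / 500000000) :=
  Sys.SZ.pow (n280 H) (by decide +kernel)
theorem n596 (H : Base M O) : O.SZ 19 11 (31759 / 20000000) :=
  Sys.SZ.pow (n52 H) (by decide +kernel)
theorem n597 (H : Base M O) : O.SZ 19 12 (37599 / 50000000) :=
  Sys.SZ.pow (n109 H) (by decide +kernel)
theorem n600 (H : Base M O) : O.SZ 19 15 (192479 / 1000000000) :=
  Sys.SZ.pow (n280 H) (by decide +kernel)
theorem n604 (H : Base M O) : O.SZ 20 12 (514987 / 1000000000) :=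
  Sys.SZ.pow (n109 H) (by decide +kernel)
theorem n607 (H : Base M O) : O.SZ 20 15 (61347 / 500000000) :=
  Sys.SZ.pow (n280 H) (by decide +kernel)
theorem n611 (H : Base M O) : O.SZ 21 12 (88171 / 250000000) :=
  Sys.SZ.pow (n109 H) (by decide +kernel)
theorem n614 (H : Base M O) : O.SZ 21 15 (782103 / 10000000000) :=
  Sys.SZ.pow (n280 H) (by decide +kernel)
theorem n618 (H : Base M O) : O.SZ 22 12 (241533 / 1000000000) :=
  Sys.SZ.pow (n109 H) (by decide +kernel)
theorem n621 (H : Base M O) : O.SZ 22 15 (249273 / 5000000000) :=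
  Sys.SZ.pow (n280 H) (by decide +kernel)
theorem n622 (H : Base M O) : O.SZ 22 16 (26323 / 625000000) :=
  Sys.SZ.pow (n337 H) (by decide +kernel)
theorem n625 (H : Base M O) : O.SZ 24 12 (113281 / 1000000000) :=
  Sys.SZ.pow (n109 H) (by decide +kernel)
theorem n629 (H : Base M O) : O.SZ 24 16 (168531 / 10000000000) :=
  Sys.SZ.pow (n337 H) (by decide +kernel)
theorem n632 (H : Base M O) : O.SZ 26 12 (265647 / 5000000000) :=
  Sys.SZ.pow (n109 H) (by decide +kernel)
theorem n633 (H : Base M O) : O.SZ 26 13 (231353 / 10000000000) :=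
  Sys.SZ.pow (n166 H) (by decide +kernel)
theorem n636 (H : Base M O) : O.SZ 26 16 (84297 / 12500000000) :=
  Sys.SZ.pow (n337 H) (by decide +kernel)
theorem n638 (H : Base M O) : O.SZ 28 11 (749751 / 10000000000) :=
  Sys.SZ.pow (n52 H) (by decide +kernel)
theorem n639 (H : Base M O) : O.SZ 28 12 (249181 / 10000000000) :=
  Sys.SZ.pow (n109 H) (by decide +kernel)
theorem n640 (H : Base M O) : O.SZ 28 13 (20357 / 2000000000) :=
  Sys.SZ.pow (n166 H) (by decide +kernel)
theorem n643 (H : Base M O) : O.SZ 28 16 (67463 / 25000000000) :=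
  Sys.SZ.pow (n337 H) (by decide +kernel)
theorem n644 (H : Base M O) : O.SZ 28 17 (268081 / 100000000000) :=
  Sys.SZ.pow (n394 H) (by decide +kernel)
theorem n646 (H : Base M O) : O.SZ 30 12 (29217 / 2500000000) :=
  Sys.SZ.pow (n109 H) (by decide +kernel)
theorem n647 (H : Base M O) : O.SZ 30 13 (223901 / 50000000000) :=
  Sys.SZ.pow (n166 H) (by decide +kernel)
theorem n650 (H : Base M O) : O.SZ 30 16 (53991 / 50000000000) :=
  Sys.SZ.pow (n337 H) (by decide +kernel)
theorem n651 (H : Base M O) : O.SZ 30 17 (107223 / 100000000000) :=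
  Sys.SZ.pow (n394 H) (by decide +kernel)
theorem n653 (H : Base M O) : O.SZ 32 12 (274059 / 50000000000) :=
  Sys.SZ.pow (n109 H) (by decide +kernel)
theorem n654 (H : Base M O) : O.SZ 32 13 (49253 / 25000000000) :=
  Sys.SZ.pow (n166 H) (by decide +kernel)
theorem n658 (H : Base M O) : O.SZ 32 17 (428849 / 1000000000000) :=
  Sys.SZ.pow (n394 H) (by decide +kernel)
theorem n660 (H : Base M O) : O.SZ 34 12 (257071 / 100000000000) :=
  Sys.SZ.pow (n109 H) (by decide +kernel)
theorem n661 (H : Base M O) : O.SZ 34 13 (866757 / 1000000000000) :=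
  Sys.SZ.pow (n166 H) (by decide +kernel)
theorem n665 (H : Base M O) : O.SZ 34 17 (42881 / 250000000000) :=
  Sys.SZ.pow (n394 H) (by decide +kernel)
theorem n668 (H : Base M O) : O.SZ 36 13 (95333 / 250000000000) :=
  Sys.SZ.pow (n166 H) (by decide +kernel)
theorem n672 (H : Base M O) : O.SZ 36 17 (171507 / 2500000000000) :=
  Sys.SZ.pow (n394 H) (by decide +kernel)
theorem n894 (H : Base M O) : O.TZ 9 11 (142559 / 1000000) :=
  Sys.TZI (n526 H) (n57 H) (upA11 H) (upB11 H) (loC9 H) (loD9 H) (by decide +kernel)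
theorem n895 (H : Base M O) : O.TX 9 11 (43167 / 250000) :=
  Sys.TXI (n526 H) (n57 H) (upA11 H) (upB11 H) (loB11 H) (loC9 H) (loD9 H) (4388788759 / 5000000000) (by decide +kernel)
theorem n911 (H : Base M O) : O.TZ 10 11 (117653 / 1000000) :=
  Sys.TZI (n533 H) (n58 H) (upA11 H) (upB11 H) (loC10 H) (loD10 H) (by decide +kernel)
theorem n915 (H : Base M O) : O.TX 10 12 (68569 / 500000) :=
  Sys.TXI (n534 H) (n115 H) (upA12 H) (upB12 H) (loB12 H) (loC10 H) (loD10 H) (112103647 / 125000000) (by decide +kernel)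
theorem n928 (H : Base M O) : O.TZ 11 11 (492049 / 5000000) :=
  Sys.TZI (n540 H) (n59 H) (upA11 H) (upB11 H) (loC11 H) (loD11 H) (by decide +kernel)
theorem n935 (H : Base M O) : O.TX 11 13 (113641 / 1000000) :=
  Sys.TXI (n542 H) (n173 H) (upA13 H) (upB13 H) (loB13 H) (loC11 H) (loD11 H) (9106400941 / 10000000000) (by decide +kernel)
theorem n945 (H : Base M O) : O.TZ 12 11 (843257 / 10000000) :=
  Sys.TZI (n547 H) (n60 H) (upA11 H) (upB11 H) (loC12 H) (loD12 H) (by decide +kernel)
theorem n952 (H : Base M O) : O.TX 12 13 (114111 / 1000000) :=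
  Sys.TXI (n549 H) (n174 H) (upA13 H) (upB13 H) (loB13 H) (loC12 H) (loD12 H) (9032091481 / 10000000000) (by decide +kernel)
theorem n962 (H : Base M O) : O.TZ 13 11 (373233 / 5000000) :=
  Sys.TZI (n554 H) (n61 H) (upA11 H) (upB11 H) (loC13 H) (loD13 H) (by decide +kernel)
theorem n969 (H : Base M O) : O.TX 13 13 (58351 / 500000) :=
  Sys.TXI (n556 H) (n175 H) (upA13 H) (upB13 H) (loB13 H) (loC13 H) (loD13 H) (1790650589 / 2000000000) (by decide +kernel)
theorem n996 (H : Base M O) : O.TZ 15 11 (65601 / 1000000) :=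
  Sys.TZI (n568 H) (n63 H) (upA11 H) (upB11 H) (loC15 H) (loD15 H) (by decide +kernel)
theorem n1006 (H : Base M O) : O.TX 15 14 (51719 / 500000) :=
  Sys.TXI (n571 H) (n234 H) (upA14 H) (upB14 H) (loB14 H) (loC15 H) (loD15 H) (4509556951 / 5000000000) (by decide +kernel)
theorem n1013 (H : Base M O) : O.TZ 16 11 (650331 / 10000000) :=
  Sys.TZI (n575 H) (n64 H) (upA11 H) (upB11 H) (loC16 H) (loD16 H) (by decide +kernel)
theorem n1023 (H : Base M O) : O.TX 16 14 (13471 / 125000) :=
  Sys.TXI (n578 H) (n235 H) (upA14 H) (upB14 H) (loB14 H) (loC16 H) (loD16 H) (4478626039 / 5000000000) (by decide +kernel)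
theorem n1030 (H : Base M O) : O.TZ 17 11 (664819 / 10000000) :=
  Sys.TZI (n582 H) (n65 H) (upA11 H) (upB11 H) (loC17 H) (loD17 H) (by decide +kernel)
theorem n1042 (H : Base M O) : O.TX 17 15 (473517 / 5000000) :=
  Sys.TXI (n586 H) (n293 H) (upA15 H) (upB15 H) (loB15 H) (loC17 H) (loD17 H) (9065939323 / 10000000000) (by decide +kernel)
theorem n1047 (H : Base M O) : O.TZ 18 11 (696019 / 10000000) :=
  Sys.TZI (n589 H) (n66 H) (upA11 H) (upB11 H) (loC18 H) (loD18 H) (by decide +kernel)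
theorem n1059 (H : Base M O) : O.TX 18 15 (247191 / 2500000) :=
  Sys.TXI (n593 H) (n294 H) (upA15 H) (upB15 H) (loB15 H) (loC18 H) (loD18 H) (180275901 / 200000000) (by decide +kernel)
theorem n1064 (H : Base M O) : O.TZ 19 11 (593 / 8000) :=
  Sys.TZI (n596 H) (n67 H) (upA11 H) (upB11 H) (loC19 H) (loD19 H) (by decide +kernel)
theorem n1067 (H : Base M O) : O.TZ 19 12 (71957 / 1250000) :=
  Sys.TZI (n597 H) (n124 H) (upA12 H) (upB12 H) (loC19 H) (loD19 H) (by decide +kernel)
theorem n1076 (H : Base M O) : O.TX 19 15 (10347 / 100000) :=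
  Sys.TXI (n600 H) (n295 H) (upA15 H) (upB15 H) (loB15 H) (loC19 H) (loD19 H) (4480975347 / 5000000000) (by decide +kernel)
theorem n1084 (H : Base M O) : O.TZ 20 12 (607989 / 10000000) :=
  Sys.TZI (n604 H) (n125 H) (upA12 H) (upB12 H) (loC20 H) (loD20 H) (by decide +kernel)
theorem n1093 (H : Base M O) : O.TX 20 15 (21679 / 200000) :=
  Sys.TXI (n607 H) (n296 H) (upA15 H) (upB15 H) (loB15 H) (loC20 H) (loD20 H) (8910404529 / 10000000000) (by decide +kernel)
theorem n1101 (H : Base M O) : O.TZ 21 12 (8099 / 125000) :=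
  Sys.TZI (n611 H) (n126 H) (upA12 H) (upB12 H) (loC21 H) (loD21 H) (by decide +kernel)
theorem n1110 (H : Base M O) : O.TX 21 15 (7099 / 62500) :=
  Sys.TXI (n614 H) (n297 H) (upA15 H) (upB15 H) (loB15 H) (loC21 H) (loD21 H) (221478871 / 250000000) (by decide +kernel)
theorem n1118 (H : Base M O) : O.TZ 22 12 (69437 / 1000000) :=
  Sys.TZI (n618 H) (n127 H) (upA12 H) (upB12 H) (loC22 H) (loD22 H) (by decide +kernel)
theorem n1128 (H : Base M O) : O.TX 22 15 (29747 / 250000) :=
  Sys.TXI (n621 H) (n298 H) (upA15 H) (upB15 H) (loB15 H) (loC22 H) (loD22 H) (8808199923 / 10000000000) (by decide +kernel)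
theorem n1130 (H : Base M O) : O.TX 22 16 (102071 / 1000000) :=
  Sys.TXI (n622 H) (n355 H) (upA16 H) (upB16 H) (loB16 H) (loC22 H) (loD22 H) (895397543 / 1000000000) (by decide +kernel)
theorem n1195 (H : Base M O) : LeQ (O.w 9) (500058231453 / 500000000000) (O.u 17) :=
  Sys.R4' (n532 H) (n387 H) (11452653 / 10000000) (by decide +kernel)
theorem n1209 (H : Base M O) : LeQ (O.w 10) (10000727402057 / 10000000000000) (O.u 17) :=
  Sys.R4' (n539 H) (n387 H) (36333 / 31250) (by decide +kernel)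
theorem n1223 (H : Base M O) : LeQ (O.w 11) (10000486584873 / 10000000000000) (O.u 17) :=
  Sys.R4' (n546 H) (n387 H) (11803107 / 10000000) (by decide +kernel)
theorem n1237 (H : Base M O) : LeQ (O.w 12) (2500088760361 / 2500000000000) (O.u 17) :=
  Sys.R4' (n553 H) (n387 H) (2396467 / 2000000) (by decide +kernel)
theorem n1265 (H : Base M O) : LeQ (O.w 14) (156253908813 / 156250000000) (O.u 17) :=
  Sys.R4' (n567 H) (n387 H) (6174499 / 5000000) (by decide +kernel)
theorem n7982 (H : Base M O) : LeQ (1) (500024593409 / 500000000000) (O.u 17) :=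
  LeQ.trans (n452 H) (n1265 H) (by decide +kernel)
theorem n8632 (H : Base M O) : LeQ (O.u 11) (99999204440709 / 100000000000000) (O.w 22) :=
  LeQ.trans (n46 H) (n460 H) (by decide +kernel)
theorem n8645 (H : Base M O) : LeQ (O.u 12) (5000347374447 / 5000000000000) (O.u 17) :=
  LeQ.trans (n103 H) (n7982 H) (by decide +kernel)
theorem n8661 (H : Base M O) : LeQ (O.u 12) (10000444416213 / 10000000000000) (O.w 21) :=
  LeQ.trans (n103 H) (n459 H) (by decide +kernel)
theorem n8662 (H : Base M O) : LeQ (O.u 12) (10000444425301 / 10000000000000) (O.w 22) :=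
  LeQ.trans (n103 H) (n460 H) (by decide +kernel)
theorem n8674 (H : Base M O) : LeQ (O.u 13) (1000108660783 / 1000000000000) (O.u 17) :=
  LeQ.trans (n160 H) (n7982 H) (by decide +kernel)
theorem n8690 (H : Base M O) : LeQ (O.u 13) (5000418132669 / 5000000000000) (O.w 21) :=
  LeQ.trans (n160 H) (n459 H) (by decide +kernel)
theorem n8691 (H : Base M O) : LeQ (O.u 13) (10000836274427 / 10000000000000) (O.w 22) :=
  LeQ.trans (n160 H) (n460 H) (by decide +kernel)
theorem n10027 (H : Base M O) : O.TZ 24 12 (160387 / 1000000) :=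
  Sys.R6 (n625 H) (n128 H) (n102 H) (n8645 H) (n413 H) (291931 / 125000) (3371851 / 3125000) (51010479 / 50000000) (5275233 / 1000000) (93519 / 1250000) (by decide +kernel)
theorem n10038 (H : Base M O) : O.TZ 26 12 (39439 / 200000) :=
  Sys.R6 (n632 H) (n129 H) (n102 H) (n8645 H) (n414 H) (2506501 / 1000000) (1367599 / 1250000) (25547801 / 25000000) (3387291 / 500000) (20051 / 200000) (by decide +kernel)
theorem n10046 (H : Base M O) : O.TZ 28 12 (244929 / 1000000) :=
  Sys.R6 (n639 H) (n130 H) (n102 H) (n8645 H) (n415 H) (2690081 / 1000000) (11107521 / 10000000) (102361733 / 100000000) (4472379 / 500000) (68147 / 500000) (by decide +kernel)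
theorem n10053 (H : Base M O) : O.TZ 30 12 (77123 / 250000) :=
  Sys.R6 (n646 H) (n131 H) (n102 H) (n8645 H) (n416 H) (2887107 / 1000000) (282271 / 250000) (102532547 / 100000000) (7566 / 625) (94493 / 500000) (by decide +kernel)
theorem n10059 (H : Base M O) : O.TZ 32 12 (39881 / 100000) :=
  Sys.R6 (n653 H) (n132 H) (n102 H) (n8645 H) (n417 H) (3098563 / 1000000) (35911 / 31250) (51351823 / 50000000) (1676631 / 100000) (135953 / 500000) (by decide +kernel)
theorem n10062 (H : Base M O) : O.TZ 34 12 (549043 / 1000000) :=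
  Sys.R6 (n660 H) (n133 H) (n102 H) (n8645 H) (n418 H) (3325507 / 1000000) (5855189 / 5000000) (102875031 / 100000000) (296791 / 12500) (427671 / 1000000) (by decide +kernel)
theorem n10063 (H : Base M O) : O.TZ 34 13 (252307 / 500000) :=
  Sys.R6 (n661 H) (n190 H) (n159 H) (n8674 H) (n418 H) (2608603 / 1000000) (11032977 / 10000000) (104919737 / 100000000) (301251 / 25000) (408849 / 1000000) (by decide +kernel)
theorem n10064 (H : Base M O) : O.TZ 36 13 (827891 / 1000000) :=
  Sys.R6 (n668 H) (n191 H) (n159 H) (n8674 H) (n419 H) (1379979 / 500000) (1396509 / 1250000) (105216557 / 100000000) (1563321 / 100000) (15623 / 20000) (by decide +kernel)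
theorem n10084 (H : Base M O) : O.Rh0 17 (7905321 / 12500000) :=
  Sys.Rh0_of (n394 H) (by decide +kernel)
theorem n11009 (H : Base M O) : O.So 8 17 (69033 / 250000) :=
  OSys.SoI (hiO17 H) (hiP17 H) (upA17 H) (n10084 H) (upC17 H) (loE8 H) (127820157 / 200000000) (234651543 / 50000000000) (1835577 / 1250000000) (by decide +kernel)
theorem n12411 (H : Base M O) : O.To 22 17 (343983 / 1000000) :=
  OSys.ToI (hiO17 H) (hiP17 H) (upW17 H) (loA17 H) (upA17 H) (n10084 H) (upC17 H) (loE22 H) (127820157 / 200000000) (by decide +kernel)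
theorem n13620 (H : Base M O) : O.To 34 17 (518651 / 1000000) :=
  OSys.ToI (hiO17 H) (hiP17 H) (upW17 H) (loA17 H) (upA17 H) (n10084 H) (upC17 H) (loE34 H) (127820157 / 200000000) (by decide +kernel)
theorem n13669 (H : Base M O) : O.To 34 34 (268999 / 1000000) :=
  OSys.To.pow (n13620 H) (by decide +kernel)
theorem n13677 (H : Base M O) : O.To 34 38 (7203 / 31250) :=
  OSys.To.pow (n13620 H) (by decide +kernel)
theorem n13783 (H : Base M O) : O.To 36 17 (55043 / 100000) :=
  OSys.ToI (hiO17 H) (hiP17 H) (upW17 H) (loA17 H) (upA17 H) (n10084 H) (upC17 H) (loE36 H) (127820157 / 200000000) (by decide +kernel)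
theorem n13840 (H : Base M O) : O.To 36 38 (52653 / 200000) :=
  OSys.To.pow (n13783 H) (by decide +kernel)
theorem n13848 (H : Base M O) : O.To 36 44 (53311 / 250000) :=
  OSys.To.pow (n13783 H) (by decide +kernel)
theorem n15520 (H : Base M O) : O.TZ 9 16 (117619 / 2000000) :=
  Sys.TZ.pow (n894 H) (by decide +kernel)
theorem n15524 (H : Base M O) : O.TZ 9 20 (289607 / 10000000) :=
  Sys.TZ.pow (n894 H) (by decide +kernel)
theorem n15563 (H : Base M O) : O.TZ 10 16 (88957 / 2000000) :=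
  Sys.TZ.pow (n911 H) (by decide +kernel)
theorem n15567 (H : Base M O) : O.TZ 10 20 (102131 / 5000000) :=
  Sys.TZ.pow (n911 H) (by decide +kernel)
theorem n15569 (H : Base M O) : O.TZ 10 22 (138423 / 10000000) :=
  Sys.TZ.pow (n911 H) (by decide +kernel)
theorem n15571 (H : Base M O) : O.TZ 10 24 (14657 / 1562500) :=
  Sys.TZ.pow (n911 H) (by decide +kernel)
theorem n15572 (H : Base M O) : O.TZ 10 26 (79461 / 12500000) :=
  Sys.TZ.pow (n911 H) (by decide +kernel)
theorem n15573 (H : Base M O) : O.TZ 10 28 (430787 / 100000000) :=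
  Sys.TZ.pow (n911 H) (by decide +kernel)
theorem n15574 (H : Base M O) : O.TZ 10 30 (72983 / 25000000) :=
  Sys.TZ.pow (n911 H) (by decide +kernel)
theorem n15575 (H : Base M O) : O.TZ 10 32 (98917 / 50000000) :=
  Sys.TZ.pow (n911 H) (by decide +kernel)
theorem n15576 (H : Base M O) : O.TZ 10 34 (67033 / 50000000) :=
  Sys.TZ.pow (n911 H) (by decide +kernel)
theorem n15605 (H : Base M O) : O.TZ 11 15 (423517 / 10000000) :=
  Sys.TZ.pow (n928 H) (by decide +kernel)
theorem n15618 (H : Base M O) : O.TZ 11 32 (29417 / 25000000) :=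
  Sys.TZ.pow (n928 H) (by decide +kernel)
theorem n15619 (H : Base M O) : O.TZ 11 34 (385961 / 500000000) :=
  Sys.TZ.pow (n928 H) (by decide +kernel)
theorem n15620 (H : Base M O) : O.TZ 11 36 (101279 / 200000000) :=
  Sys.TZ.pow (n928 H) (by decide +kernel)
theorem n15621 (H : Base M O) : O.TZ 11 38 (66441 / 200000000) :=
  Sys.TZ.pow (n928 H) (by decide +kernel)
theorem n15622 (H : Base M O) : O.TZ 11 40 (217933 / 1000000000) :=
  Sys.TZ.pow (n928 H) (by decide +kernel)
theorem n15623 (H : Base M O) : O.TZ 11 44 (468947 / 5000000000) :=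
  Sys.TZ.pow (n928 H) (by decide +kernel)
theorem n15624 (H : Base M O) : O.TZ 11 48 (25227 / 625000000) :=
  Sys.TZ.pow (n928 H) (by decide +kernel)
theorem n15648 (H : Base M O) : O.TZ 12 15 (85771 / 2500000) :=
  Sys.TZ.pow (n945 H) (by decide +kernel)
theorem n15653 (H : Base M O) : O.TZ 12 20 (111481 / 10000000) :=
  Sys.TZ.pow (n945 H) (by decide +kernel)
theorem n15655 (H : Base M O) : O.TZ 12 22 (711083 / 100000000) :=
  Sys.TZ.pow (n945 H) (by decide +kernel)
theorem n15667 (H : Base M O) : O.TZ 12 48 (102861 / 5000000000) :=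
  Sys.TZ.pow (n945 H) (by decide +kernel)
theorem n15668 (H : Base M O) : O.TZ 12 52 (83699 / 10000000000) :=
  Sys.TZ.pow (n945 H) (by decide +kernel)
theorem n15669 (H : Base M O) : O.TZ 12 56 (170267 / 50000000000) :=
  Sys.TZ.pow (n945 H) (by decide +kernel)
theorem n15670 (H : Base M O) : O.TZ 12 60 (34637 / 25000000000) :=
  Sys.TZ.pow (n945 H) (by decide +kernel)
theorem n15691 (H : Base M O) : O.TZ 13 15 (145267 / 5000000) :=
  Sys.TZ.pow (n962 H) (by decide +kernel)
theorem n15700 (H : Base M O) : O.TZ 13 24 (347627 / 100000000) :=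
  Sys.TZ.pow (n962 H) (by decide +kernel)
theorem n15779 (H : Base M O) : O.TZ 15 17 (148453 / 10000000) :=
  Sys.TZ.pow (n996 H) (by decide +kernel)
theorem n15787 (H : Base M O) : O.TZ 15 26 (159811 / 100000000) :=
  Sys.TZ.pow (n996 H) (by decide +kernel)
theorem n15788 (H : Base M O) : O.TZ 15 28 (973867 / 1000000000) :=
  Sys.TZ.pow (n996 H) (by decide +kernel)
theorem n15789 (H : Base M O) : O.TZ 15 30 (593461 / 1000000000) :=
  Sys.TZ.pow (n996 H) (by decide +kernel)
theorem n15790 (H : Base M O) : O.TZ 15 32 (22603 / 62500000) :=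
  Sys.TZ.pow (n996 H) (by decide +kernel)
theorem n15791 (H : Base M O) : O.TZ 15 34 (220383 / 1000000000) :=
  Sys.TZ.pow (n996 H) (by decide +kernel)
theorem n15792 (H : Base M O) : O.TZ 15 36 (134299 / 1000000000) :=
  Sys.TZ.pow (n996 H) (by decide +kernel)
theorem n15793 (H : Base M O) : O.TZ 15 38 (204599 / 2500000000) :=
  Sys.TZ.pow (n996 H) (by decide +kernel)
theorem n15794 (H : Base M O) : O.TZ 15 40 (3117 / 62500000) :=
  Sys.TZ.pow (n996 H) (by decide +kernel)
theorem n15821 (H : Base M O) : O.TZ 16 16 (187781 / 10000000) :=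
  Sys.TZ.pow (n1013 H) (by decide +kernel)
theorem n15838 (H : Base M O) : O.TZ 16 44 (178871 / 10000000000) :=
  Sys.TZ.pow (n1013 H) (by decide +kernel)
theorem n15839 (H : Base M O) : O.TZ 16 48 (662141 / 100000000000) :=
  Sys.TZ.pow (n1013 H) (by decide +kernel)
theorem n15841 (H : Base M O) : O.TZ 16 56 (113419 / 125000000000) :=
  Sys.TZ.pow (n1013 H) (by decide +kernel)
theorem n15863 (H : Base M O) : O.TZ 17 16 (24237 / 1250000) :=
  Sys.TZ.pow (n1030 H) (by decide +kernel)
theorem n15883 (H : Base M O) : O.TZ 17 56 (50753 / 50000000000) :=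
  Sys.TZ.pow (n1030 H) (by decide +kernel)
theorem n15906 (H : Base M O) : O.TZ 18 17 (162677 / 10000000) :=
  Sys.TZ.pow (n1047 H) (by decide +kernel)
theorem n15923 (H : Base M O) : O.TZ 18 48 (890471 / 100000000000) :=
  Sys.TZ.pow (n1047 H) (by decide +kernel)
theorem n15924 (H : Base M O) : O.TZ 18 52 (168937 / 50000000000) :=
  Sys.TZ.pow (n1047 H) (by decide +kernel)
theorem n15925 (H : Base M O) : O.TZ 18 56 (128201 / 100000000000) :=
  Sys.TZ.pow (n1047 H) (by decide +kernel)
theorem n15928 (H : Base M O) : O.TZ 18 72 (265723 / 10000000000000) :=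
  Sys.TZ.pow (n1047 H) (by decide +kernel)
theorem n15929 (H : Base M O) : O.TZ 18 80 (2391 / 625000000000) :=
  Sys.TZ.pow (n1047 H) (by decide +kernel)
theorem n15931 (H : Base M O) : O.TZ 18 96 (792937 / 10000000000000000) :=
  Sys.TZ.pow (n1047 H) (by decide +kernel)
theorem n15932 (H : Base M O) : O.TZ 18 104 (114159 / 10000000000000000) :=
  Sys.TZ.pow (n1047 H) (by decide +kernel)
theorem n15948 (H : Base M O) : O.TZ 19 17 (179301 / 10000000) :=
  Sys.TZ.pow (n1064 H) (by decide +kernel)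
theorem n15981 (H : Base M O) : O.TZ 19 80 (271263 / 50000000000000) :=
  Sys.TZ.pow (n1067 H) (by decide +kernel)
theorem n16012 (H : Base M O) : O.TZ 20 17 (47329 / 2500000) :=
  Sys.TZ.pow (n1084 H) (by decide +kernel)
theorem n16034 (H : Base M O) : O.TZ 20 32 (17861 / 31250000) :=
  Sys.TZ.pow (n1084 H) (by decide +kernel)
theorem n16056 (H : Base M O) : O.TZ 20 72 (505097 / 10000000000000) :=
  Sys.TZ.pow (n1084 H) (by decide +kernel)
theorem n16060 (H : Base M O) : O.TZ 20 88 (24151 / 20000000000000) :=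
  Sys.TZ.pow (n1084 H) (by decide +kernel)
theorem n16062 (H : Base M O) : O.TZ 20 96 (18671 / 100000000000000) :=
  Sys.TZ.pow (n1084 H) (by decide +kernel)
theorem n16064 (H : Base M O) : O.TZ 20 104 (288689 / 10000000000000000) :=
  Sys.TZ.pow (n1084 H) (by decide +kernel)
theorem n16066 (H : Base M O) : O.TZ 20 112 (446369 / 100000000000000000) :=
  Sys.TZ.pow (n1084 H) (by decide +kernel)
theorem n16068 (H : Base M O) : O.TZ 20 128 (53357 / 500000000000000000) :=
  Sys.TZ.pow (n1084 H) (by decide +kernel)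
theorem n16090 (H : Base M O) : O.TZ 21 17 (3237 / 156250) :=
  Sys.TZ.pow (n1101 H) (by decide +kernel)
theorem n16096 (H : Base M O) : O.TZ 21 20 (104521 / 10000000) :=
  Sys.TZ.pow (n1101 H) (by decide +kernel)
theorem n16114 (H : Base M O) : O.TZ 21 34 (85837 / 200000000) :=
  Sys.TZ.pow (n1101 H) (by decide +kernel)
theorem n16134 (H : Base M O) : O.TZ 21 72 (46239 / 625000000000) :=
  Sys.TZ.pow (n1101 H) (by decide +kernel)
theorem n16169 (H : Base M O) : O.TZ 22 17 (228519 / 10000000) :=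
  Sys.TZ.pow (n1118 H) (by decide +kernel)
theorem n16179 (H : Base M O) : O.TZ 22 22 (94007 / 12500000) :=
  Sys.TZ.pow (n1118 H) (by decide +kernel)
theorem n16183 (H : Base M O) : O.TZ 22 24 (9643 / 2000000) :=
  Sys.TZ.pow (n1118 H) (by decide +kernel)
theorem n16185 (H : Base M O) : O.TZ 22 26 (309111 / 100000000) :=
  Sys.TZ.pow (n1118 H) (by decide +kernel)
theorem n16191 (H : Base M O) : O.TZ 22 32 (407267 / 500000000) :=
  Sys.TZ.pow (n1118 H) (by decide +kernel)
theorem n16213 (H : Base M O) : O.TZ 22 72 (22417 / 200000000000) :=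
  Sys.TZ.pow (n1118 H) (by decide +kernel)
theorem n16215 (H : Base M O) : O.TZ 22 80 (94677 / 5000000000000) :=
  Sys.TZ.pow (n1118 H) (by decide +kernel)
theorem n16219 (H : Base M O) : O.TZ 22 96 (2111 / 3906250000000) :=
  Sys.TZ.pow (n1118 H) (by decide +kernel)
theorem n16221 (H : Base M O) : O.TZ 22 104 (912967 / 10000000000000000) :=
  Sys.TZ.pow (n1118 H) (by decide +kernel)
theorem n16223 (H : Base M O) : O.TZ 22 112 (30847 / 2000000000000000) :=
  Sys.TZ.pow (n1118 H) (by decide +kernel)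
theorem n16227 (H : Base M O) : O.TZ 22 144 (12563 / 1000000000000000000) :=
  Sys.TZ.pow (n1118 H) (by decide +kernel)
theorem n16246 (H : Base M O) : O.TZ 24 16 (871417 / 10000000) :=
  Sys.TZ.pow (n10027 H) (by decide +kernel)
theorem n16248 (H : Base M O) : O.TZ 24 17 (93519 / 1250000) :=
  Sys.TZ.pow (n10027 H) (by decide +kernel)
theorem n16280 (H : Base M O) : O.TZ 24 44 (121793 / 100000000) :=
  Sys.TZ.pow (n10027 H) (by decide +kernel)
theorem n16328 (H : Base M O) : O.TZ 26 16 (114779 / 1000000) :=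
  Sys.TZ.pow (n10038 H) (by decide +kernel)
theorem n16330 (H : Base M O) : O.TZ 26 17 (20051 / 200000) :=
  Sys.TZ.pow (n10038 H) (by decide +kernel)
theorem n16358 (H : Base M O) : O.TZ 26 38 (29251 / 5000000) :=
  Sys.TZ.pow (n10038 H) (by decide +kernel)
theorem n16360 (H : Base M O) : O.TZ 26 40 (446327 / 100000000) :=
  Sys.TZ.pow (n10038 H) (by decide +kernel)
theorem n16411 (H : Base M O) : O.TZ 28 16 (76623 / 500000) :=
  Sys.TZ.pow (n10046 H) (by decide +kernel)
theorem n16413 (H : Base M O) : O.TZ 28 17 (68147 / 500000) :=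
  Sys.TZ.pow (n10046 H) (by decide +kernel)
theorem n16443 (H : Base M O) : O.TZ 28 40 (459661 / 50000000) :=
  Sys.TZ.pow (n10046 H) (by decide +kernel)
theorem n16447 (H : Base M O) : O.TZ 28 48 (359883 / 100000000) :=
  Sys.TZ.pow (n10046 H) (by decide +kernel)
theorem n16494 (H : Base M O) : O.TZ 30 16 (104223 / 500000) :=
  Sys.TZ.pow (n10053 H) (by decide +kernel)
theorem n16496 (H : Base M O) : O.TZ 30 17 (94493 / 500000) :=
  Sys.TZ.pow (n10053 H) (by decide +kernel)
theorem n16526 (H : Base M O) : O.TZ 30 40 (49593 / 2500000) :=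
  Sys.TZ.pow (n10053 H) (by decide +kernel)
theorem n16528 (H : Base M O) : O.TZ 30 44 (67019 / 5000000) :=
  Sys.TZ.pow (n10053 H) (by decide +kernel)

end Crest.Agent.R347.Num
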