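import Crest.Agent.R347.D.C1

/-! Row 347: the numerical chain (computer generated) -/

set_option autoImplicit false
set_option Elab.async false
set_option linter.unusedVariables false

namespace Crest.Agent.R347.Num

variable {M : Model} {O : OSys}

theorem n16578 (H : Base M O) : O.TZ 32 17 (135953 / 500000) :=
  Sys.TZ.pow (n10059 H) (by decide +kernel)
theorem n16610 (H : Base M O) : O.TZ 32 44 (343671 / 10000000) :=
  Sys.TZ.pow (n10059 H) (by decide +kernel)
theorem n16656 (H : Base M O) : O.TZ 34 17 (427671 / 1000000) :=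
  Sys.TZ.pow (n10062 H) (by decide +kernel)
theorem n16686 (H : Base M O) : O.TZ 34 44 (197543 / 2000000) :=
  Sys.TZ.pow (n10063 H) (by decide +kernel)
theorem n16732 (H : Base M O) : O.TZ 36 17 (15623 / 20000) :=
  Sys.TZ.pow (n10064 H) (by decide +kernel)
theorem n16751 (H : Base M O) : O.TZ 36 56 (88651 / 200000) :=
  Sys.TZ.pow (n10064 H) (by decide +kernel)
theorem n16902 (H : Base M O) : O.TX 9 20 (410311 / 10000000) :=
  Sys.TX.pow (n895 H) (by decide +kernel)
theorem n16976 (H : Base M O) : O.TX 10 20 (72939 / 2000000) :=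
  Sys.TX.pow (n915 H) (by decide +kernel)
theorem n16980 (H : Base M O) : O.TX 10 22 (261893 / 10000000) :=
  Sys.TX.pow (n915 H) (by decide +kernel)
theorem n16984 (H : Base M O) : O.TX 10 24 (188069 / 10000000) :=
  Sys.TX.pow (n915 H) (by decide +kernel)
theorem n16986 (H : Base M O) : O.TX 10 26 (27011 / 2000000) :=
  Sys.TX.pow (n915 H) (by decide +kernel)
theorem n16988 (H : Base M O) : O.TX 10 28 (242461 / 25000000) :=
  Sys.TX.pow (n915 H) (by decide +kernel)
theorem n16990 (H : Base M O) : O.TX 10 30 (348229 / 50000000) :=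
  Sys.TX.pow (n915 H) (by decide +kernel)
theorem n16992 (H : Base M O) : O.TX 10 32 (62517 / 12500000) :=
  Sys.TX.pow (n915 H) (by decide +kernel)
theorem n16994 (H : Base M O) : O.TX 10 34 (179577 / 50000000) :=
  Sys.TX.pow (n915 H) (by decide +kernel)
theorem n17071 (H : Base M O) : O.TX 11 32 (47333 / 10000000) :=
  Sys.TX.pow (n935 H) (by decide +kernel)
theorem n17074 (H : Base M O) : O.TX 11 34 (21171 / 6250000) :=
  Sys.TX.pow (n935 H) (by decide +kernel)
theorem n17077 (H : Base M O) : O.TX 11 36 (48483 / 20000000) :=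
  Sys.TX.pow (n935 H) (by decide +kernel)
theorem n17080 (H : Base M O) : O.TX 11 38 (173483 / 100000000) :=
  Sys.TX.pow (n935 H) (by decide +kernel)
theorem n17083 (H : Base M O) : O.TX 11 40 (124153 / 100000000) :=
  Sys.TX.pow (n935 H) (by decide +kernel)
theorem n17086 (H : Base M O) : O.TX 11 44 (635843 / 1000000000) :=
  Sys.TX.pow (n935 H) (by decide +kernel)
theorem n17089 (H : Base M O) : O.TX 11 48 (162823 / 500000000) :=
  Sys.TX.pow (n935 H) (by decide +kernel)
theorem n17158 (H : Base M O) : O.TX 12 20 (354597 / 10000000) :=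
  Sys.TX.pow (n952 H) (by decide +kernel)
theorem n17164 (H : Base M O) : O.TX 12 22 (253927 / 10000000) :=
  Sys.TX.pow (n952 H) (by decide +kernel)
theorem n17200 (H : Base M O) : O.TX 12 48 (165323 / 500000000) :=
  Sys.TX.pow (n952 H) (by decide +kernel)
theorem n17203 (H : Base M O) : O.TX 12 52 (33911 / 200000000) :=
  Sys.TX.pow (n952 H) (by decide +kernel)
theorem n17206 (H : Base M O) : O.TX 12 56 (34779 / 400000000) :=
  Sys.TX.pow (n952 H) (by decide +kernel)
theorem n17209 (H : Base M O) : O.TX 12 60 (222933 / 5000000000) :=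
  Sys.TX.pow (n952 H) (by decide +kernel)
theorem n17280 (H : Base M O) : O.TX 13 24 (189533 / 10000000) :=
  Sys.TX.pow (n969 H) (by decide +kernel)
theorem n17553 (H : Base M O) : O.TX 15 26 (9247 / 625000) :=
  Sys.TX.pow (n1006 H) (by decide +kernel)
theorem n17557 (H : Base M O) : O.TX 15 28 (21399 / 2000000) :=
  Sys.TX.pow (n1006 H) (by decide +kernel)
theorem n17561 (H : Base M O) : O.TX 15 30 (619 / 80000) :=
  Sys.TX.pow (n1006 H) (by decide +kernel)
theorem n17565 (H : Base M O) : O.TX 15 32 (8743 / 1562500) :=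
  Sys.TX.pow (n1006 H) (by decide +kernel)
theorem n17569 (H : Base M O) : O.TX 15 34 (404651 / 100000000) :=
  Sys.TX.pow (n1006 H) (by decide +kernel)
theorem n17573 (H : Base M O) : O.TX 15 36 (292631 / 100000000) :=
  Sys.TX.pow (n1006 H) (by decide +kernel)
theorem n17577 (H : Base M O) : O.TX 15 38 (105811 / 50000000) :=
  Sys.TX.pow (n1006 H) (by decide +kernel)
theorem n17581 (H : Base M O) : O.TX 15 40 (153039 / 100000000) :=
  Sys.TX.pow (n1006 H) (by decide +kernel)
theorem n17729 (H : Base M O) : O.TX 16 44 (455223 / 500000000) :=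
  Sys.TX.pow (n1023 H) (by decide +kernel)
theorem n17733 (H : Base M O) : O.TX 16 48 (481751 / 1000000000) :=
  Sys.TX.pow (n1023 H) (by decide +kernel)
theorem n17741 (H : Base M O) : O.TX 16 56 (33721 / 250000000) :=
  Sys.TX.pow (n1023 H) (by decide +kernel)
theorem n17902 (H : Base M O) : O.TX 17 56 (150811 / 1000000000) :=
  Sys.TX.pow (n1042 H) (by decide +kernel)
theorem n18063 (H : Base M O) : O.TX 18 48 (608551 / 1000000000) :=
  Sys.TX.pow (n1059 H) (by decide +kernel)
theorem n18068 (H : Base M O) : O.TX 18 52 (328339 / 1000000000) :=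
  Sys.TX.pow (n1059 H) (by decide +kernel)
theorem n18073 (H : Base M O) : O.TX 18 56 (346 / 1953125) :=
  Sys.TX.pow (n1059 H) (by decide +kernel)
theorem n18088 (H : Base M O) : O.TX 18 72 (150123 / 10000000000) :=
  Sys.TX.pow (n1059 H) (by decide +kernel)
theorem n18093 (H : Base M O) : O.TX 18 80 (437013 / 100000000000) :=
  Sys.TX.pow (n1059 H) (by decide +kernel)
theorem n18103 (H : Base M O) : O.TX 18 96 (185167 / 500000000000) :=
  Sys.TX.pow (n1059 H) (by decide +kernel)
theorem n18108 (H : Base M O) : O.TX 18 104 (53903 / 500000000000) :=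
  Sys.TX.pow (n1059 H) (by decide +kernel)
theorem n18190 (H : Base M O) : O.TX 19 24 (829 / 31250) :=
  Sys.TX.pow (n1076 H) (by decide +kernel)
theorem n18195 (H : Base M O) : O.TX 19 26 (196041 / 10000000) :=
  Sys.TX.pow (n1076 H) (by decide +kernel)
theorem n18200 (H : Base M O) : O.TX 19 28 (144873 / 10000000) :=
  Sys.TX.pow (n1076 H) (by decide +kernel)
theorem n18205 (H : Base M O) : O.TX 19 30 (107061 / 10000000) :=
  Sys.TX.pow (n1076 H) (by decide +kernel)
theorem n18210 (H : Base M O) : O.TX 19 32 (197793 / 25000000) :=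
  Sys.TX.pow (n1076 H) (by decide +kernel)
theorem n18215 (H : Base M O) : O.TX 19 34 (584673 / 100000000) :=
  Sys.TX.pow (n1076 H) (by decide +kernel)
theorem n18270 (H : Base M O) : O.TX 19 80 (139193 / 25000000000) :=
  Sys.TX.pow (n1076 H) (by decide +kernel)
theorem n18351 (H : Base M O) : O.TX 20 20 (129207 / 2500000) :=
  Sys.TX.pow (n1093 H) (by decide +kernel)
theorem n18361 (H : Base M O) : O.TX 20 22 (384309 / 10000000) :=
  Sys.TX.pow (n1093 H) (by decide +kernel)
theorem n18386 (H : Base M O) : O.TX 20 30 (23499 / 2000000) :=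
  Sys.TX.pow (n1093 H) (by decide +kernel)
theorem n18391 (H : Base M O) : O.TX 20 32 (436841 / 50000000) :=
  Sys.TX.pow (n1093 H) (by decide +kernel)
theorem n18396 (H : Base M O) : O.TX 20 34 (649663 / 100000000) :=
  Sys.TX.pow (n1093 H) (by decide +kernel)
theorem n18401 (H : Base M O) : O.TX 20 36 (120771 / 25000000) :=
  Sys.TX.pow (n1093 H) (by decide +kernel)
theorem n18406 (H : Base M O) : O.TX 20 38 (359217 / 100000000) :=
  Sys.TX.pow (n1093 H) (by decide +kernel)
theorem n18411 (H : Base M O) : O.TX 20 40 (267111 / 100000000) :=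
  Sys.TX.pow (n1093 H) (by decide +kernel)
theorem n18416 (H : Base M O) : O.TX 20 44 (73847 / 50000000) :=
  Sys.TX.pow (n1093 H) (by decide +kernel)
theorem n18421 (H : Base M O) : O.TX 20 48 (816639 / 1000000000) :=
  Sys.TX.pow (n1093 H) (by decide +kernel)
theorem n18426 (H : Base M O) : O.TX 20 52 (451543 / 1000000000) :=
  Sys.TX.pow (n1093 H) (by decide +kernel)
theorem n18431 (H : Base M O) : O.TX 20 56 (249671 / 1000000000) :=
  Sys.TX.pow (n1093 H) (by decide +kernel)
theorem n18436 (H : Base M O) : O.TX 20 60 (138051 / 1000000000) :=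
  Sys.TX.pow (n1093 H) (by decide +kernel)
theorem n18446 (H : Base M O) : O.TX 20 72 (23337 / 1000000000) :=
  Sys.TX.pow (n1093 H) (by decide +kernel)
theorem n18456 (H : Base M O) : O.TX 20 88 (218133 / 100000000000) :=
  Sys.TX.pow (n1093 H) (by decide +kernel)
theorem n18461 (H : Base M O) : O.TX 20 96 (333449 / 500000000000) :=
  Sys.TX.pow (n1093 H) (by decide +kernel)
theorem n18466 (H : Base M O) : O.TX 20 104 (203891 / 1000000000000) :=
  Sys.TX.pow (n1093 H) (by decide +kernel)
theorem n18471 (H : Base M O) : O.TX 20 112 (155839 / 2500000000000) :=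
  Sys.TX.pow (n1093 H) (by decide +kernel)
theorem n18476 (H : Base M O) : O.TX 20 128 (582657 / 100000000000000) :=
  Sys.TX.pow (n1093 H) (by decide +kernel)
theorem n18578 (H : Base M O) : O.TX 21 34 (722303 / 100000000) :=
  Sys.TX.pow (n1110 H) (by decide +kernel)
theorem n18588 (H : Base M O) : O.TX 21 38 (404393 / 100000000) :=
  Sys.TX.pow (n1110 H) (by decide +kernel)
theorem n18603 (H : Base M O) : O.TX 21 48 (237113 / 250000000) :=
  Sys.TX.pow (n1110 H) (by decide +kernel)
theorem n18628 (H : Base M O) : O.TX 21 72 (146047 / 5000000000) :=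
  Sys.TX.pow (n1110 H) (by decide +kernel)
theorem n18774 (H : Base M O) : O.TX 22 36 (302119 / 50000000) :=
  Sys.TX.pow (n1128 H) (by decide +kernel)
theorem n18784 (H : Base M O) : O.TX 22 40 (21407 / 6250000) :=
  Sys.TX.pow (n1128 H) (by decide +kernel)
theorem n18789 (H : Base M O) : O.TX 22 44 (194153 / 100000000) :=
  Sys.TX.pow (n1128 H) (by decide +kernel)
theorem n18820 (H : Base M O) : O.TX 22 72 (173393 / 5000000000) :=
  Sys.TX.pow (n1130 H) (by decide +kernel)
theorem n18826 (H : Base M O) : O.TX 22 80 (110793 / 10000000000) :=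
  Sys.TX.pow (n1130 H) (by decide +kernel)
theorem n18838 (H : Base M O) : O.TX 22 96 (1767 / 1562500000) :=
  Sys.TX.pow (n1130 H) (by decide +kernel)
theorem n18844 (H : Base M O) : O.TX 22 104 (180649 / 500000000000) :=
  Sys.TX.pow (n1130 H) (by decide +kernel)
theorem n18850 (H : Base M O) : O.TX 22 112 (11543 / 100000000000) :=
  Sys.TX.pow (n1130 H) (by decide +kernel)
theorem n18862 (H : Base M O) : O.TX 22 144 (120261 / 100000000000000) :=
  Sys.TX.pow (n1130 H) (by decide +kernel)
theorem n18915 (H : Base M O) : O.Nu 9 (10231108759 / 10000000000) :=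
  Sys.R2' (n342 H) (n15520 H) (by decide +kernel)
theorem n18918 (H : Base M O) : O.Nu 10 (2034579213 / 2000000000) :=
  Sys.R2' (n343 H) (n15563 H) (by decide +kernel)
theorem n18921 (H : Base M O) : O.Nu 11 (10133321951 / 10000000000) :=
  Sys.R2' (n287 H) (n15605 H) (by decide +kernel)
theorem n18924 (H : Base M O) : O.Nu 12 (2525230293 / 2500000000) :=
  Sys.R2' (n288 H) (n15648 H) (by decide +kernel)
theorem n18927 (H : Base M O) : O.Nu 13 (25193389113 / 25000000000) :=
  Sys.R2' (n289 H) (n15691 H) (by decide +kernel)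
theorem n18934 (H : Base M O) : O.Nu 15 (1255687103 / 1250000000) :=
  Sys.R2' (n405 H) (n15779 H) (by decide +kernel)
theorem n18938 (H : Base M O) : O.Nu 16 (20074407889 / 20000000000) :=
  Sys.R2' (n349 H) (n15821 H) (by decide +kernel)
theorem n18942 (H : Base M O) : O.Nu 17 (12538972857 / 12500000000) :=
  Sys.R2' (n350 H) (n15863 H) (by decide +kernel)
theorem n18947 (H : Base M O) : O.Nu 18 (50127053401 / 50000000000) :=
  Sys.R2' (n408 H) (n15906 H) (by decide +kernel)
theorem n18952 (H : Base M O) : O.Nu 19 (20044997147 / 20000000000) :=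
  Sys.R2' (n409 H) (n15948 H) (by decide +kernel)
theorem n18957 (H : Base M O) : O.Nu 20 (10020148019 / 10000000000) :=
  Sys.R2' (n410 H) (n16012 H) (by decide +kernel)
theorem n18962 (H : Base M O) : O.Nu 21 (20037927401 / 20000000000) :=
  Sys.R2' (n411 H) (n16090 H) (by decide +kernel)
theorem n18966 (H : Base M O) : O.Nu 22 (50092593703 / 50000000000) :=
  Sys.R2' (n412 H) (n16169 H) (by decide +kernel)
theorem n18973 (H : Base M O) : O.Nu 24 (25113824897 / 25000000000) :=
  Sys.R2' (n413 H) (n16248 H) (by decide +kernel)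
theorem n18980 (H : Base M O) : O.Nu 26 (100580810073 / 100000000000) :=
  Sys.R2' (n414 H) (n16330 H) (by decide +kernel)
theorem n18987 (H : Base M O) : O.Nu 28 (100764321537 / 100000000000) :=
  Sys.R2' (n415 H) (n16413 H) (by decide +kernel)
theorem n18994 (H : Base M O) : O.Nu 30 (10102912781 / 10000000000) :=
  Sys.R2' (n416 H) (n16496 H) (by decide +kernel)
theorem n19001 (H : Base M O) : O.Nu 32 (507140663 / 500000000) :=
  Sys.R2' (n417 H) (n16578 H) (by decide +kernel)
theorem n19007 (H : Base M O) : O.Nu 34 (10211835531 / 10000000000) :=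
  Sys.R2' (n418 H) (n16656 H) (by decide +kernel)
theorem n19012 (H : Base M O) : O.Nu 36 (10345505081 / 10000000000) :=
  Sys.R2' (n419 H) (n16732 H) (by decide +kernel)
theorem n19018 (H : Base M O) : O.TX 24 16 (15049 / 125000) :=
  Sys.R3 (n16246 H) (n629 H) (n356 H) (n330 H) (2987023 / 2000000) (by decide +kernel)
theorem n19025 (H : Base M O) : O.TX 26 16 (134099 / 1000000) :=
  Sys.R3 (n16328 H) (n636 H) (n357 H) (n330 H) (15442797 / 10000000) (by decide +kernel)
theorem n19032 (H : Base M O) : O.TX 28 16 (150061 / 1000000) :=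
  Sys.R3 (n16411 H) (n643 H) (n358 H) (n330 H) (1995967 / 1250000) (by decide +kernel)
theorem n19033 (H : Base M O) : O.TX 28 17 (26451 / 200000) :=
  Sys.R3 (n16413 H) (n644 H) (n415 H) (n387 H) (7624887 / 5000000) (by decide +kernel)
theorem n19039 (H : Base M O) : O.TX 30 16 (169361 / 1000000) :=
  Sys.R3 (n16494 H) (n650 H) (n359 H) (n330 H) (16510519 / 10000000) (by decide +kernel)
theorem n19040 (H : Base M O) : O.TX 30 17 (148929 / 1000000) :=
  Sys.R3 (n16496 H) (n651 H) (n416 H) (n387 H) (15716421 / 10000000) (by decide +kernel)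
theorem n19047 (H : Base M O) : O.TX 32 17 (34157 / 200000) :=
  Sys.R3 (n16578 H) (n658 H) (n417 H) (n387 H) (16197347 / 10000000) (by decide +kernel)
theorem n19053 (H : Base M O) : O.TX 34 17 (204747 / 1000000) :=
  Sys.R3 (n16656 H) (n665 H) (n418 H) (n387 H) (1669299 / 1000000) (by decide +kernel)
theorem n19058 (H : Base M O) : O.TX 36 17 (271897 / 1000000) :=
  Sys.R3 (n16732 H) (n672 H) (n419 H) (n387 H) (17203799 / 10000000) (by decide +kernel)
theorem n19521 (H : Base M O) : LeQ (O.u 17) (10000554472267 / 10000000000000) (O.w 19) :=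
  Sys.R4 (n15948 H) (n18952 H) (5194719 / 5000000) (by decide +kernel)
theorem n19561 (H : Base M O) : LeQ (O.u 17) (5000277434401 / 5000000000000) (O.w 20) :=
  Sys.R4 (n16012 H) (n18957 H) (25870233 / 25000000) (by decide +kernel)
theorem n19601 (H : Base M O) : LeQ (O.u 17) (500028856431 / 500000000000) (O.w 21) :=
  Sys.R4 (n16090 H) (n18962 H) (20654641 / 20000000) (by decide +kernel)
theorem n19604 (H : Base M O) : LeQ (O.u 20) (2500062699033 / 2500000000000) (O.w 21) :=
  Sys.R4 (n16096 H) (n18962 H) (103861853 / 100000000) (by decide +kernel)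
theorem n19646 (H : Base M O) : LeQ (O.u 22) (2000031606843 / 2000000000000) (O.w 22) :=
  Sys.R4 (n16179 H) (n18966 H) (10415433 / 10000000) (by decide +kernel)
theorem n19648 (H : Base M O) : LeQ (O.u 24) (1000009462403 / 1000000000000) (O.w 22) :=
  Sys.R4 (n16183 H) (n18966 H) (104540449 / 100000000) (by decide +kernel)
theorem n19649 (H : Base M O) : LeQ (O.u 26) (20000115560299 / 20000000000000) (O.w 22) :=
  Sys.R4 (n16185 H) (n18966 H) (104927999 / 100000000) (by decide +kernel)
theorem n19743 (H : Base M O) : LeQ (O.u 38) (2000021330567 / 2000000000000) (O.w 26) :=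
  Sys.R4 (n16358 H) (n18980 H) (194713 / 156250) (by decide +kernel)
theorem n19744 (H : Base M O) : LeQ (O.u 40) (100000930289737 / 100000000000000) (O.w 26) :=
  Sys.R4 (n16360 H) (n18980 H) (12606809 / 10000000) (by decide +kernel)
theorem n22989 (H : Base M O) : LeQ (O.w 9) (1000171956249 / 1000000000000) (O.w 20) :=
  LeQ.trans (n1195 H) (n19561 H) (by decide +kernel)
theorem n23006 (H : Base M O) : LeQ (O.w 10) (500064095733 / 500000000000) (O.w 19) :=
  LeQ.trans (n1209 H) (n19521 H) (by decide +kernel)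
theorem n23007 (H : Base M O) : LeQ (O.w 10) (1000128231123 / 1000000000000) (O.w 20) :=
  LeQ.trans (n1209 H) (n19561 H) (by decide +kernel)
theorem n23008 (H : Base M O) : LeQ (O.w 10) (500065228633 / 500000000000) (O.w 21) :=
  LeQ.trans (n1209 H) (n19601 H) (by decide +kernel)
theorem n23025 (H : Base M O) : LeQ (O.w 11) (250026037017 / 250000000000) (O.w 20) :=
  LeQ.trans (n1223 H) (n19561 H) (by decide +kernel)
theorem n23042 (H : Base M O) : LeQ (O.w 12) (10000909929947 / 10000000000000) (O.w 20) :=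
  LeQ.trans (n1237 H) (n19561 H) (by decide +kernel)
theorem n23043 (H : Base M O) : LeQ (O.w 12) (2000186438111 / 2000000000000) (O.w 21) :=
  LeQ.trans (n1237 H) (n19601 H) (by decide +kernel)
theorem n31121 (H : Base M O) : O.SZ 9 20 (235141 / 1000000) :=
  Sys.R6' (n15524 H) (n16902 H) (n18915 H) (n22989 H) (n18351 H) (3158523 / 2000000) (102122619 / 100000000) (51571669 / 50000000) (958847 / 20000) (400823 / 10000000) (by decide +kernel)
theorem n31252 (H : Base M O) : O.SZ 10 20 (38957 / 200000) :=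
  Sys.R6' (n15567 H) (n16976 H) (n18918 H) (n23007 H) (n18351 H) (14089389 / 10000000) (101169837 / 100000000) (12824703 / 12500000) (2421393 / 100000) (94853 / 2500000) (by decide +kernel)
theorem n31266 (H : Base M O) : O.SZ 10 22 (152919 / 1000000) :=
  Sys.R6' (n15569 H) (n16980 H) (n18918 H) (n23007 H) (n18361 H) (14580801 / 10000000) (5071221 / 5000000) (102861069 / 100000000) (1366427 / 100000) (233843 / 10000000) (by decide +kernel)
theorem n31278 (H : Base M O) : O.SZ 10 24 (6499 / 50000) :=
  Sys.R6' (n15571 H) (n16984 H) (n18918 H) (n23006 H) (n18190 H) (1886169 / 1250000) (101705949 / 100000000) (103124209 / 100000000) (8303869 / 1000000) (207189 / 10000000) (by decide +kernel)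
theorem n31284 (H : Base M O) : O.SZ 10 26 (113419 / 1000000) :=
  Sys.R6' (n15572 H) (n16986 H) (n18918 H) (n23006 H) (n18195 H) (15615641 / 10000000) (51007477 / 50000000) (25847231 / 25000000) (821331 / 125000) (159921 / 10000000) (by decide +kernel)
theorem n31291 (H : Base M O) : O.SZ 10 28 (10419 / 100000) :=
  Sys.R6' (n15573 H) (n16988 H) (n18918 H) (n23006 H) (n18200 H) (3232057 / 2000000) (51175989 / 50000000) (51827159 / 50000000) (5742689 / 1000000) (17013 / 1250000) (by decide +kernel)
theorem n31298 (H : Base M O) : O.SZ 10 30 (50049 / 500000) :=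
  Sys.R6' (n15574 H) (n16990 H) (n18918 H) (n23006 H) (n18205 H) (8361963 / 5000000) (5135879 / 5000000) (51960197 / 50000000) (675567 / 125000) (7883 / 625000) (by decide +kernel)
theorem n31305 (H : Base M O) : O.SZ 10 32 (49861 / 500000) :=
  Sys.R6' (n15575 H) (n16992 H) (n18918 H) (n23006 H) (n18210 H) (692289 / 400000) (6444521 / 6250000) (104187153 / 100000000) (5374359 / 1000000) (125229 / 10000000) (by decide +kernel)
theorem n31312 (H : Base M O) : O.SZ 10 34 (102117 / 1000000) :=
  Sys.R6' (n15576 H) (n16994 H) (n18918 H) (n23006 H) (n18215 H) (17910869 / 10000000) (103536837 / 100000000) (104454597 / 100000000) (1392311 / 250000) (26201 / 2000000) (by decide +kernel)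
theorem n31452 (H : Base M O) : O.SZ 11 32 (48819 / 625000) :=
  Sys.R6' (n15618 H) (n17071 H) (n18921 H) (n23025 H) (n18391 H) (15277733 / 10000000) (6363411 / 6250000) (103733841 / 100000000) (63237 / 15625) (969937 / 100000000) (by decide +kernel)
theorem n31459 (H : Base M O) : O.SZ 11 34 (784841 / 10000000) :=
  Sys.R6' (n15619 H) (n17074 H) (n18921 H) (n23025 H) (n18396 H) (784391 / 500000) (20411729 / 20000000) (51985891 / 50000000) (4071569 / 1000000) (978391 / 100000000) (by decide +kernel)
theorem n31466 (H : Base M O) : O.SZ 11 36 (806273 / 10000000) :=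
  Sys.R6' (n15620 H) (n17077 H) (n18921 H) (n23025 H) (n18401 H) (3221783 / 2000000) (25579871 / 25000000) (104210269 / 100000000) (2106939 / 500000) (102751 / 10000000) (by decide +kernel)
theorem n31473 (H : Base M O) : O.SZ 11 38 (841163 / 10000000) :=
  Sys.R6' (n15621 H) (n17080 H) (n18921 H) (n23025 H) (n18406 H) (16541313 / 10000000) (102597351 / 100000000) (104449303 / 100000000) (4454433 / 1000000) (55489 / 5000000) (by decide +kernel)
theorem n31480 (H : Base M O) : O.SZ 11 40 (443303 / 5000000) :=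
  Sys.R6' (n15622 H) (n17083 H) (n18921 H) (n23025 H) (n18411 H) (16985317 / 10000000) (102892509 / 100000000) (20937777 / 20000000) (4784799 / 1000000) (122119 / 10000000) (by decide +kernel)
theorem n31487 (H : Base M O) : O.SZ 11 44 (50091 / 500000) :=
  Sys.R6' (n15623 H) (n17086 H) (n18921 H) (n23025 H) (n18416 H) (17909399 / 10000000) (20707157 / 20000000) (105169699 / 100000000) (571463 / 100000) (30499 / 2000000) (by decide +kernel)
theorem n31493 (H : Base M O) : O.SZ 11 48 (114261 / 1000000) :=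
  Sys.R6' (n15624 H) (n17089 H) (n18921 H) (n23025 H) (n18421 H) (4720939 / 2500000) (104251541 / 100000000) (52826361 / 50000000) (281939 / 40000) (96841 / 5000000) (by decide +kernel)
theorem n31650 (H : Base M O) : O.SZ 12 48 (180967 / 2000000) :=
  Sys.R6' (n15667 H) (n17200 H) (n18924 H) (n23043 H) (n18603 H) (8096497 / 5000000) (51186371 / 50000000) (52757961 / 50000000) (1290383 / 250000) (149279 / 10000000) (by decide +kernel)
theorem n31657 (H : Base M O) : O.SZ 12 52 (25881 / 250000) :=
  Sys.R6' (n15668 H) (n17203 H) (n18924 H) (n23042 H) (n18426 H) (8428321 / 5000000) (102805987 / 100000000) (105841981 / 100000000) (43763 / 8000) (114123 / 5000000) (by decide +kernel)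
theorem n31663 (H : Base M O) : O.SZ 12 56 (58193 / 500000) :=
  Sys.R6' (n15669 H) (n17206 H) (n18924 H) (n23042 H) (n18431 H) (1754749 / 1000000) (25819859 / 25000000) (106305253 / 100000000) (1627821 / 250000) (867 / 31250) (by decide +kernel)
theorem n31669 (H : Base M O) : O.SZ 12 60 (130563 / 1000000) :=
  Sys.R6' (n15670 H) (n17209 H) (n18924 H) (n23042 H) (n18436 H) (18266651 / 10000000) (103794047 / 100000000) (106770553 / 100000000) (7828031 / 1000000) (168011 / 5000000) (by decide +kernel)
theorem n32679 (H : Base M O) : O.Rh0 38 (39923797 / 50000000) :=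
  Sys.Rh0_of (n31473 H) (by decide +kernel)
theorem n33238 (H : Base M O) : O.SZ 12 20 (29027 / 200000) :=
  Sys.SZ.pow (n31121 H) (by decide +kernel)
theorem n33242 (H : Base M O) : O.SZ 12 22 (1313 / 12500) :=
  Sys.SZ.pow (n31266 H) (by decide +kernel)
theorem n33274 (H : Base M O) : O.SZ 13 24 (352379 / 5000000) :=
  Sys.SZ.pow (n31278 H) (by decide +kernel)
theorem n33382 (H : Base M O) : O.SZ 15 26 (38197 / 1000000) :=
  Sys.SZ.pow (n31284 H) (by decide +kernel)
theorem n33385 (H : Base M O) : O.SZ 15 28 (33631 / 1000000) :=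
  Sys.SZ.pow (n31291 H) (by decide +kernel)
theorem n33388 (H : Base M O) : O.SZ 15 30 (316693 / 10000000) :=
  Sys.SZ.pow (n31298 H) (by decide +kernel)
theorem n33391 (H : Base M O) : O.SZ 15 32 (314911 / 10000000) :=
  Sys.SZ.pow (n31305 H) (by decide +kernel)
theorem n33394 (H : Base M O) : O.SZ 15 34 (326323 / 10000000) :=
  Sys.SZ.pow (n31312 H) (by decide +kernel)
theorem n33397 (H : Base M O) : O.SZ 15 36 (32273 / 1000000) :=
  Sys.SZ.pow (n31466 H) (by decide +kernel)
theorem n33400 (H : Base M O) : O.SZ 15 38 (341923 / 10000000) :=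
  Sys.SZ.pow (n31473 H) (by decide +kernel)
theorem n33403 (H : Base M O) : O.SZ 15 40 (367357 / 10000000) :=
  Sys.SZ.pow (n31480 H) (by decide +kernel)
theorem n33475 (H : Base M O) : O.SZ 16 36 (128351 / 5000000) :=
  Sys.SZ.pow (n31466 H) (by decide +kernel)
theorem n33485 (H : Base M O) : O.SZ 16 44 (7041 / 200000) :=
  Sys.SZ.pow (n31487 H) (by decide +kernel)
theorem n33488 (H : Base M O) : O.SZ 16 48 (26641 / 625000) :=
  Sys.SZ.pow (n31493 H) (by decide +kernel)
theorem n33566 (H : Base M O) : O.SZ 17 36 (204183 / 10000000) :=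
  Sys.SZ.pow (n31466 H) (by decide +kernel)
theorem n33670 (H : Base M O) : O.SZ 18 36 (20301 / 1250000) :=
  Sys.SZ.pow (n31466 H) (by decide +kernel)
theorem n33674 (H : Base M O) : O.SZ 18 38 (87033 / 5000000) :=
  Sys.SZ.pow (n31473 H) (by decide +kernel)
theorem n33678 (H : Base M O) : O.SZ 18 40 (189717 / 10000000) :=
  Sys.SZ.pow (n31480 H) (by decide +kernel)
theorem n33687 (H : Base M O) : O.SZ 18 48 (272179 / 10000000) :=
  Sys.SZ.pow (n31650 H) (by decide +kernel)
theorem n33691 (H : Base M O) : O.SZ 18 52 (33309 / 1000000) :=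
  Sys.SZ.pow (n31657 H) (by decide +kernel)
theorem n33695 (H : Base M O) : O.SZ 18 56 (3102 / 78125) :=
  Sys.SZ.pow (n31663 H) (by decide +kernel)
theorem n33756 (H : Base M O) : O.SZ 19 24 (207189 / 10000000) :=
  Sys.SZ.pow (n31278 H) (by decide +kernel)
theorem n33761 (H : Base M O) : O.SZ 19 26 (159921 / 10000000) :=
  Sys.SZ.pow (n31284 H) (by decide +kernel)
theorem n33766 (H : Base M O) : O.SZ 19 28 (17013 / 1250000) :=
  Sys.SZ.pow (n31291 H) (by decide +kernel)
theorem n33774 (H : Base M O) : O.SZ 19 32 (125229 / 10000000) :=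
  Sys.SZ.pow (n31305 H) (by decide +kernel)
theorem n33789 (H : Base M O) : O.SZ 19 38 (34747 / 2500000) :=
  Sys.SZ.pow (n31473 H) (by decide +kernel)
theorem n33852 (H : Base M O) : O.SZ 20 20 (94853 / 2500000) :=
  Sys.SZ.pow (n31252 H) (by decide +kernel)
theorem n33862 (H : Base M O) : O.SZ 20 22 (233843 / 10000000) :=
  Sys.SZ.pow (n31266 H) (by decide +kernel)
theorem n33886 (H : Base M O) : O.SZ 20 30 (100197 / 10000000) :=
  Sys.SZ.pow (n31298 H) (by decide +kernel)
theorem n33895 (H : Base M O) : O.SZ 20 34 (978391 / 100000000) :=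
  Sys.SZ.pow (n31459 H) (by decide +kernel)
theorem n33905 (H : Base M O) : O.SZ 20 38 (55489 / 5000000) :=
  Sys.SZ.pow (n31473 H) (by decide +kernel)
theorem n34012 (H : Base M O) : O.SZ 21 34 (155263 / 20000000) :=
  Sys.SZ.pow (n31459 H) (by decide +kernel)
theorem n34022 (H : Base M O) : O.SZ 21 38 (886133 / 100000000) :=
  Sys.SZ.pow (n31473 H) (by decide +kernel)
theorem n34027 (H : Base M O) : O.SZ 21 40 (489883 / 50000000) :=
  Sys.SZ.pow (n31480 H) (by decide +kernel)
theorem n34031 (H : Base M O) : O.SZ 21 44 (61857 / 5000000) :=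
  Sys.SZ.pow (n31487 H) (by decide +kernel)
theorem n34116 (H : Base M O) : O.SZ 22 28 (345293 / 50000000) :=
  Sys.SZ.pow (n31291 H) (by decide +kernel)
theorem n34134 (H : Base M O) : O.SZ 22 36 (650077 / 100000000) :=
  Sys.SZ.pow (n31466 H) (by decide +kernel)
theorem n34139 (H : Base M O) : O.SZ 22 38 (176889 / 25000000) :=
  Sys.SZ.pow (n31473 H) (by decide +kernel)
theorem n34144 (H : Base M O) : O.SZ 22 40 (786071 / 100000000) :=
  Sys.SZ.pow (n31480 H) (by decide +kernel)
theorem n34148 (H : Base M O) : O.SZ 22 44 (20073 / 2000000) :=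
  Sys.SZ.pow (n31487 H) (by decide +kernel)
theorem n34153 (H : Base M O) : O.SZ 22 48 (122193 / 10000000) :=
  Sys.SZ.pow (n31650 H) (by decide +kernel)
theorem n34162 (H : Base M O) : O.SZ 22 56 (193859 / 10000000) :=
  Sys.SZ.pow (n31663 H) (by decide +kernel)
theorem n34265 (H : Base M O) : O.SZ 24 44 (660549 / 100000000) :=
  Sys.SZ.pow (n31487 H) (by decide +kernel)
theorem n34270 (H : Base M O) : O.SZ 24 48 (818727 / 100000000) :=
  Sys.SZ.pow (n31650 H) (by decide +kernel)
theorem n34283 (H : Base M O) : O.SZ 24 60 (170467 / 10000000) :=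
  Sys.SZ.pow (n31669 H) (by decide +kernel)
theorem n34378 (H : Base M O) : O.SZ 26 40 (325701 / 100000000) :=
  Sys.SZ.pow (n31480 H) (by decide +kernel)
theorem n34387 (H : Base M O) : O.SZ 26 48 (548573 / 100000000) :=
  Sys.SZ.pow (n31650 H) (by decide +kernel)
theorem n34471 (H : Base M O) : O.SZ 28 30 (6357 / 4000000) :=
  Sys.SZ.pow (n31298 H) (by decide +kernel)
theorem n34495 (H : Base M O) : O.SZ 28 40 (209651 / 100000000) :=
  Sys.SZ.pow (n31480 H) (by decide +kernel)
theorem n34499 (H : Base M O) : O.SZ 28 44 (2289 / 800000) :=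
  Sys.SZ.pow (n31487 H) (by decide +kernel)
theorem n34504 (H : Base M O) : O.SZ 28 48 (367561 / 100000000) :=
  Sys.SZ.pow (n31650 H) (by decide +kernel)
theorem n34513 (H : Base M O) : O.SZ 28 56 (165339 / 25000000) :=
  Sys.SZ.pow (n31663 H) (by decide +kernel)
theorem n34588 (H : Base M O) : O.SZ 30 30 (20059 / 20000000) :=
  Sys.SZ.pow (n31298 H) (by decide +kernel)
theorem n34612 (H : Base M O) : O.SZ 30 40 (134951 / 100000000) :=
  Sys.SZ.pow (n31480 H) (by decide +kernel)
theorem n34616 (H : Base M O) : O.SZ 30 44 (94157 / 50000000) :=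
  Sys.SZ.pow (n31487 H) (by decide +kernel)
theorem n34705 (H : Base M O) : O.SZ 32 30 (632939 / 1000000000) :=
  Sys.SZ.pow (n31298 H) (by decide +kernel)
theorem n34733 (H : Base M O) : O.SZ 32 44 (123939 / 100000000) :=
  Sys.SZ.pow (n31487 H) (by decide +kernel)
theorem n34738 (H : Base M O) : O.SZ 32 48 (82507 / 50000000) :=
  Sys.SZ.pow (n31650 H) (by decide +kernel)
theorem n34822 (H : Base M O) : O.SZ 34 30 (99859 / 250000000) :=
  Sys.SZ.pow (n31298 H) (by decide +kernel)
theorem n34850 (H : Base M O) : O.SZ 34 44 (815703 / 1000000000) :=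
  Sys.SZ.pow (n31487 H) (by decide +kernel)
theorem n34915 (H : Base M O) : O.SZ 36 22 (23179 / 20000000) :=
  Sys.SZ.pow (n31266 H) (by decide +kernel)
theorem n34939 (H : Base M O) : O.SZ 36 30 (63019 / 250000000) :=
  Sys.SZ.pow (n31298 H) (by decide +kernel)
theorem n34948 (H : Base M O) : O.SZ 36 34 (241503 / 1000000000) :=
  Sys.SZ.pow (n31459 H) (by decide +kernel)
theorem n34981 (H : Base M O) : O.SZ 36 56 (157653 / 100000000) :=
  Sys.SZ.pow (n31663 H) (by decide +kernel)
theorem n35032 (H : Base M O) : O.SZ 38 22 (31843 / 40000000) :=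
  Sys.SZ.pow (n31266 H) (by decide +kernel)
theorem n35149 (H : Base M O) : O.SZ 40 22 (273411 / 500000000) :=
  Sys.SZ.pow (n31266 H) (by decide +kernel)
theorem n35266 (H : Base M O) : O.SZ 44 22 (258007 / 1000000000) :=
  Sys.SZ.pow (n31266 H) (by decide +kernel)
theorem n35300 (H : Base M O) : O.SZ 44 34 (189713 / 5000000000) :=
  Sys.SZ.pow (n31459 H) (by decide +kernel)
theorem n35310 (H : Base M O) : O.SZ 44 38 (100127 / 2000000000) :=
  Sys.SZ.pow (n31473 H) (by decide +kernel)
theorem n35385 (H : Base M O) : O.SZ 48 22 (24347 / 200000000) :=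
  Sys.SZ.pow (n31266 H) (by decide +kernel)
theorem n35419 (H : Base M O) : O.SZ 48 34 (75197 / 5000000000) :=
  Sys.SZ.pow (n31459 H) (by decide +kernel)
theorem n35505 (H : Base M O) : O.SZ 52 22 (574381 / 10000000000) :=
  Sys.SZ.pow (n31266 H) (by decide +kernel)
theorem n35539 (H : Base M O) : O.SZ 52 34 (298059 / 50000000000) :=
  Sys.SZ.pow (n31459 H) (by decide +kernel)
theorem n35635 (H : Base M O) : O.SZ 56 24 (109071 / 10000000000) :=
  Sys.SZ.pow (n31278 H) (by decide +kernel)
theorem n35755 (H : Base M O) : O.SZ 60 24 (120559 / 25000000000) :=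
  Sys.SZ.pow (n31278 H) (by decide +kernel)
theorem n35779 (H : Base M O) : O.SZ 60 34 (468281 / 500000000000) :=
  Sys.SZ.pow (n31459 H) (by decide +kernel)
theorem n35784 (H : Base M O) : O.SZ 60 36 (54241 / 50000000000) :=
  Sys.SZ.pow (n31466 H) (by decide +kernel)
theorem n35798 (H : Base M O) : O.SZ 60 44 (354619 / 100000000000) :=
  Sys.SZ.pow (n31487 H) (by decide +kernel)
theorem n35875 (H : Base M O) : O.SZ 64 24 (53303 / 25000000000) :=
  Sys.SZ.pow (n31278 H) (by decide +kernel)
theorem n35894 (H : Base M O) : O.SZ 64 32 (18053 / 50000000000) :=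
  Sys.SZ.pow (n31452 H) (by decide +kernel)
theorem n35899 (H : Base M O) : O.SZ 64 34 (371227 / 1000000000000) :=
  Sys.SZ.pow (n31459 H) (by decide +kernel)
theorem n35918 (H : Base M O) : O.SZ 64 44 (19201 / 12500000000) :=
  Sys.SZ.pow (n31487 H) (by decide +kernel)
theorem n36115 (H : Base M O) : O.SZ 72 24 (26049 / 62500000000) :=
  Sys.SZ.pow (n31278 H) (by decide +kernel)
theorem n36158 (H : Base M O) : O.SZ 72 44 (144107 / 500000000000) :=
  Sys.SZ.pow (n31487 H) (by decide +kernel)
theorem n36240 (H : Base M O) : O.SZ 80 26 (136917 / 5000000000000) :=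
  Sys.SZ.pow (n31284 H) (by decide +kernel)
theorem n36278 (H : Base M O) : O.SZ 80 44 (21631 / 400000000000) :=
  Sys.SZ.pow (n31487 H) (by decide +kernel)
theorem n36283 (H : Base M O) : O.SZ 80 48 (110611 / 1000000000000) :=
  Sys.SZ.pow (n31650 H) (by decide +kernel)
theorem n36480 (H : Base M O) : O.SZ 96 26 (210341 / 250000000000000) :=
  Sys.SZ.pow (n31284 H) (by decide +kernel)
theorem n36518 (H : Base M O) : O.SZ 96 44 (9519 / 5000000000000) :=
  Sys.SZ.pow (n31487 H) (by decide +kernel)
theorem n36523 (H : Base M O) : O.SZ 96 48 (11233 / 2500000000000) :=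
  Sys.SZ.pow (n31650 H) (by decide +kernel)
theorem n36601 (H : Base M O) : O.SZ 104 26 (3687 / 25000000000000) :=
  Sys.SZ.pow (n31284 H) (by decide +kernel)
theorem n36639 (H : Base M O) : O.SZ 104 44 (44651 / 125000000000000) :=
  Sys.SZ.pow (n31487 H) (by decide +kernel)
theorem n36644 (H : Base M O) : O.SZ 104 48 (905597 / 1000000000000000) :=
  Sys.SZ.pow (n31650 H) (by decide +kernel)
theorem n37099 (H : Base M O) : O.SZ 160 32 (156667 / 2000000000000000000000) :=
  Sys.SZ.pow (n31452 H) (by decide +kernel)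
theorem n37225 (H : Base M O) : O.SZ 192 34 (15987 / 312500000000000000000000) :=
  Sys.SZ.pow (n31459 H) (by decide +kernel)
theorem n37905 (H : Base M O) : O.TX 24 44 (3703 / 1250000) :=
  Sys.TX.pow (n19018 H) (by decide +kernel)
theorem n37929 (H : Base M O) : O.TX 24 60 (7133 / 20000000) :=
  Sys.TX.pow (n19018 H) (by decide +kernel)
theorem n37941 (H : Base M O) : O.TX 24 72 (91117 / 1250000000) :=
  Sys.TX.pow (n19018 H) (by decide +kernel)
theorem n38001 (H : Base M O) : O.TX 24 224 (13439 / 100000000000000000) :=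
  Sys.TX.pow (n19018 H) (by decide +kernel)
theorem n38019 (H : Base M O) : O.TX 24 320 (3197 / 7812500000000000000000) :=
  Sys.TX.pow (n19018 H) (by decide +kernel)
theorem n38048 (H : Base M O) : O.TX 26 20 (25359 / 312500) :=
  Sys.TX.pow (n19025 H) (by decide +kernel)
theorem n38120 (H : Base M O) : O.TX 26 40 (658513 / 100000000) :=
  Sys.TX.pow (n19025 H) (by decide +kernel)
theorem n38132 (H : Base M O) : O.TX 26 48 (48229 / 20000000) :=
  Sys.TX.pow (n19025 H) (by decide +kernel)
theorem n38144 (H : Base M O) : O.TX 26 56 (883059 / 1000000000) :=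
  Sys.TX.pow (n19025 H) (by decide +kernel)
theorem n38162 (H : Base M O) : O.TX 26 72 (59209 / 500000000) :=
  Sys.TX.pow (n19025 H) (by decide +kernel)
theorem n38168 (H : Base M O) : O.TX 26 80 (433639 / 10000000000) :=
  Sys.TX.pow (n19025 H) (by decide +kernel)
theorem n38186 (H : Base M O) : O.TX 26 104 (42589 / 20000000000) :=
  Sys.TX.pow (n19025 H) (by decide +kernel)
theorem n38222 (H : Base M O) : O.TX 26 224 (152019 / 250000000000000000) :=
  Sys.TX.pow (n19025 H) (by decide +kernel)
theorem n38228 (H : Base M O) : O.TX 26 256 (27337 / 2500000000000000000) :=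
  Sys.TX.pow (n19025 H) (by decide +kernel)
theorem n38342 (H : Base M O) : O.TX 28 40 (218077 / 25000000) :=
  Sys.TX.pow (n19032 H) (by decide +kernel)
theorem n38354 (H : Base M O) : O.TX 28 48 (42239 / 12500000) :=
  Sys.TX.pow (n19032 H) (by decide +kernel)
theorem n38366 (H : Base M O) : O.TX 28 56 (1309 / 1000000) :=
  Sys.TX.pow (n19032 H) (by decide +kernel)
theorem n38384 (H : Base M O) : O.TX 28 72 (196429 / 1000000000) :=
  Sys.TX.pow (n19032 H) (by decide +kernel)
theorem n38396 (H : Base M O) : O.TX 28 88 (73691 / 2500000000) :=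
  Sys.TX.pow (n19032 H) (by decide +kernel)
theorem n38402 (H : Base M O) : O.TX 28 96 (22837 / 2000000000) :=
  Sys.TX.pow (n19032 H) (by decide +kernel)
theorem n38408 (H : Base M O) : O.TX 28 104 (17693 / 4000000000) :=
  Sys.TX.pow (n19032 H) (by decide +kernel)
theorem n38414 (H : Base M O) : O.TX 28 112 (171347 / 100000000000) :=
  Sys.TX.pow (n19032 H) (by decide +kernel)
theorem n38421 (H : Base M O) : O.TX 28 128 (121261 / 500000000000) :=
  Sys.TX.pow (n19033 H) (by decide +kernel)
theorem n38574 (H : Base M O) : O.TX 30 40 (59021 / 5000000) :=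
  Sys.TX.pow (n19039 H) (by decide +kernel)
theorem n38580 (H : Base M O) : O.TX 30 44 (378623 / 50000000) :=
  Sys.TX.pow (n19039 H) (by decide +kernel)
theorem n38628 (H : Base M O) : O.TX 30 80 (64137 / 500000000) :=
  Sys.TX.pow (n19040 H) (by decide +kernel)
theorem n38642 (H : Base M O) : O.TX 30 96 (213681 / 10000000000) :=
  Sys.TX.pow (n19040 H) (by decide +kernel)
theorem n38649 (H : Base M O) : O.TX 30 104 (436063 / 50000000000) :=
  Sys.TX.pow (n19040 H) (by decide +kernel)
theorem n38670 (H : Base M O) : O.TX 30 144 (987753 / 10000000000000) :=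
  Sys.TX.pow (n19040 H) (by decide +kernel)
theorem n38828 (H : Base M O) : O.TX 32 44 (51567 / 5000000) :=
  Sys.TX.pow (n19047 H) (by decide +kernel)
theorem n38940 (H : Base M O) : O.TX 32 224 (769833 / 10000000000000000) :=
  Sys.TX.pow (n19047 H) (by decide +kernel)
theorem n38961 (H : Base M O) : O.TX 32 320 (356447 / 100000000000000000000) :=
  Sys.TX.pow (n19047 H) (by decide +kernel)
theorem n39065 (H : Base M O) : O.TX 34 44 (164919 / 10000000) :=
  Sys.TX.pow (n19053 H) (by decide +kernel)
theorem n39285 (H : Base M O) : O.TX 36 56 (27409 / 2000000) :=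
  Sys.TX.pow (n19058 H) (by decide +kernel)
theorem n39679 (H : Base M O) : O.Mu 24 (20130920519 / 20000000000) :=
  Sys.R2 (n18190 H) (n33756 H) (by decide +kernel)
theorem n39680 (H : Base M O) : O.Mu 26 (100489680251 / 100000000000) :=
  Sys.R2 (n18195 H) (n33761 H) (by decide +kernel)
theorem n39681 (H : Base M O) : O.Mu 28 (20074512999 / 20000000000) :=
  Sys.R2 (n18200 H) (n33766 H) (by decide +kernel)
theorem n39682 (H : Base M O) : O.Mu 32 (25057758963 / 25000000000) :=
  Sys.R2 (n18210 H) (n33774 H) (by decide +kernel)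
theorem n39701 (H : Base M O) : O.Mu 20 (10117913573 / 10000000000) :=
  Sys.R2 (n18351 H) (n33852 H) (by decide +kernel)
theorem n39703 (H : Base M O) : O.Mu 22 (25215196923 / 25000000000) :=
  Sys.R2 (n18361 H) (n33862 H) (by decide +kernel)
theorem n39704 (H : Base M O) : O.Mu 30 (100282550429 / 100000000000) :=
  Sys.R2 (n18386 H) (n33886 H) (by decide +kernel)
theorem n39722 (H : Base M O) : O.Mu 34 (20034715873 / 20000000000) :=
  Sys.R2 (n18578 H) (n34012 H) (by decide +kernel)

end Crest.Agent.R347.Num
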