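import Crest.Agent.R347.D.C2

/-! Row 347: the numerical chain (computer generated) -/

set_option autoImplicit false
set_option Elab.async false
set_option linter.unusedVariables false

namespace Crest.Agent.R347.Num

variable {M : Model} {O : OSys}

theorem n39723 (H : Base M O) : O.Mu 38 (50059400059 / 50000000000) :=
  Sys.R2 (n18588 H) (n34022 H) (by decide +kernel)
theorem n39738 (H : Base M O) : O.Mu 36 (100138756371 / 100000000000) :=
  Sys.R2 (n18774 H) (n34134 H) (by decide +kernel)
theorem n39739 (H : Base M O) : O.Mu 40 (125122127247 / 125000000000) :=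
  Sys.R2 (n18784 H) (n34144 H) (by decide +kernel)
theorem n39740 (H : Base M O) : O.Mu 44 (1000806578687 / 1000000000000) :=
  Sys.R2 (n18789 H) (n34148 H) (by decide +kernel)
theorem n39765 (H : Base M O) : O.Mu 48 (500290342113 / 500000000000) :=
  Sys.R2 (n38132 H) (n34387 H) (by decide +kernel)
theorem n39778 (H : Base M O) : O.Mu 56 (500211133017 / 500000000000) :=
  Sys.R2 (n38366 H) (n34513 H) (by decide +kernel)
theorem n39914 (H : Base M O) : O.SX 11 38 (154201 / 1000000) :=
  Sys.R3' (n31473 H) (n15621 H) (n17080 H) (n18921 H) (16541313 / 10000000) (by decide +kernel)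
theorem n39929 (H : Base M O) : O.SX 12 20 (960167 / 10000000) :=
  Sys.R3' (n33238 H) (n15653 H) (n17158 H) (n18924 H) (6112089 / 5000000) (by decide +kernel)
theorem n39931 (H : Base M O) : O.SX 12 22 (891671 / 10000000) :=
  Sys.R3' (n33242 H) (n15655 H) (n17164 H) (n18924 H) (6236079 / 5000000) (by decide +kernel)
theorem n39960 (H : Base M O) : O.SX 13 24 (690341 / 10000000) :=
  Sys.R3' (n33274 H) (n15700 H) (n17280 H) (n18927 H) (12031453 / 10000000) (by decide +kernel)
theorem n40017 (H : Base M O) : O.SX 15 26 (439971 / 10000000) :=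
  Sys.R3' (n33382 H) (n15787 H) (n17553 H) (n18934 H) (5626353 / 5000000) (by decide +kernel)
theorem n40018 (H : Base M O) : O.SX 15 28 (428721 / 10000000) :=
  Sys.R3' (n33385 H) (n15788 H) (n17557 H) (n18934 H) (11355331 / 10000000) (by decide +kernel)
theorem n40019 (H : Base M O) : O.SX 15 30 (214049 / 5000000) :=
  Sys.R3' (n33388 H) (n15789 H) (n17561 H) (n18934 H) (2864723 / 2500000) (by decide +kernel)
theorem n40020 (H : Base M O) : O.SX 15 32 (54391 / 1250000) :=
  Sys.R3' (n33391 H) (n15790 H) (n17565 H) (n18934 H) (5781699 / 5000000) (by decide +kernel)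
theorem n40021 (H : Base M O) : O.SX 15 34 (447767 / 10000000) :=
  Sys.R3' (n33394 H) (n15791 H) (n17569 H) (n18934 H) (11668857 / 10000000) (by decide +kernel)
theorem n40022 (H : Base M O) : O.SX 15 36 (92689 / 2000000) :=
  Sys.R3' (n33397 H) (n15792 H) (n17573 H) (n18934 H) (5887639 / 5000000) (by decide +kernel)
theorem n40023 (H : Base M O) : O.SX 15 38 (120717 / 2500000) :=
  Sys.R3' (n33400 H) (n15793 H) (n17577 H) (n18934 H) (11882669 / 10000000) (by decide +kernel)
theorem n40024 (H : Base M O) : O.SX 15 40 (63081 / 1250000) :=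
  Sys.R3' (n33403 H) (n15794 H) (n17581 H) (n18934 H) (18736 / 15625) (by decide +kernel)
theorem n40053 (H : Base M O) : O.SX 16 44 (44753 / 1000000) :=
  Sys.R3' (n33485 H) (n15838 H) (n17729 H) (n18938 H) (11775001 / 10000000) (by decide +kernel)
theorem n40054 (H : Base M O) : O.SX 16 48 (489051 / 10000000) :=
  Sys.R3' (n33488 H) (n15839 H) (n17733 H) (n18938 H) (2987803 / 2500000) (by decide +kernel)
theorem n40110 (H : Base M O) : O.SX 18 48 (327237 / 10000000) :=
  Sys.R3' (n33687 H) (n15923 H) (n18063 H) (n18947 H) (11295469 / 10000000) (by decide +kernel)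
theorem n40111 (H : Base M O) : O.SX 18 52 (35473 / 1000000) :=
  Sys.R3' (n33691 H) (n15924 H) (n18068 H) (n18947 H) (5705359 / 5000000) (by decide +kernel)
theorem n40112 (H : Base M O) : O.SX 18 56 (95957 / 2500000) :=
  Sys.R3' (n33695 H) (n15925 H) (n18073 H) (n18947 H) (5763571 / 5000000) (by decide +kernel)
theorem n40249 (H : Base M O) : O.SX 24 44 (555407 / 10000000) :=
  Sys.R3' (n34265 H) (n16280 H) (n37905 H) (n18973 H) (763283 / 625000) (by decide +kernel)
theorem n40276 (H : Base M O) : O.SX 26 40 (680837 / 10000000) :=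
  Sys.R3' (n34378 H) (n16360 H) (n38120 H) (n18980 H) (12606809 / 10000000) (by decide +kernel)
theorem n40304 (H : Base M O) : O.SX 28 40 (3677 / 40000) :=
  Sys.R3' (n34495 H) (n16443 H) (n38342 H) (n18987 H) (6780183 / 5000000) (by decide +kernel)
theorem n40306 (H : Base M O) : O.SX 28 48 (103721 / 1000000) :=
  Sys.R3' (n34504 H) (n16447 H) (n38354 H) (n18987 H) (900753 / 625000) (by decide +kernel)
theorem n40332 (H : Base M O) : O.SX 30 40 (128591 / 1000000) :=
  Sys.R3' (n34612 H) (n16526 H) (n38574 H) (n18994 H) (15061359 / 10000000) (by decide +kernel)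
theorem n40333 (H : Base M O) : O.SX 30 44 (8471 / 62500) :=
  Sys.R3' (n34616 H) (n16528 H) (n38580 H) (n18994 H) (7845499 / 5000000) (by decide +kernel)
theorem n40361 (H : Base M O) : O.SX 32 44 (198343 / 1000000) :=
  Sys.R3' (n34733 H) (n16610 H) (n38828 H) (n19001 H) (18662547 / 10000000) (by decide +kernel)
theorem n40389 (H : Base M O) : O.SX 34 44 (320919 / 1000000) :=
  Sys.R3' (n34850 H) (n16686 H) (n39065 H) (n19007 H) (2515173 / 1000000) (by decide +kernel)
theorem n40420 (H : Base M O) : O.SX 36 56 (173027 / 250000) :=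
  Sys.R3' (n34981 H) (n16751 H) (n39285 H) (n19012 H) (3350157 / 500000) (by decide +kernel)
theorem n40662 (H : Base M O) : LeQ (O.w 16) (5000220426447 / 5000000000000) (O.u 36) :=
  Sys.R4' (n33475 H) (n39738 H) (102243357 / 100000000) (by decide +kernel)
theorem n40690 (H : Base M O) : LeQ (O.w 17) (5000165565959 / 5000000000000) (O.u 36) :=
  Sys.R4' (n33566 H) (n39738 H) (51192613 / 50000000) (by decide +kernel)
theorem n40718 (H : Base M O) : LeQ (O.w 18) (5000124762147 / 5000000000000) (O.u 36) :=
  Sys.R4' (n33670 H) (n39738 H) (25631823 / 25000000) (by decide +kernel)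
theorem n40719 (H : Base M O) : LeQ (O.w 18) (5000126462211 / 5000000000000) (O.u 38) :=
  Sys.R4' (n33674 H) (n39723 H) (51080067 / 50000000) (by decide +kernel)
theorem n40720 (H : Base M O) : LeQ (O.w 18) (1000026143443 / 1000000000000) (O.u 40) :=
  Sys.R4' (n33678 H) (n39739 H) (50886657 / 50000000) (by decide +kernel)
theorem n40747 (H : Base M O) : LeQ (O.w 19) (500009592187 / 500000000000) (O.u 38) :=
  Sys.R4' (n33789 H) (n39723 H) (204563 / 200000) (by decide +kernel)
theorem n40773 (H : Base M O) : LeQ (O.w 20) (2000028970207 / 2000000000000) (O.u 34) :=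
  Sys.R4' (n33895 H) (n39722 H) (20705887 / 20000000) (by decide +kernel)
theorem n40775 (H : Base M O) : LeQ (O.w 20) (2000029183747 / 2000000000000) (O.u 38) :=
  Sys.R4' (n33905 H) (n39723 H) (102403011 / 100000000) (by decide +kernel)
theorem n40803 (H : Base M O) : LeQ (O.w 21) (10000111289113 / 10000000000000) (O.u 38) :=
  Sys.R4' (n34022 H) (n39723 H) (20504933 / 20000000) (by decide +kernel)
theorem n40804 (H : Base M O) : LeQ (O.w 21) (10000116542769 / 10000000000000) (O.u 40) :=
  Sys.R4' (n34027 H) (n39739 H) (102071909 / 100000000) (by decide +kernel)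
theorem n40805 (H : Base M O) : LeQ (O.w 21) (2000026672149 / 2000000000000) (O.u 44) :=
  Sys.R4' (n34031 H) (n39740 H) (25426887 / 25000000) (by decide +kernel)
theorem n40826 (H : Base M O) : LeQ (O.w 22) (10000122048151 / 10000000000000) (O.u 28) :=
  Sys.R4' (n34116 H) (n39681 H) (13565647 / 12500000) (by decide +kernel)
theorem n40831 (H : Base M O) : LeQ (O.w 22) (12500106383341 / 12500000000000) (O.u 38) :=
  Sys.R4' (n34139 H) (n39723 H) (20529293 / 20000000) (by decide +kernel)
theorem n40832 (H : Base M O) : LeQ (O.w 22) (100000894708707 / 100000000000000) (O.u 40) :=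
  Sys.R4' (n34144 H) (n39739 H) (20434327 / 20000000) (by decide +kernel)
theorem n40833 (H : Base M O) : LeQ (O.w 22) (625006467009 / 625000000000) (O.u 44) :=
  Sys.R4' (n34148 H) (n39740 H) (101789583 / 100000000) (by decide +kernel)
theorem n40834 (H : Base M O) : LeQ (O.w 22) (625007197349 / 625000000000) (O.u 48) :=
  Sys.R4' (n34153 H) (n39765 H) (4051413 / 4000000) (by decide +kernel)
theorem n40836 (H : Base M O) : LeQ (O.w 22) (500007795713 / 500000000000) (O.u 56) :=
  Sys.R4' (n34162 H) (n39778 H) (1009331159 / 1000000000) (by decide +kernel)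
theorem n40862 (H : Base M O) : LeQ (O.w 24) (50000354696409 / 50000000000000) (O.u 48) :=
  Sys.R4' (n34270 H) (n39765 H) (101402989 / 100000000) (by decide +kernel)
theorem n40888 (H : Base M O) : LeQ (O.w 26) (50000159250697 / 50000000000000) (O.u 40) :=
  Sys.R4' (n34378 H) (n39739 H) (51285757 / 50000000) (by decide +kernel)
theorem n40890 (H : Base M O) : LeQ (O.w 26) (50000220038511 / 50000000000000) (O.u 48) :=
  Sys.R4' (n34387 H) (n39765 H) (101520789 / 100000000) (by decide +kernel)
theorem n40917 (H : Base M O) : LeQ (O.w 28) (20000047161131 / 20000000000000) (O.u 44) :=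
  Sys.R4' (n34499 H) (n39740 H) (20456637 / 20000000) (by decide +kernel)
theorem n41722 (H : Base M O) : LeQ (O.a 34) (10000382571047 / 10000000000000) (O.u 34) :=
  Sys.Pau (n39722 H) (by decide +kernel)
theorem n55312 (H : Base M O) : LeQ (O.w 21) (2000043588627 / 2000000000000) (O.w 26) :=
  LeQ.trans (n40803 H) (n19743 H) (by decide +kernel)
theorem n55806 (H : Base M O) : LeQ (O.w 18) (2500088616459 / 2500000000000) (O.w 26) :=
  LeQ.trans (n40720 H) (n19744 H) (by decide +kernel)
theorem n113299 (H : Base M O) : LeQ (O.u 17) (80005597823 / 80000000000) (O.u 34) :=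
  LeQ.trans (n19561 H) (n40773 H) (by decide +kernel)
theorem n117584 (H : Base M O) : LeQ (O.u 12) (5000280482081 / 5000000000000) (O.u 40) :=
  LeQ.trans (n8661 H) (n40804 H) (by decide +kernel)
theorem n117641 (H : Base M O) : LeQ (O.u 13) (5000476408927 / 5000000000000) (O.u 40) :=
  LeQ.trans (n8690 H) (n40804 H) (by decide +kernel)
theorem n117642 (H : Base M O) : LeQ (O.u 13) (2500242409309 / 2500000000000) (O.u 44) :=
  LeQ.trans (n8690 H) (n40805 H) (by decide +kernel)
theorem n117837 (H : Base M O) : LeQ (O.u 20) (10000362088037 / 10000000000000) (O.u 38) :=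
  LeQ.trans (n19604 H) (n40803 H) (by decide +kernel)
theorem n119984 (H : Base M O) : LeQ (O.w 10) (1000152254423 / 1000000000000) (O.w 26) :=
  LeQ.trans (n23008 H) (n55312 H) (by decide +kernel)
theorem n121637 (H : Base M O) : LeQ (O.u 11) (1000000991422981 / 1000000000000000) (O.u 40) :=
  LeQ.trans (n8632 H) (n40832 H) (by decide +kernel)
theorem n121694 (H : Base M O) : LeQ (O.u 12) (10000566478877 / 10000000000000) (O.u 28) :=
  LeQ.trans (n8662 H) (n40826 H) (by decide +kernel)
theorem n121696 (H : Base M O) : LeQ (O.u 12) (2500136975511 / 2500000000000) (O.u 44) :=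
  LeQ.trans (n8662 H) (n40833 H) (by decide +kernel)
theorem n121697 (H : Base M O) : LeQ (O.u 12) (10000559588003 / 10000000000000) (O.u 48) :=
  LeQ.trans (n8662 H) (n40834 H) (by decide +kernel)
theorem n121743 (H : Base M O) : LeQ (O.u 13) (2000191666557 / 2000000000000) (O.u 28) :=
  LeQ.trans (n8691 H) (n40826 H) (by decide +kernel)
theorem n121746 (H : Base M O) : LeQ (O.u 13) (5000496100863 / 5000000000000) (O.u 56) :=
  LeQ.trans (n8691 H) (n40836 H) (by decide +kernel)
theorem n122011 (H : Base M O) : LeQ (O.u 22) (10000243142233 / 10000000000000) (O.u 38) :=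
  LeQ.trans (n19646 H) (n40831 H) (by decide +kernel)
theorem n122124 (H : Base M O) : LeQ (O.u 24) (2500046023937 / 2500000000000) (O.u 40) :=
  LeQ.trans (n19648 H) (n40832 H) (by decide +kernel)
theorem n122180 (H : Base M O) : LeQ (O.u 26) (2000028577463 / 2000000000000) (O.u 38) :=
  LeQ.trans (n19649 H) (n40831 H) (by decide +kernel)
theorem n122182 (H : Base M O) : LeQ (O.u 26) (2500040313223 / 2500000000000) (O.u 44) :=
  LeQ.trans (n19649 H) (n40833 H) (by decide +kernel)
theorem n129185 (H : Base M O) : O.TZ 24 12 (113601 / 1000000) :=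
  Sys.R6 (n625 H) (n128 H) (n102 H) (n121696 H) (n40249 H) (291931 / 125000) (3371851 / 3125000) (10159043 / 10000000) (566587 / 5000) (85969 / 250000000) (by decide +kernel)
theorem n129204 (H : Base M O) : O.TZ 26 12 (3443 / 25000) :=
  Sys.R6 (n632 H) (n129 H) (n102 H) (n117584 H) (n40276 H) (2506501 / 1000000) (1367599 / 1250000) (20353113 / 20000000) (428869 / 2500) (67447 / 50000000) (by decide +kernel)
theorem n129227 (H : Base M O) : O.TZ 28 11 (227419 / 1000000) :=
  Sys.R6 (n638 H) (n73 H) (n45 H) (n121637 H) (n40304 H) (1776967 / 500000) (2386683 / 2000000) (312595439 / 312500000) (3450309 / 1000) (458341 / 100000000) (by decide +kernel)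
theorem n129232 (H : Base M O) : O.TZ 28 12 (40871 / 250000) :=
  Sys.R6 (n639 H) (n130 H) (n102 H) (n121697 H) (n40306 H) (2690081 / 1000000) (11107521 / 10000000) (2037959 / 2000000) (35539 / 25) (357167 / 500000000) (by decide +kernel)
theorem n129263 (H : Base M O) : O.TZ 30 12 (49783 / 250000) :=
  Sys.R6 (n646 H) (n131 H) (n102 H) (n121696 H) (n40333 H) (2887107 / 1000000) (282271 / 250000) (50995987 / 50000000) (2858377 / 1000) (67317 / 25000000) (by decide +kernel)
theorem n129268 (H : Base M O) : O.TZ 30 13 (86147 / 500000) :=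
  Sys.R6 (n647 H) (n188 H) (n159 H) (n117641 H) (n40332 H) (2330337 / 1000000) (107854929 / 100000000) (103785713 / 100000000) (1089743 / 2000) (111687 / 25000000) (by decide +kernel)
theorem n129306 (H : Base M O) : O.TZ 32 13 (21387 / 100000) :=
  Sys.R6 (n654 H) (n189 H) (n159 H) (n117642 H) (n40361 H) (2465547 / 1000000) (5452119 / 5000000) (52057973 / 50000000) (4711283 / 1000) (135131 / 25000000) (by decide +kernel)
theorem n129347 (H : Base M O) : O.TZ 34 13 (29737 / 100000) :=
  Sys.R6 (n661 H) (n190 H) (n159 H) (n117642 H) (n40389 H) (2608603 / 1000000) (11032977 / 10000000) (104378747 / 100000000) (1907159 / 25) (20617 / 1250000) (by decide +kernel)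
theorem n129381 (H : Base M O) : O.TZ 36 13 (113759 / 200000) :=
  Sys.R6 (n668 H) (n191 H) (n159 H) (n121746 H) (n40420 H) (1379979 / 500000) (1396509 / 1250000) (52376381 / 50000000) 29894120001 (879883 / 10000000) (by decide +kernel)
theorem n129444 (H : Base M O) : O.SZ 10 20 (91961 / 500000) :=
  Sys.R6' (n15567 H) (n16976 H) (n18918 H) (n119984 H) (n38048 H) (14089389 / 10000000) (101169837 / 100000000) (103091687 / 100000000) (7137231 / 100000) (30619 / 2500000) (by decide +kernel)
theorem n129564 (H : Base M O) : O.SZ 18 72 (2007 / 31250) :=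
  Sys.R6' (n15928 H) (n18088 H) (n18947 H) (n55806 H) (n38162 H) (12004841 / 10000000) (5016147 / 5000000) (52350473 / 50000000) (1798947 / 500000) (189577 / 10000000) (by decide +kernel)
theorem n129567 (H : Base M O) : O.SZ 18 80 (22923 / 312500) :=
  Sys.R6' (n15929 H) (n18093 H) (n18947 H) (n55806 H) (n38168 H) (12251063 / 10000000) (1004001139 / 1000000000) (13154591 / 12500000) (4185807 / 1000000) (114851 / 5000000) (by decide +kernel)
theorem n129576 (H : Base M O) : O.SZ 18 104 (1627 / 15625) :=
  Sys.R6' (n15932 H) (n18108 H) (n18947 H) (n55806 H) (n38186 H) (406889 / 312500) (1006835351 / 1000000000) (106860583 / 100000000) (6701817 / 1000000) (190503 / 5000000) (by decide +kernel)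
theorem n129875 (H : Base M O) : O.SF 11 38 (3417 / 6250) :=
  Sys.SF_of (n31473 H) (n39914 H) (by decide +kernel)
theorem n130081 (H : Base M O) : O.Rh1 38 (81706241 / 100000000) :=
  Sys.Rh1_of (n40023 H) (by decide +kernel)
theorem n131645 (H : Base M O) : O.So 8 38 (291503 / 100000) :=
  OSys.O4 (n11009 H) (n12411 H) (n32679 H) (n130081 H) (81706241 / 100000000) (3339687 / 1000000) (by decide +kernel)
theorem n132329 (H : Base M O) : O.So 18 38 (386541 / 1000000) :=
  OSys.Sop (n131645 H) (n32679 H) (n130081 H) (81706241 / 100000000) (by decide +kernel)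
theorem n137450 (H : Base M O) : O.TZ 24 36 (29321 / 20000000) :=
  Sys.TZ.pow (n129185 H) (by decide +kernel)
theorem n137464 (H : Base M O) : O.TZ 24 60 (47299 / 2500000000) :=
  Sys.TZ.pow (n129185 H) (by decide +kernel)
theorem n137468 (H : Base M O) : O.TZ 24 72 (13433 / 6250000000) :=
  Sys.TZ.pow (n129185 H) (by decide +kernel)
theorem n137470 (H : Base M O) : O.SZ 24 72 (64299 / 2500000) :=
  Sys.SZ.pow (n129564 H) (by decide +kernel)
theorem n137533 (H : Base M O) : O.TZ 24 224 (232881 / 100000000000000000000000) :=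
  Sys.TZ.pow (n129185 H) (by decide +kernel)
theorem n137545 (H : Base M O) : O.TZ 24 320 (1 / 10000000000000000000000000) :=
  Sys.TZ.pow (n129185 H) (by decide +kernel)
theorem n137573 (H : Base M O) : O.TZ 26 32 (63227 / 12500000) :=
  Sys.TZ.pow (n129204 H) (by decide +kernel)
theorem n137575 (H : Base M O) : O.TZ 26 34 (36349 / 10000000) :=
  Sys.TZ.pow (n129204 H) (by decide +kernel)
theorem n137577 (H : Base M O) : O.TZ 26 36 (261211 / 100000000) :=
  Sys.TZ.pow (n129204 H) (by decide +kernel)
theorem n137701 (H : Base M O) : O.TZ 28 30 (54033 / 5000000) :=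
  Sys.TZ.pow (n129232 H) (by decide +kernel)
theorem n137709 (H : Base M O) : O.TZ 28 38 (161551 / 50000000) :=
  Sys.TZ.pow (n129232 H) (by decide +kernel)
theorem n137806 (H : Base M O) : O.TZ 28 448 (1 / 10000000000000000000000000) :=
  Sys.TZ.pow (n129227 H) (by decide +kernel)
theorem n137832 (H : Base M O) : O.TZ 30 30 (176951 / 10000000) :=
  Sys.TZ.pow (n129263 H) (by decide +kernel)
theorem n137840 (H : Base M O) : O.TZ 30 38 (150853 / 25000000) :=
  Sys.TZ.pow (n129263 H) (by decide +kernel)
theorem n137842 (H : Base M O) : O.TZ 30 40 (461109 / 100000000) :=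
  Sys.TZ.pow (n129263 H) (by decide +kernel)
theorem n137848 (H : Base M O) : O.TZ 30 52 (114777 / 125000000) :=
  Sys.TZ.pow (n129263 H) (by decide +kernel)
theorem n137862 (H : Base M O) : O.TZ 30 80 (6237 / 312500000) :=
  Sys.TZ.pow (n129268 H) (by decide +kernel)
theorem n137866 (H : Base M O) : O.SZ 30 80 (6427 / 500000) :=
  Sys.SZ.pow (n129567 H) (by decide +kernel)
theorem n137884 (H : Base M O) : O.TZ 30 104 (97067 / 125000000000) :=
  Sys.TZ.pow (n129268 H) (by decide +kernel)
theorem n137888 (H : Base M O) : O.SZ 30 104 (23047 / 1000000) :=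
  Sys.SZ.pow (n129576 H) (by decide +kernel)
theorem n137987 (H : Base M O) : O.TZ 32 30 (71143 / 2500000) :=
  Sys.TZ.pow (n129306 H) (by decide +kernel)
theorem n138008 (H : Base M O) : O.TZ 32 48 (67257 / 20000000) :=
  Sys.TZ.pow (n129306 H) (by decide +kernel)
theorem n138011 (H : Base M O) : O.TZ 32 52 (209219 / 100000000) :=
  Sys.TZ.pow (n129306 H) (by decide +kernel)
theorem n138156 (H : Base M O) : O.TZ 34 30 (608881 / 10000000) :=
  Sys.TZ.pow (n129347 H) (by decide +kernel)
theorem n138323 (H : Base M O) : O.TZ 36 34 (228621 / 1000000) :=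
  Sys.TZ.pow (n129381 H) (by decide +kernel)
theorem n138621 (H : Base M O) : O.SZ 48 20 (147643 / 500000000) :=
  Sys.SZ.pow (n129444 H) (by decide +kernel)
theorem n140017 (H : Base M O) : O.SX 20 32 (153047 / 10000000) :=
  Sys.SX.pow (n40020 H) (by decide +kernel)
theorem n140095 (H : Base M O) : O.SX 21 34 (129263 / 10000000) :=
  Sys.SX.pow (n40021 H) (by decide +kernel)
theorem n140185 (H : Base M O) : O.SX 22 32 (25191 / 2500000) :=
  Sys.SX.pow (n40020 H) (by decide +kernel)
theorem n140316 (H : Base M O) : O.SX 24 36 (733833 / 100000000) :=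
  Sys.SX.pow (n40022 H) (by decide +kernel)
theorem n140472 (H : Base M O) : O.SX 26 28 (4257 / 1000000) :=
  Sys.SX.pow (n40018 H) (by decide +kernel)
theorem n140503 (H : Base M O) : O.SX 26 36 (243613 / 50000000) :=
  Sys.SX.pow (n40022 H) (by decide +kernel)
theorem n140510 (H : Base M O) : O.SX 26 38 (261581 / 50000000) :=
  Sys.SX.pow (n40023 H) (by decide +kernel)
theorem n140671 (H : Base M O) : O.SX 28 28 (139861 / 50000000) :=
  Sys.SX.pow (n40018 H) (by decide +kernel)
theorem n140679 (H : Base M O) : O.SX 28 30 (69741 / 25000000) :=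
  Sys.SX.pow (n40019 H) (by decide +kernel)
theorem n140695 (H : Base M O) : O.SX 28 34 (75841 / 25000000) :=
  Sys.SX.pow (n40021 H) (by decide +kernel)
theorem n140703 (H : Base M O) : O.SX 28 36 (80873 / 25000000) :=
  Sys.SX.pow (n40022 H) (by decide +kernel)
theorem n140711 (H : Base M O) : O.SX 28 38 (349259 / 100000000) :=
  Sys.SX.pow (n40023 H) (by decide +kernel)
theorem n140887 (H : Base M O) : O.SX 30 30 (45817 / 25000000) :=
  Sys.SX.pow (n40019 H) (by decide +kernel)
theorem n140904 (H : Base M O) : O.SX 30 34 (12531 / 6250000) :=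
  Sys.SX.pow (n40021 H) (by decide +kernel)
theorem n140928 (H : Base M O) : O.SX 30 40 (25467 / 10000000) :=
  Sys.SX.pow (n40024 H) (by decide +kernel)
theorem n140953 (H : Base M O) : O.SX 30 52 (382969 / 100000000) :=
  Sys.SX.pow (n40111 H) (by decide +kernel)
theorem n141100 (H : Base M O) : O.SX 32 30 (301 / 250000) :=
  Sys.SX.pow (n40019 H) (by decide +kernel)
theorem n141168 (H : Base M O) : O.SX 32 52 (132133 / 50000000) :=
  Sys.SX.pow (n40111 H) (by decide +kernel)
theorem n141322 (H : Base M O) : O.SX 34 30 (790979 / 1000000000) :=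
  Sys.SX.pow (n40019 H) (by decide +kernel)
theorem n141340 (H : Base M O) : O.SX 34 34 (10947 / 12500000) :=
  Sys.SX.pow (n40021 H) (by decide +kernel)
theorem n141391 (H : Base M O) : O.SX 34 52 (45589 / 25000000) :=
  Sys.SX.pow (n40111 H) (by decide +kernel)
theorem n141508 (H : Base M O) : O.SX 36 22 (177237 / 250000000) :=
  Sys.SX.pow (n39931 H) (by decide +kernel)
theorem n141550 (H : Base M O) : O.SX 36 30 (259821 / 500000000) :=
  Sys.SX.pow (n40019 H) (by decide +kernel)
theorem n141568 (H : Base M O) : O.SX 36 34 (144699 / 250000000) :=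
  Sys.SX.pow (n40021 H) (by decide +kernel)
theorem n141586 (H : Base M O) : O.SX 36 38 (693727 / 1000000000) :=
  Sys.SX.pow (n40023 H) (by decide +kernel)
theorem n141611 (H : Base M O) : O.SX 36 48 (112473 / 100000000) :=
  Sys.SX.pow (n40054 H) (by decide +kernel)
theorem n141739 (H : Base M O) : O.SX 38 22 (236929 / 500000000) :=
  Sys.SX.pow (n39931 H) (by decide +kernel)
theorem n141818 (H : Base M O) : O.SX 38 38 (231563 / 500000000) :=
  Sys.SX.pow (n40023 H) (by decide +kernel)
theorem n141846 (H : Base M O) : O.SX 38 48 (146467 / 200000000) :=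
  Sys.SX.pow (n40110 H) (by decide +kernel)
theorem n141974 (H : Base M O) : O.SX 40 22 (12669 / 40000000) :=
  Sys.SX.pow (n39931 H) (by decide +kernel)
theorem n142054 (H : Base M O) : O.SX 40 38 (309179 / 1000000000) :=
  Sys.SX.pow (n40023 H) (by decide +kernel)
theorem n142092 (H : Base M O) : O.SX 40 52 (149793 / 250000000) :=
  Sys.SX.pow (n40111 H) (by decide +kernel)
theorem n142210 (H : Base M O) : O.SX 44 22 (141499 / 1000000000) :=
  Sys.SX.pow (n39931 H) (by decide +kernel)
theorem n142272 (H : Base M O) : O.SX 44 34 (11043 / 100000000) :=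
  Sys.SX.pow (n40021 H) (by decide +kernel)
theorem n142290 (H : Base M O) : O.SX 44 38 (68897 / 500000000) :=
  Sys.SX.pow (n40023 H) (by decide +kernel)
theorem n142433 (H : Base M O) : O.SX 48 20 (424969 / 5000000000) :=
  Sys.SX.pow (n39929 H) (by decide +kernel)
theorem n142447 (H : Base M O) : O.SX 48 22 (158037 / 2500000000) :=
  Sys.SX.pow (n39931 H) (by decide +kernel)
theorem n142509 (H : Base M O) : O.SX 48 34 (96471 / 2000000000) :=
  Sys.SX.pow (n40021 H) (by decide +kernel)
theorem n142527 (H : Base M O) : O.SX 48 38 (614117 / 10000000000) :=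
  Sys.SX.pow (n40023 H) (by decide +kernel)
theorem n142684 (H : Base M O) : O.SX 52 22 (56483 / 2000000000) :=
  Sys.SX.pow (n39931 H) (by decide +kernel)
theorem n142746 (H : Base M O) : O.SX 52 34 (52673 / 2500000000) :=
  Sys.SX.pow (n40021 H) (by decide +kernel)
theorem n142764 (H : Base M O) : O.SX 52 38 (273699 / 10000000000) :=
  Sys.SX.pow (n40023 H) (by decide +kernel)
theorem n142937 (H : Base M O) : O.SX 56 24 (4989 / 500000000) :=
  Sys.SX.pow (n39960 H) (by decide +kernel)
theorem n143010 (H : Base M O) : O.SX 56 40 (71911 / 5000000000) :=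
  Sys.SX.pow (n40024 H) (by decide +kernel)
theorem n143174 (H : Base M O) : O.SX 60 24 (219181 / 50000000000) :=
  Sys.SX.pow (n39960 H) (by decide +kernel)
theorem n143220 (H : Base M O) : O.SX 60 34 (6281 / 1562500000) :=
  Sys.SX.pow (n40021 H) (by decide +kernel)
theorem n143229 (H : Base M O) : O.SX 60 36 (46131 / 10000000000) :=
  Sys.SX.pow (n40022 H) (by decide +kernel)
theorem n143247 (H : Base M O) : O.SX 60 40 (648567 / 100000000000) :=
  Sys.SX.pow (n40024 H) (by decide +kernel)
theorem n143256 (H : Base M O) : O.SX 60 44 (436067 / 50000000000) :=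
  Sys.SX.pow (n40053 H) (by decide +kernel)
theorem n143285 (H : Base M O) : O.SX 60 56 (190747 / 10000000000) :=
  Sys.SX.pow (n40112 H) (by decide +kernel)
theorem n143411 (H : Base M O) : O.SX 64 24 (38517 / 20000000000) :=
  Sys.SX.pow (n39960 H) (by decide +kernel)
theorem n143448 (H : Base M O) : O.SX 64 32 (77697 / 50000000000) :=
  Sys.SX.pow (n40020 H) (by decide +kernel)
theorem n143457 (H : Base M O) : O.SX 64 34 (87793 / 50000000000) :=
  Sys.SX.pow (n40021 H) (by decide +kernel)
theorem n143484 (H : Base M O) : O.SX 64 40 (292473 / 100000000000) :=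
  Sys.SX.pow (n40024 H) (by decide +kernel)
theorem n143493 (H : Base M O) : O.SX 64 44 (200567 / 50000000000) :=
  Sys.SX.pow (n40053 H) (by decide +kernel)
theorem n143523 (H : Base M O) : O.SX 64 56 (462157 / 50000000000) :=
  Sys.SX.pow (n40112 H) (by decide +kernel)
theorem n143887 (H : Base M O) : O.SX 72 24 (185853 / 500000000000) :=
  Sys.SX.pow (n39960 H) (by decide +kernel)
theorem n143960 (H : Base M O) : O.SX 72 40 (118953 / 200000000000) :=
  Sys.SX.pow (n40024 H) (by decide +kernel)
theorem n143969 (H : Base M O) : O.SX 72 44 (424297 / 500000000000) :=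
  Sys.SX.pow (n40053 H) (by decide +kernel)
theorem n144134 (H : Base M O) : O.SX 80 26 (72751 / 1250000000000) :=
  Sys.SX.pow (n40017 H) (by decide +kernel)
theorem n144189 (H : Base M O) : O.SX 80 38 (955913 / 10000000000000) :=
  Sys.SX.pow (n40023 H) (by decide +kernel)
theorem n144207 (H : Base M O) : O.SX 80 44 (561 / 3125000000) :=
  Sys.SX.pow (n40053 H) (by decide +kernel)
theorem n144217 (H : Base M O) : O.SX 80 48 (62709 / 250000000000) :=
  Sys.SX.pow (n40110 H) (by decide +kernel)
theorem n144614 (H : Base M O) : O.SX 96 26 (207929 / 100000000000000) :=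
  Sys.SX.pow (n40017 H) (by decide +kernel)
theorem n144687 (H : Base M O) : O.SX 96 44 (803403 / 100000000000000) :=
  Sys.SX.pow (n40053 H) (by decide +kernel)
theorem n144697 (H : Base M O) : O.SX 96 48 (15003 / 1250000000000) :=
  Sys.SX.pow (n40110 H) (by decide +kernel)
theorem n144855 (H : Base M O) : O.SX 104 26 (393013 / 1000000000000000) :=
  Sys.SX.pow (n40017 H) (by decide +kernel)
theorem n144928 (H : Base M O) : O.SX 104 44 (169959 / 100000000000000) :=
  Sys.SX.pow (n40053 H) (by decide +kernel)
theorem n144938 (H : Base M O) : O.SX 104 48 (131273 / 50000000000000) :=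
  Sys.SX.pow (n40110 H) (by decide +kernel)
theorem n145851 (H : Base M O) : O.SX 160 32 (301011 / 100000000000000000000) :=
  Sys.SX.pow (n40020 H) (by decide +kernel)
theorem n145907 (H : Base M O) : O.SX 160 48 (629183 / 10000000000000000000) :=
  Sys.SX.pow (n40110 H) (by decide +kernel)
theorem n145928 (H : Base M O) : O.SX 160 56 (129873 / 500000000000000000) :=
  Sys.SX.pow (n40112 H) (by decide +kernel)
theorem n146103 (H : Base M O) : O.SX 192 34 (67667 / 12500000000000000000000) :=
  Sys.SX.pow (n40021 H) (by decide +kernel)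
theorem n146150 (H : Base M O) : O.SX 192 48 (144057 / 1000000000000000000000) :=
  Sys.SX.pow (n40110 H) (by decide +kernel)
theorem n146171 (H : Base M O) : O.SX 192 56 (197423 / 250000000000000000000) :=
  Sys.SX.pow (n40112 H) (by decide +kernel)
theorem n147319 (H : Base M O) : O.Nu 20 (50095224397 / 50000000000) :=
  Sys.R2' (n140017 H) (n16034 H) (by decide +kernel)
theorem n147327 (H : Base M O) : O.Nu 21 (100151542809 / 100000000000) :=
  Sys.R2' (n140095 H) (n16114 H) (by decide +kernel)
theorem n147336 (H : Base M O) : O.Nu 22 (100127340431 / 100000000000) :=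
  Sys.R2' (n140185 H) (n16191 H) (by decide +kernel)
theorem n147352 (H : Base M O) : O.Nu 24 (125106317839 / 125000000000) :=
  Sys.R2' (n140316 H) (n137450 H) (by decide +kernel)
theorem n147372 (H : Base M O) : O.Nu 26 (200122281017 / 200000000000) :=
  Sys.R2' (n140503 H) (n137577 H) (by decide +kernel)
theorem n147394 (H : Base M O) : O.Nu 28 (1000451359027 / 1000000000000) :=
  Sys.R2' (n140711 H) (n137709 H) (by decide +kernel)
theorem n147420 (H : Base M O) : O.Nu 30 (500155585823 / 500000000000) :=
  Sys.R2' (n140953 H) (n137848 H) (by decide +kernel)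
theorem n147451 (H : Base M O) : O.Nu 32 (500121484767 / 500000000000) :=
  Sys.R2' (n141168 H) (n138011 H) (by decide +kernel)
theorem n147550 (H : Base M O) : O.TX 28 30 (114817 / 5000000) :=
  Sys.R3 (n137701 H) (n34471 H) (n140679 H) (n39704 H) (10822071 / 10000000) (by decide +kernel)
theorem n147567 (H : Base M O) : O.TX 30 30 (237083 / 10000000) :=
  Sys.R3 (n137832 H) (n34588 H) (n140887 H) (n39704 H) (10883313 / 10000000) (by decide +kernel)
theorem n147587 (H : Base M O) : O.TX 32 30 (248729 / 10000000) :=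
  Sys.R3 (n137987 H) (n34705 H) (n141100 H) (n39704 H) (13681127 / 12500000) (by decide +kernel)
theorem n147609 (H : Base M O) : O.TX 34 30 (10727 / 400000) :=
  Sys.R3 (n138156 H) (n34822 H) (n141322 H) (n39704 H) (11006839 / 10000000) (by decide +kernel)
theorem n147636 (H : Base M O) : O.TX 36 34 (12563 / 625000) :=
  Sys.R3 (n138323 H) (n34948 H) (n141568 H) (n39722 H) (3326327 / 3125000) (by decide +kernel)
theorem n147737 (H : Base M O) : O.SX 24 60 (67093 / 5000000) :=
  Sys.R3' (n34283 H) (n137464 H) (n37929 H) (n147352 H) (52616717 / 50000000) (by decide +kernel)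
theorem n147739 (H : Base M O) : O.SX 24 72 (159941 / 10000000) :=
  Sys.R3' (n137470 H) (n137468 H) (n37941 H) (n147352 H) (106312539 / 100000000) (by decide +kernel)
theorem n147777 (H : Base M O) : O.SX 30 80 (322267 / 50000000) :=
  Sys.R3' (n137866 H) (n137862 H) (n38628 H) (n147420 H) (5126011 / 5000000) (by decide +kernel)
theorem n147780 (H : Base M O) : O.SX 30 104 (41747 / 5000000) :=
  Sys.R3' (n137888 H) (n137884 H) (n38649 H) (n147420 H) (516443 / 500000) (by decide +kernel)
theorem n148026 (H : Base M O) : LeQ (O.u 32) (5000030537303 / 5000000000000) (O.w 26) :=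
  Sys.R4 (n137573 H) (n147372 H) (6373447 / 6250000) (by decide +kernel)
theorem n148027 (H : Base M O) : LeQ (O.u 34) (100000415039023 / 100000000000000) (O.w 26) :=
  Sys.R4 (n137575 H) (n147372 H) (51049943 / 50000000) (by decide +kernel)
theorem n148028 (H : Base M O) : LeQ (O.u 36) (100000283575351 / 100000000000000) (O.w 26) :=
  Sys.R4 (n137577 H) (n147372 H) (102224773 / 100000000) (by decide +kernel)
theorem n148073 (H : Base M O) : LeQ (O.u 38) (12500038222063 / 12500000000000) (O.w 28) :=
  Sys.R4 (n137709 H) (n147394 H) (20345913 / 20000000) (by decide +kernel)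
theorem n148117 (H : Base M O) : LeQ (O.u 38) (50000264435673 / 50000000000000) (O.w 30) :=
  Sys.R4 (n137840 H) (n147420 H) (20237857 / 20000000) (by decide +kernel)
theorem n148118 (H : Base M O) : LeQ (O.u 40) (12500048073439 / 12500000000000) (O.w 30) :=
  Sys.R4 (n137842 H) (n147420 H) (10125227 / 10000000) (by decide +kernel)
theorem n148163 (H : Base M O) : LeQ (O.u 48) (100000219400067 / 100000000000000) (O.w 32) :=
  Sys.R4 (n138008 H) (n147451 H) (50586469 / 50000000) (by decide +kernel)
theorem n150387 (H : Base M O) : LeQ (O.w 16) (62502932573 / 62500000000) (O.w 26) :=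
  LeQ.trans (n40662 H) (n148028 H) (by decide +kernel)
theorem n150393 (H : Base M O) : LeQ (O.w 17) (10000359490393 / 10000000000000) (O.w 26) :=
  LeQ.trans (n40690 H) (n148028 H) (by decide +kernel)
theorem n150399 (H : Base M O) : LeQ (O.w 18) (10000277882537 / 10000000000000) (O.w 26) :=
  LeQ.trans (n40718 H) (n148028 H) (by decide +kernel)
theorem n150876 (H : Base M O) : LeQ (O.w 18) (2000061162579 / 2000000000000) (O.w 30) :=
  LeQ.trans (n40719 H) (n148117 H) (by decide +kernel)
theorem n150880 (H : Base M O) : LeQ (O.w 19) (1000024473189 / 1000000000000) (O.w 30) :=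
  LeQ.trans (n40747 H) (n148117 H) (by decide +kernel)
theorem n150884 (H : Base M O) : LeQ (O.w 20) (156252757763 / 156250000000) (O.w 28) :=
  LeQ.trans (n40775 H) (n148073 H) (by decide +kernel)
theorem n151332 (H : Base M O) : LeQ (O.w 22) (5000063964983 / 5000000000000) (O.w 30) :=
  LeQ.trans (n40832 H) (n148118 H) (by decide +kernel)
theorem n152225 (H : Base M O) : LeQ (O.w 24) (50000464397221 / 50000000000000) (O.w 32) :=
  LeQ.trans (n40862 H) (n148163 H) (by decide +kernel)
theorem n169515 (H : Base M O) : LeQ (O.u 32) (10000105082577 / 10000000000000) (O.u 48) :=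
  LeQ.trans (n148026 H) (n40890 H) (by decide +kernel)
theorem n169575 (H : Base M O) : LeQ (O.u 34) (6250053444867 / 6250000000000) (O.u 48) :=
  LeQ.trans (n148027 H) (n40890 H) (by decide +kernel)
theorem n187841 (H : Base M O) : O.TZ 26 12 (11901 / 100000) :=
  Sys.R6 (n632 H) (n129 H) (n102 H) (n121694 H) (n140472 H) (2506501 / 1000000) (1367599 / 1250000) (4071323 / 4000000) (2143681 / 100000) (21771 / 3125000) (by decide +kernel)
theorem n187844 (H : Base M O) : O.TZ 26 13 (980853 / 10000000) :=
  Sys.R6 (n633 H) (n186 H) (n159 H) (n121743 H) (n140472 H) (416351 / 200000) (105766061 / 100000000) (103292037 / 100000000) (62937 / 5000) (336543 / 50000000) (by decide +kernel)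
theorem n187857 (H : Base M O) : O.TZ 28 13 (5577 / 50000) :=
  Sys.R6 (n640 H) (n187 H) (n159 H) (n121743 H) (n140671 H) (1101271 / 500000) (106763931 / 100000000) (20709943 / 20000000) (1721851 / 100000) (443897 / 50000000) (by decide +kernel)
theorem n187870 (H : Base M O) : O.TZ 28 17 (278477 / 5000000) :=
  Sys.R6 (n644 H) (n415 H) (n387 H) (n113299 H) (n140695 H) (7624887 / 5000000) (101798311 / 100000000) (51693337 / 50000000) (299513 / 50000) (155099 / 50000000) (by decide +kernel)
theorem n187897 (H : Base M O) : O.TZ 30 17 (152167 / 2500000) :=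
  Sys.R6 (n651 H) (n416 H) (n387 H) (n113299 H) (n140904 H) (15716421 / 10000000) (51038021 / 50000000) (51816461 / 50000000) (1400221 / 200000) (370477 / 100000000) (by decide +kernel)
theorem n188052 (H : Base M O) : O.TZ 34 17 (363219 / 5000000) :=
  Sys.R6 (n665 H) (n418 H) (n387 H) (n113299 H) (n141340 H) (1669299 / 1000000) (12837137 / 12500000) (104127181 / 100000000) (2480667 / 250000) (527713 / 100000000) (by decide +kernel)
theorem n188220 (H : Base M O) : O.TZ 36 22 (34177 / 1000000) :=
  Sys.R6 (n34915 H) (n141508 H) (n39703 H) (n122011 H) (n141586 H) (6807299 / 5000000) (201883429 / 200000000) (25486081 / 25000000) (840541 / 250000) (73333 / 25000000) (by decide +kernel)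
theorem n188393 (H : Base M O) : O.TZ 38 22 (177147 / 5000000) :=
  Sys.R6 (n35032 H) (n141739 H) (n39703 H) (n122011 H) (n141818 H) (1731249 / 1250000) (2526313 / 2500000) (25513361 / 25000000) (350591 / 100000) (62429 / 20000000) (by decide +kernel)
theorem n188576 (H : Base M O) : O.TZ 40 22 (11611 / 312500) :=
  Sys.R6 (n35149 H) (n141974 H) (n39703 H) (n122011 H) (n142054 H) (880591 / 625000) (101169871 / 100000000) (2554067 / 2500000) (1856559 / 500000) (338871 / 100000000) (by decide +kernel)
theorem n188756 (H : Base M O) : O.TZ 44 22 (51977 / 1250000) :=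
  Sys.R6 (n35266 H) (n142210 H) (n39703 H) (n122011 H) (n142290 H) (14580877 / 10000000) (101424461 / 100000000) (1599711 / 1562500) (134261 / 31250) (411591 / 100000000) (by decide +kernel)
theorem n188916 (H : Base M O) : O.TZ 48 20 (739469 / 10000000) :=
  Sys.R6 (n138621 H) (n142433 H) (n39701 H) (n117837 H) (n142527 H) (8776803 / 5000000) (51641861 / 50000000) (103537101 / 100000000) (261197 / 20000) (709493 / 100000000) (by decide +kernel)
theorem n188930 (H : Base M O) : O.TZ 48 22 (468949 / 10000000) :=
  Sys.R6 (n35385 H) (n142447 H) (n39703 H) (n122011 H) (n142527 H) (15089439 / 10000000) (101705999 / 100000000) (102600797 / 100000000) (1276367 / 250000) (31663 / 6250000) (by decide +kernel)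
theorem n189093 (H : Base M O) : O.TZ 52 22 (528511 / 10000000) :=
  Sys.R6 (n35505 H) (n142684 H) (n39703 H) (n122011 H) (n142764 H) (7807869 / 5000000) (102015013 / 100000000) (102820559 / 100000000) (6174757 / 1000000) (311413 / 50000000) (by decide +kernel)
theorem n189262 (H : Base M O) : O.TZ 56 24 (209599 / 5000000) :=
  Sys.R6 (n35635 H) (n142937 H) (n39679 H) (n122124 H) (n143010 H) (14410657 / 10000000) (101334251 / 100000000) (800821 / 781250) (2289533 / 500000) (252931 / 50000000) (by decide +kernel)
theorem n189417 (H : Base M O) : O.TZ 60 24 (464353 / 10000000) :=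
  Sys.R6 (n35755 H) (n143174 H) (n39679 H) (n122124 H) (n143247 H) (3697927 / 2500000) (634619 / 625000) (20537281 / 20000000) (106459 / 20000) (599903 / 100000000) (by decide +kernel)
theorem n189568 (H : Base M O) : O.TZ 64 24 (512197 / 10000000) :=
  Sys.R6 (n35875 H) (n143411 H) (n39679 H) (n122124 H) (n143484 H) (3036567 / 2000000) (25439893 / 25000000) (25717011 / 25000000) (389267 / 62500) (353209 / 50000000) (by decide +kernel)
theorem n189867 (H : Base M O) : O.TZ 72 24 (308077 / 5000000) :=
  Sys.R6 (n36115 H) (n143887 H) (n39679 H) (n122124 H) (n143960 H) (1599639 / 1000000) (10224881 / 10000000) (20646457 / 20000000) (8689179 / 1000000) (240301 / 25000000) (by decide +kernel)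
theorem n190015 (H : Base M O) : O.TZ 80 26 (567383 / 10000000) :=
  Sys.R6 (n36240 H) (n144134 H) (n39680 H) (n122180 H) (n144189 H) (7390727 / 5000000) (25383349 / 25000000) (103016641 / 100000000) (275799 / 50000) (150919 / 10000000) (by decide +kernel)
theorem n190287 (H : Base M O) : O.TZ 96 26 (358211 / 5000000) :=
  Sys.R6 (n36480 H) (n144614 H) (n39680 H) (n122182 H) (n144687 H) (3995771 / 2500000) (102240499 / 100000000) (20821387 / 20000000) (778907 / 50000) (7219 / 625000) (by decide +kernel)
theorem n190410 (H : Base M O) : O.TZ 104 26 (406351 / 5000000) :=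
  Sys.R6 (n36601 H) (n144855 H) (n39680 H) (n122182 H) (n144928 H) (16620049 / 10000000) (20529797 / 20000000) (104456699 / 100000000) (1075901 / 50000) (71489 / 5000000) (by decide +kernel)
theorem n190859 (H : Base M O) : O.TZ 160 32 (441457 / 5000000) :=
  Sys.R6 (n37099 H) (n145851 H) (n39682 H) (n169515 H) (n145907 H) (7233109 / 5000000) (50681733 / 50000000) (26381891 / 25000000) (2534391 / 100000) (65587 / 2500000) (by decide +kernel)
theorem n190947 (H : Base M O) : O.TZ 192 34 (121279 / 1250000) :=
  Sys.R6 (n37225 H) (n146103 H) (n39722 H) (n169575 H) (n146150 H) (13951243 / 10000000) (101101581 / 100000000) (10574093 / 10000000) (616583 / 25000) (74257 / 2000000) (by decide +kernel)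
theorem n191465 (H : Base M O) : O.SZ 16 56 (133491 / 2500000) :=
  Sys.R6' (n15841 H) (n17741 H) (n18938 H) (n150387 H) (n38144 H) (384737 / 312500) (1004201371 / 1000000000) (5214683 / 5000000) (1687197 / 500000) (34219 / 4000000) (by decide +kernel)
theorem n191501 (H : Base M O) : O.SZ 17 56 (13813 / 312500) :=
  Sys.R6' (n15883 H) (n17902 H) (n18942 H) (n150393 H) (n38144 H) (5952223 / 5000000) (125366883 / 125000000) (51740761 / 50000000) (2667229 / 1000000) (423923 / 50000000) (by decide +kernel)
theorem n191549 (H : Base M O) : O.SZ 18 72 (247193 / 5000000) :=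
  Sys.R6' (n15928 H) (n18088 H) (n18947 H) (n150399 H) (n38162 H) (12004841 / 10000000) (5016147 / 5000000) (103666941 / 100000000) (555917 / 200000) (129913 / 10000000) (by decide +kernel)
theorem n191556 (H : Base M O) : O.SZ 18 96 (168751 / 2500000) :=
  Sys.R6' (n15931 H) (n18103 H) (n18947 H) (n150876 H) (n38642 H) (6379381 / 5000000) (251450791 / 250000000) (105426481 / 100000000) (580829 / 100000) (3497 / 312500) (by decide +kernel)
theorem n191596 (H : Base M O) : O.SZ 19 80 (463903 / 10000000) :=
  Sys.R6' (n15981 H) (n18270 H) (n18952 H) (n150880 H) (n38628 H) (11969617 / 10000000) (1003124763 / 1000000000) (103789933 / 100000000) (3360193 / 1000000) (784077 / 100000000) (by decide +kernel)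
theorem n191642 (H : Base M O) : O.SZ 20 72 (85607 / 2500000) :=
  Sys.R6' (n16056 H) (n18446 H) (n147319 H) (n150884 H) (n38384 H) (11468199 / 10000000) (125225101 / 125000000) (20514821 / 20000000) (2151009 / 1000000) (27749 / 3125000) (by decide +kernel)
theorem n191647 (H : Base M O) : O.SZ 20 88 (87049 / 2000000) :=
  Sys.R6' (n16060 H) (n18456 H) (n147319 H) (n150884 H) (n38396 H) (11822691 / 10000000) (501352173 / 500000000) (103155067 / 100000000) (2575331 / 1000000) (124231 / 10000000) (by decide +kernel)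
theorem n191649 (H : Base M O) : O.SZ 20 96 (242561 / 5000000) :=
  Sys.R6' (n16062 H) (n18461 H) (n147319 H) (n150884 H) (n38402 H) (6002013 / 5000000) (1003226963 / 1000000000) (103446781 / 100000000) (706793 / 250000) (4519 / 312500) (by decide +kernel)
theorem n191651 (H : Base M O) : O.SZ 20 104 (537099 / 10000000) :=
  Sys.R6' (n16064 H) (n18466 H) (n147319 H) (n150884 H) (n38408 H) (6094071 / 5000000) (25094933 / 25000000) (103739319 / 100000000) (3108439 / 1000000) (83377 / 5000000) (by decide +kernel)
theorem n191653 (H : Base M O) : O.SZ 20 112 (73899 / 1250000) :=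
  Sys.R6' (n16066 H) (n18471 H) (n147319 H) (n150884 H) (n38414 H) (6187541 / 5000000) (15693997 / 15625000) (20806537 / 20000000) (3422541 / 1000000) (190731 / 10000000) (by decide +kernel)
theorem n191655 (H : Base M O) : O.SZ 20 128 (706031 / 10000000) :=
  Sys.R6' (n16068 H) (n18476 H) (n147319 H) (n150884 H) (n38421 H) (12757607 / 10000000) (1005798759 / 1000000000) (104621909 / 100000000) (520783 / 125000) (122271 / 5000000) (by decide +kernel)
theorem n191741 (H : Base M O) : O.SZ 22 144 (309783 / 5000000) :=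
  Sys.R6' (n16227 H) (n18862 H) (n147336 H) (n151332 H) (n38670 H) (1201119 / 1000000) (1003248417 / 1000000000) (52068021 / 50000000) (3717813 / 1000000) (45069 / 2000000) (by decide +kernel)
theorem n191793 (H : Base M O) : O.SZ 24 224 (837521 / 10000000) :=
  Sys.R6' (n137533 H) (n38001 H) (n147352 H) (n152225 H) (n38940 H) (483913 / 400000) (100351263 / 100000000) (1642499 / 1562500) (1382273 / 250000) (366433 / 10000000) (by decide +kernel)
theorem n191803 (H : Base M O) : O.SZ 24 320 (140459 / 1000000) :=
  Sys.R6' (n137545 H) (n38019 H) (n147352 H) (n152225 H) (n38961 H) (1640829 / 1250000) (1007273073 / 1000000000) (107393673 / 100000000) (38626 / 3125) (730129 / 10000000) (by decide +kernel)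
theorem n196918 (H : Base M O) : O.TZ 26 38 (59109 / 50000000) :=
  Sys.TZ.pow (n187841 H) (by decide +kernel)
theorem n196939 (H : Base M O) : O.TZ 26 72 (260039 / 100000000000) :=
  Sys.TZ.pow (n187844 H) (by decide +kernel)
theorem n196942 (H : Base M O) : O.SZ 26 72 (129913 / 10000000) :=
  Sys.SZ.pow (n191549 H) (by decide +kernel)
theorem n196984 (H : Base M O) : O.TZ 26 224 (42127 / 10000000000000000000000) :=
  Sys.TZ.pow (n187844 H) (by decide +kernel)
theorem n196987 (H : Base M O) : O.TZ 26 256 (138789 / 10000000000000000000000000) :=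
  Sys.TZ.pow (n187844 H) (by decide +kernel)
theorem n197027 (H : Base M O) : O.TZ 28 36 (115103 / 50000000) :=
  Sys.TZ.pow (n187857 H) (by decide +kernel)
theorem n197142 (H : Base M O) : O.TZ 28 256 (8117 / 62500000000000000000000) :=
  Sys.TZ.pow (n187870 H) (by decide +kernel)
theorem n197211 (H : Base M O) : O.TZ 30 40 (2759 / 2000000) :=
  Sys.TZ.pow (n187897 H) (by decide +kernel)
theorem n197262 (H : Base M O) : O.TZ 30 88 (509779 / 1000000000000) :=
  Sys.TZ.pow (n187897 H) (by decide +kernel)
theorem n197266 (H : Base M O) : O.SZ 30 88 (3547 / 390625) :=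
  Sys.SZ.pow (n191647 H) (by decide +kernel)
theorem n197270 (H : Base M O) : O.TZ 30 96 (136561 / 1000000000000) :=
  Sys.TZ.pow (n187897 H) (by decide +kernel)
theorem n197274 (H : Base M O) : O.SZ 30 96 (3497 / 312500) :=
  Sys.SZ.pow (n191556 H) (by decide +kernel)
theorem n197617 (H : Base M O) : O.TZ 34 34 (527713 / 100000000) :=
  Sys.TZ.pow (n188052 H) (by decide +kernel)
theorem n197625 (H : Base M O) : O.TZ 34 38 (284737 / 100000000) :=
  Sys.TZ.pow (n188052 H) (by decide +kernel)
theorem n197645 (H : Base M O) : O.TZ 34 52 (65711 / 200000000) :=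
  Sys.TZ.pow (n188052 H) (by decide +kernel)
theorem n197651 (H : Base M O) : O.SZ 34 56 (197681 / 100000000) :=
  Sys.SZ.pow (n191465 H) (by decide +kernel)
theorem n197704 (H : Base M O) : O.SZ 34 96 (291687 / 50000000) :=
  Sys.SZ.pow (n191649 H) (by decide +kernel)
theorem n197718 (H : Base M O) : O.TZ 34 112 (157137 / 5000000000000) :=
  Sys.TZ.pow (n188052 H) (by decide +kernel)
theorem n197723 (H : Base M O) : O.SZ 34 112 (816467 / 100000000) :=
  Sys.SZ.pow (n191653 H) (by decide +kernel)
theorem n197728 (H : Base M O) : O.TZ 34 128 (33297 / 12500000000000) :=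
  Sys.TZ.pow (n188052 H) (by decide +kernel)
theorem n197732 (H : Base M O) : O.SZ 34 128 (13801 / 1250000) :=
  Sys.SZ.pow (n191655 H) (by decide +kernel)
theorem n197737 (H : Base M O) : O.TZ 34 144 (225779 / 1000000000000000) :=
  Sys.TZ.pow (n188052 H) (by decide +kernel)
theorem n197743 (H : Base M O) : O.SZ 34 144 (135903 / 10000000) :=
  Sys.SZ.pow (n191741 H) (by decide +kernel)
theorem n197849 (H : Base M O) : O.TZ 36 30 (50063 / 5000000) :=
  Sys.TZ.pow (n188220 H) (by decide +kernel)
theorem n197876 (H : Base M O) : O.TZ 36 38 (73333 / 25000000) :=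
  Sys.TZ.pow (n188220 H) (by decide +kernel)
theorem n197884 (H : Base M O) : O.TZ 36 40 (107903 / 50000000) :=
  Sys.TZ.pow (n188220 H) (by decide +kernel)
theorem n197892 (H : Base M O) : O.TZ 36 44 (116807 / 100000000) :=
  Sys.TZ.pow (n188220 H) (by decide +kernel)
theorem n197901 (H : Base M O) : O.TZ 36 48 (632229 / 1000000000) :=
  Sys.TZ.pow (n188220 H) (by decide +kernel)
theorem n197957 (H : Base M O) : O.SZ 36 72 (28783 / 12500000) :=
  Sys.SZ.pow (n191642 H) (by decide +kernel)

end Crest.Agent.R347.Num
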