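import Crest.Agent.R347.D.C3

/-! Row 347: the numerical chain (computer generated) -/

set_option autoImplicit false
set_option Elab.async false
set_option linter.unusedVariables false

namespace Crest.Agent.R347.Num

variable {M : Model} {O : OSys}

theorem n197970 (H : Base M O) : O.SZ 36 80 (11893 / 4000000) :=
  Sys.SZ.pow (n191596 H) (by decide +kernel)
theorem n197997 (H : Base M O) : O.SZ 36 96 (86211 / 20000000) :=
  Sys.SZ.pow (n191649 H) (by decide +kernel)
theorem n198006 (H : Base M O) : O.TZ 36 104 (117101 / 1000000000000) :=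
  Sys.TZ.pow (n188220 H) (by decide +kernel)
theorem n198010 (H : Base M O) : O.SZ 36 104 (129431 / 25000000) :=
  Sys.SZ.pow (n191651 H) (by decide +kernel)
theorem n198092 (H : Base M O) : O.TZ 36 224 (29423 / 25000000000000000000) :=
  Sys.TZ.pow (n188220 H) (by decide +kernel)
theorem n198099 (H : Base M O) : O.SZ 36 224 (242379 / 10000000) :=
  Sys.SZ.pow (n191793 H) (by decide +kernel)
theorem n198147 (H : Base M O) : O.SZ 36 320 (526411 / 10000000) :=
  Sys.SZ.pow (n191803 H) (by decide +kernel)
theorem n198224 (H : Base M O) : O.TZ 38 44 (5021 / 4000000) :=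
  Sys.TZ.pow (n188393 H) (by decide +kernel)
theorem n198232 (H : Base M O) : O.TZ 38 48 (341937 / 500000000) :=
  Sys.TZ.pow (n188393 H) (by decide +kernel)
theorem n198328 (H : Base M O) : O.SZ 38 96 (159253 / 50000000) :=
  Sys.SZ.pow (n191649 H) (by decide +kernel)
theorem n198516 (H : Base M O) : O.TZ 40 32 (831819 / 100000000) :=
  Sys.TZ.pow (n188576 H) (by decide +kernel)
theorem n198521 (H : Base M O) : O.TZ 40 34 (616639 / 100000000) :=
  Sys.TZ.pow (n188576 H) (by decide +kernel)
theorem n198534 (H : Base M O) : O.TZ 40 38 (338871 / 100000000) :=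
  Sys.TZ.pow (n188576 H) (by decide +kernel)
theorem n198568 (H : Base M O) : O.TZ 40 52 (208457 / 500000000) :=
  Sys.TZ.pow (n188576 H) (by decide +kernel)
theorem n198578 (H : Base M O) : O.SZ 40 56 (16471 / 25000000) :=
  Sys.SZ.pow (n191465 H) (by decide +kernel)
theorem n198617 (H : Base M O) : O.SZ 40 72 (117257 / 100000000) :=
  Sys.SZ.pow (n191642 H) (by decide +kernel)
theorem n198866 (H : Base M O) : O.TZ 44 34 (146759 / 20000000) :=
  Sys.TZ.pow (n188756 H) (by decide +kernel)
theorem n198892 (H : Base M O) : O.TZ 44 44 (172903 / 100000000) :=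
  Sys.TZ.pow (n188756 H) (by decide +kernel)
theorem n198928 (H : Base M O) : O.TZ 44 60 (171147 / 1000000000) :=
  Sys.TZ.pow (n188756 H) (by decide +kernel)
theorem n198956 (H : Base M O) : O.SZ 44 72 (149277 / 250000000) :=
  Sys.SZ.pow (n191642 H) (by decide +kernel)
theorem n199120 (H : Base M O) : O.TZ 44 256 (212311 / 2500000000000000000000) :=
  Sys.TZ.pow (n188756 H) (by decide +kernel)
theorem n199205 (H : Base M O) : O.TZ 48 34 (44183 / 5000000) :=
  Sys.TZ.pow (n188930 H) (by decide +kernel)
theorem n199294 (H : Base M O) : O.TZ 48 72 (447669 / 10000000000) :=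
  Sys.TZ.pow (n188930 H) (by decide +kernel)
theorem n199353 (H : Base M O) : O.TZ 48 104 (104491 / 200000000000) :=
  Sys.TZ.pow (n188930 H) (by decide +kernel)
theorem n199541 (H : Base M O) : O.TZ 48 448 (1 / 10000000000000000000000000) :=
  Sys.TZ.pow (n188916 H) (by decide +kernel)
theorem n199559 (H : Base M O) : O.TZ 52 34 (53151 / 5000000) :=
  Sys.TZ.pow (n189093 H) (by decide +kernel)
theorem n199963 (H : Base M O) : O.TZ 56 56 (610443 / 1000000000) :=
  Sys.TZ.pow (n189262 H) (by decide +kernel)
theorem n200002 (H : Base M O) : O.TZ 56 72 (184161 / 2500000000) :=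
  Sys.TZ.pow (n189262 H) (by decide +kernel)
theorem n200022 (H : Base M O) : O.SZ 56 80 (117347 / 1000000000) :=
  Sys.SZ.pow (n191596 H) (by decide +kernel)
theorem n200290 (H : Base M O) : O.TZ 60 36 (100063 / 10000000) :=
  Sys.TZ.pow (n189417 H) (by decide +kernel)
theorem n200308 (H : Base M O) : O.TZ 60 44 (359657 / 100000000) :=
  Sys.TZ.pow (n189417 H) (by decide +kernel)
theorem n200672 (H : Base M O) : O.TZ 64 44 (86099 / 20000000) :=
  Sys.TZ.pow (n189568 H) (by decide +kernel)
theorem n201361 (H : Base M O) : O.TZ 72 44 (151021 / 25000000) :=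
  Sys.TZ.pow (n189867 H) (by decide +kernel)
theorem n201416 (H : Base M O) : O.TZ 72 72 (233921 / 1000000000) :=
  Sys.TZ.pow (n189867 H) (by decide +kernel)
theorem n201476 (H : Base M O) : O.TZ 72 104 (569273 / 100000000000) :=
  Sys.TZ.pow (n189867 H) (by decide +kernel)
theorem n201480 (H : Base M O) : O.SZ 72 104 (134019 / 5000000000) :=
  Sys.SZ.pow (n191651 H) (by decide +kernel)
theorem n201648 (H : Base M O) : O.SZ 72 320 (69277 / 25000000) :=
  Sys.SZ.pow (n191803 H) (by decide +kernel)
theorem n201717 (H : Base M O) : O.TZ 80 48 (50057 / 10000000) :=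
  Sys.TZ.pow (n190015 H) (by decide +kernel)
theorem n202367 (H : Base M O) : O.TZ 96 48 (192489 / 25000000) :=
  Sys.TZ.pow (n190287 H) (by decide +kernel)
theorem n202671 (H : Base M O) : O.TZ 104 48 (38871 / 4000000) :=
  Sys.TZ.pow (n190410 H) (by decide +kernel)
theorem n203803 (H : Base M O) : O.TZ 160 56 (143007 / 10000000) :=
  Sys.TZ.pow (n190859 H) (by decide +kernel)
theorem n203805 (H : Base M O) : O.SZ 160 56 (178313 / 1000000000000000000) :=
  Sys.SZ.pow (n191501 H) (by decide +kernel)
theorem n204094 (H : Base M O) : O.TZ 192 56 (4289 / 200000) :=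
  Sys.TZ.pow (n190947 H) (by decide +kernel)
theorem n204096 (H : Base M O) : O.SZ 192 56 (251413 / 500000000000000000000) :=
  Sys.SZ.pow (n191501 H) (by decide +kernel)
theorem n205620 (H : Base M O) : O.TX 28 256 (51659 / 5000000000000000000) :=
  Sys.TX.pow (n147550 H) (by decide +kernel)
theorem n205640 (H : Base M O) : O.TX 28 448 (334817 / 1000000000000000000000000000000) :=
  Sys.TX.pow (n147550 H) (by decide +kernel)
theorem n205706 (H : Base M O) : O.TX 30 88 (85509 / 5000000000) :=
  Sys.TX.pow (n147567 H) (by decide +kernel)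
theorem n205714 (H : Base M O) : O.TX 30 96 (126099 / 20000000000) :=
  Sys.TX.pow (n147567 H) (by decide +kernel)
theorem n205824 (H : Base M O) : O.TX 32 44 (110919 / 25000000) :=
  Sys.TX.pow (n147587 H) (by decide +kernel)
theorem n205832 (H : Base M O) : O.TX 32 48 (271121 / 100000000) :=
  Sys.TX.pow (n147587 H) (by decide +kernel)
theorem n206077 (H : Base M O) : O.TX 34 56 (23303 / 20000000) :=
  Sys.TX.pow (n147609 H) (by decide +kernel)
theorem n206109 (H : Base M O) : O.TX 34 72 (42281 / 250000000) :=
  Sys.TX.pow (n147609 H) (by decide +kernel)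
theorem n206171 (H : Base M O) : O.TX 34 112 (135757 / 100000000000) :=
  Sys.TX.pow (n147609 H) (by decide +kernel)
theorem n206184 (H : Base M O) : O.TX 34 128 (98527 / 500000000000) :=
  Sys.TX.pow (n147609 H) (by decide +kernel)
theorem n206197 (H : Base M O) : O.TX 34 144 (71507 / 2500000000000) :=
  Sys.TX.pow (n147609 H) (by decide +kernel)
theorem n206350 (H : Base M O) : O.TX 36 72 (63789 / 250000000) :=
  Sys.TX.pow (n147636 H) (by decide +kernel)
theorem n206364 (H : Base M O) : O.TX 36 80 (101757 / 1000000000) :=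
  Sys.TX.pow (n147636 H) (by decide +kernel)
theorem n206394 (H : Base M O) : O.TX 36 96 (40459 / 2500000000) :=
  Sys.TX.pow (n147636 H) (by decide +kernel)
theorem n206411 (H : Base M O) : O.TX 36 104 (645401 / 100000000000) :=
  Sys.TX.pow (n147636 H) (by decide +kernel)
theorem n206429 (H : Base M O) : O.TX 36 112 (257387 / 100000000000) :=
  Sys.TX.pow (n147636 H) (by decide +kernel)
theorem n206523 (H : Base M O) : O.TX 36 224 (662477 / 100000000000000000) :=
  Sys.TX.pow (n147636 H) (by decide +kernel)
theorem n206539 (H : Base M O) : O.TX 36 256 (16757 / 100000000000000000) :=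
  Sys.TX.pow (n147636 H) (by decide +kernel)
theorem n206567 (H : Base M O) : O.TX 36 320 (26803 / 250000000000000000000) :=
  Sys.TX.pow (n147636 H) (by decide +kernel)
theorem n206591 (H : Base M O) : O.TX 36 448 (3511 / 80000000000000000000000000) :=
  Sys.TX.pow (n147636 H) (by decide +kernel)
theorem n206783 (H : Base M O) : O.SX 44 60 (92343 / 250000000) :=
  Sys.SX.pow (n147737 H) (by decide +kernel)
theorem n207081 (H : Base M O) : O.SX 56 72 (25781 / 400000000) :=
  Sys.SX.pow (n147739 H) (by decide +kernel)
theorem n207283 (H : Base M O) : O.SX 64 72 (162391 / 10000000000) :=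
  Sys.SX.pow (n147739 H) (by decide +kernel)
theorem n207510 (H : Base M O) : O.SX 72 104 (25699 / 2500000000) :=
  Sys.SX.pow (n147780 H) (by decide +kernel)
theorem n207592 (H : Base M O) : O.SX 80 72 (51543 / 50000000000) :=
  Sys.SX.pow (n147739 H) (by decide +kernel)
theorem n207801 (H : Base M O) : O.SX 96 72 (327197 / 5000000000000) :=
  Sys.SX.pow (n147739 H) (by decide +kernel)
theorem n207906 (H : Base M O) : O.SX 104 72 (164877 / 10000000000000) :=
  Sys.SX.pow (n147739 H) (by decide +kernel)
theorem n208333 (H : Base M O) : O.SX 160 80 (51751 / 25000000000000000) :=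
  Sys.SX.pow (n147777 H) (by decide +kernel)
theorem n209085 (H : Base M O) : O.Nu 26 (1000579109831 / 1000000000000) :=
  Sys.R2' (n140510 H) (n196918 H) (by decide +kernel)
theorem n209093 (H : Base M O) : O.Nu 28 (1000422243267 / 1000000000000) :=
  Sys.R2' (n140703 H) (n197027 H) (by decide +kernel)
theorem n209107 (H : Base M O) : O.Nu 30 (1000288530617 / 1000000000000) :=
  Sys.R2' (n140928 H) (n197211 H) (by decide +kernel)
theorem n209126 (H : Base M O) : O.Mu 44 (1000591041181 / 1000000000000) :=
  Sys.R2 (n205824 H) (n34733 H) (by decide +kernel)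
theorem n209127 (H : Base M O) : O.Mu 48 (1000389588443 / 1000000000000) :=
  Sys.R2 (n205832 H) (n34738 H) (by decide +kernel)
theorem n209152 (H : Base M O) : O.Nu 34 (31254573349 / 31250000000) :=
  Sys.R2' (n141391 H) (n197645 H) (by decide +kernel)
theorem n209153 (H : Base M O) : O.Mu 56 (500097510141 / 500000000000) :=
  Sys.R2 (n206077 H) (n197651 H) (by decide +kernel)
theorem n209178 (H : Base M O) : O.Nu 36 (125013349417 / 125000000000) :=
  Sys.R2' (n141611 H) (n197901 H) (by decide +kernel)
theorem n209180 (H : Base M O) : O.Mu 72 (1250115295481 / 1250000000000) :=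
  Sys.R2 (n206350 H) (n197957 H) (by decide +kernel)
theorem n209181 (H : Base M O) : O.Mu 80 (5000468886599 / 5000000000000) :=
  Sys.R2 (n206364 H) (n197970 H) (by decide +kernel)
theorem n209183 (H : Base M O) : O.Mu 96 (250030321419 / 250000000000) :=
  Sys.R2 (n206394 H) (n197997 H) (by decide +kernel)
theorem n209184 (H : Base M O) : O.Mu 104 (500072084363 / 500000000000) :=
  Sys.R2 (n206411 H) (n198010 H) (by decide +kernel)
theorem n209193 (H : Base M O) : O.Mu 320 (100142608087 / 100000000000) :=
  Sys.R2 (n206567 H) (n198147 H) (by decide +kernel)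
theorem n209219 (H : Base M O) : O.Nu 38 (10000752286351 / 10000000000000) :=
  Sys.R2' (n141846 H) (n198232 H) (by decide +kernel)
theorem n209244 (H : Base M O) : O.Nu 40 (10000540799449 / 10000000000000) :=
  Sys.R2' (n142092 H) (n198568 H) (by decide +kernel)
theorem n209271 (H : Base M O) : O.Nu 44 (5000137341477 / 5000000000000) :=
  Sys.R2' (n206783 H) (n198928 H) (by decide +kernel)
theorem n209355 (H : Base M O) : O.Nu 56 (390626798263 / 390625000000) :=
  Sys.R2' (n207081 H) (n200002 H) (by decide +kernel)
theorem n209475 (H : Base M O) : O.Nu 72 (1000000450102901 / 1000000000000000) :=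
  Sys.R2' (n207510 H) (n201476 H) (by decide +kernel)
theorem n209930 (H : Base M O) : O.TX 36 30 (26773 / 1000000) :=
  Sys.R3 (n197849 H) (n34939 H) (n141550 H) (n39704 H) (11069127 / 10000000) (by decide +kernel)
theorem n210034 (H : Base M O) : O.TX 44 34 (98389 / 5000000) :=
  Sys.R3 (n198866 H) (n35300 H) (n142272 H) (n39722 H) (26982393 / 25000000) (by decide +kernel)
theorem n210073 (H : Base M O) : O.TX 48 34 (21471 / 1000000) :=
  Sys.R3 (n199205 H) (n35419 H) (n142509 H) (n39722 H) (108680899 / 100000000) (by decide +kernel)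
theorem n210112 (H : Base M O) : O.TX 52 34 (233131 / 10000000) :=
  Sys.R3 (n199559 H) (n35539 H) (n142746 H) (n39722 H) (109437457 / 100000000) (by decide +kernel)
theorem n210190 (H : Base M O) : O.TX 60 36 (214447 / 10000000) :=
  Sys.R3 (n200290 H) (n35784 H) (n143229 H) (n39738 H) (27168873 / 25000000) (by decide +kernel)
theorem n210193 (H : Base M O) : O.TX 60 44 (449053 / 50000000) :=
  Sys.R3 (n200308 H) (n35798 H) (n143256 H) (n209126 H) (103608791 / 100000000) (by decide +kernel)
theorem n210231 (H : Base M O) : O.TX 64 44 (958751 / 100000000) :=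
  Sys.R3 (n200672 H) (n35918 H) (n143493 H) (n209126 H) (103853957 / 100000000) (by decide +kernel)
theorem n210305 (H : Base M O) : O.TX 72 44 (5407 / 500000) :=
  Sys.R3 (n201361 H) (n36158 H) (n143969 H) (n209126 H) (10434603 / 10000000) (by decide +kernel)
theorem n210342 (H : Base M O) : O.TX 80 48 (78903 / 10000000) :=
  Sys.R3 (n201717 H) (n36283 H) (n144217 H) (n209127 H) (2579129 / 2500000) (by decide +kernel)
theorem n210413 (H : Base M O) : O.TX 96 48 (950807 / 100000000) :=
  Sys.R3 (n202367 H) (n36523 H) (n144697 H) (n209127 H) (103810113 / 100000000) (by decide +kernel)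
theorem n210448 (H : Base M O) : O.TX 104 48 (10329 / 1000000) :=
  Sys.R3 (n202671 H) (n36644 H) (n144938 H) (n209127 H) (104134101 / 100000000) (by decide +kernel)
theorem n210577 (H : Base M O) : O.TX 160 56 (159463 / 20000000) :=
  Sys.R3 (n203803 H) (n203805 H) (n145928 H) (n209153 H) (25792301 / 25000000) (by decide +kernel)
theorem n210606 (H : Base M O) : O.TX 192 56 (964999 / 100000000) :=
  Sys.R3 (n204094 H) (n204096 H) (n146171 H) (n209153 H) (25953749 / 25000000) (by decide +kernel)
theorem n210842 (H : Base M O) : O.SX 26 72 (21517 / 2000000) :=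
  Sys.R3' (n196942 H) (n196939 H) (n38162 H) (n209085 H) (104256481 / 100000000) (by decide +kernel)
theorem n210875 (H : Base M O) : O.SX 30 88 (645819 / 100000000) :=
  Sys.R3' (n197266 H) (n197262 H) (n205706 H) (n209107 H) (102571203 / 100000000) (by decide +kernel)
theorem n210876 (H : Base M O) : O.SX 30 96 (352723 / 50000000) :=
  Sys.R3' (n197274 H) (n197270 H) (n205714 H) (n209107 H) (51404101 / 50000000) (by decide +kernel)
theorem n210908 (H : Base M O) : O.SX 34 112 (414883 / 100000000) :=
  Sys.R3' (n197723 H) (n197718 H) (n206171 H) (n209152 H) (50826237 / 50000000) (by decide +kernel)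
theorem n210909 (H : Base M O) : O.SX 34 128 (118919 / 25000000) :=
  Sys.R3' (n197732 H) (n197728 H) (n206184 H) (n209152 H) (2547269 / 2500000) (by decide +kernel)
theorem n210910 (H : Base M O) : O.SX 34 144 (268391 / 50000000) :=
  Sys.R3' (n197743 H) (n197737 H) (n206197 H) (n209152 H) (20425921 / 20000000) (by decide +kernel)
theorem n210928 (H : Base M O) : O.SX 36 224 (616173 / 100000000) :=
  Sys.R3' (n198099 H) (n198092 H) (n206523 H) (n209178 H) (1600327 / 1562500) (by decide +kernel)
theorem n211238 (H : Base M O) : LeQ (O.u 34) (100000455500817 / 100000000000000) (O.w 34) :=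
  Sys.R4 (n197617 H) (n209152 H) (502493919 / 500000000) (by decide +kernel)
theorem n211240 (H : Base M O) : LeQ (O.u 38) (5000011014817 / 5000000000000) (O.w 34) :=
  Sys.R4 (n197625 H) (n209152 H) (251394069 / 250000000) (by decide +kernel)
theorem n211258 (H : Base M O) : LeQ (O.w 34) (12500022282437 / 12500000000000) (O.u 96) :=
  Sys.R4' (n197704 H) (n209183 H) (1004131977 / 1000000000) (by decide +kernel)
theorem n211291 (H : Base M O) : LeQ (O.u 38) (50000107111631 / 50000000000000) (O.w 36) :=
  Sys.R4 (n197876 H) (n209178 H) (1004066251 / 1000000000) (by decide +kernel)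
theorem n211292 (H : Base M O) : LeQ (O.u 40) (10000014982279 / 10000000000000) (O.w 36) :=
  Sys.R4 (n197884 H) (n209178 H) (502140361 / 500000000) (by decide +kernel)
theorem n211293 (H : Base M O) : LeQ (O.u 44) (500000369147797 / 500000000000000) (O.w 36) :=
  Sys.R4 (n197892 H) (n209178 H) (1004709801 / 1000000000) (by decide +kernel)
theorem n211358 (H : Base M O) : LeQ (O.u 44) (500000375445863 / 500000000000000) (O.w 38) :=
  Sys.R4 (n198224 H) (n209219 H) (50165771 / 50000000) (by decide +kernel)
theorem n211375 (H : Base M O) : LeQ (O.w 38) (12500010903209 / 12500000000000) (O.u 96) :=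
  Sys.R4' (n198328 H) (n209183 H) (1004619213 / 1000000000) (by decide +kernel)
theorem n211418 (H : Base M O) : LeQ (O.u 32) (1000006471947 / 1000000000000) (O.w 40) :=
  Sys.R4 (n198516 H) (n209244 H) (100173201 / 100000000) (by decide +kernel)
theorem n211419 (H : Base M O) : LeQ (O.u 34) (100000452043129 / 100000000000000) (O.w 40) :=
  Sys.R4 (n198521 H) (n209244 H) (25046009 / 25000000) (by decide +kernel)
theorem n211421 (H : Base M O) : LeQ (O.u 38) (5000011129543 / 5000000000000) (O.w 40) :=
  Sys.R4 (n198534 H) (n209244 H) (125257137 / 125000000) (by decide +kernel)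
theorem n211429 (H : Base M O) : LeQ (O.w 40) (15625004634029 / 15625000000000) (O.u 56) :=
  Sys.R4' (n198578 H) (n209153 H) (1007830551 / 1000000000) (by decide +kernel)
theorem n211435 (H : Base M O) : LeQ (O.w 40) (1000000407347263 / 1000000000000000) (O.u 72) :=
  Sys.R4' (n198617 H) (n209180 H) (10036961 / 10000000) (by decide +kernel)
theorem n211489 (H : Base M O) : LeQ (O.u 44) (20000017847879 / 20000000000000) (O.w 44) :=
  Sys.R4 (n198892 H) (n209271 H) (25030233 / 25000000) (by decide +kernel)
theorem n211502 (H : Base M O) : LeQ (O.w 44) (500000094456263 / 500000000000000) (O.u 72) :=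
  Sys.R4' (n198956 H) (n209180 H) (50203323 / 50000000) (by decide +kernel)
theorem n211691 (H : Base M O) : LeQ (O.u 56) (500000097299593 / 500000000000000) (O.w 56) :=
  Sys.R4 (n199963 H) (n209355 H) (10002578317 / 10000000000) (by decide +kernel)
theorem n211700 (H : Base M O) : LeQ (O.w 56) (10000000267695597 / 10000000000000000) (O.u 80) :=
  Sys.R4' (n200022 H) (n209181 H) (125658137 / 125000000) (by decide +kernel)
theorem n211954 (H : Base M O) : LeQ (O.u 72) (10000000451183929 / 10000000000000000) (O.w 72) :=
  Sys.R4 (n201416 H) (n209475 H) (100003240793 / 100000000000) (by decide +kernel)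
theorem n211963 (H : Base M O) : LeQ (O.w 72) (100000000493066037 / 100000000000000000) (O.u 104) :=
  Sys.R4' (n201480 H) (n209184 H) (50521673 / 50000000) (by decide +kernel)
theorem n211981 (H : Base M O) : LeQ (O.w 72) (100000016367103 / 100000000000000) (O.u 320) :=
  Sys.R4' (n201648 H) (n209193 H) (11080533 / 10000000) (by decide +kernel)
theorem n212785 (H : Base M O) : LeQ (O.a 44) (10000100716403 / 10000000000000) (O.u 44) :=
  Sys.Pau (n209126 H) (by decide +kernel)
theorem n238456 (H : Base M O) : LeQ (O.a 34) (1250053515359 / 1250000000000) (O.w 34) :=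
  LeQ.trans (n41722 H) (n211238 H) (by decide +kernel)
theorem n241189 (H : Base M O) : LeQ (O.w 21) (10000133318993 / 10000000000000) (O.w 34) :=
  LeQ.trans (n40803 H) (n211240 H) (by decide +kernel)
theorem n241216 (H : Base M O) : LeQ (O.w 22) (5000053264591 / 5000000000000) (O.w 36) :=
  LeQ.trans (n40831 H) (n211291 H) (by decide +kernel)
theorem n242770 (H : Base M O) : LeQ (O.w 26) (50000234162331 / 50000000000000) (O.w 36) :=
  LeQ.trans (n40888 H) (n211292 H) (by decide +kernel)
theorem n244175 (H : Base M O) : LeQ (O.w 28) (100000309635389 / 100000000000000) (O.w 36) :=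
  LeQ.trans (n40917 H) (n211293 H) (by decide +kernel)
theorem n245011 (H : Base M O) : LeQ (O.a 44) (2500027056349 / 2500000000000) (O.w 38) :=
  LeQ.trans (n212785 H) (n211358 H) (by decide +kernel)
theorem n250831 (H : Base M O) : LeQ (O.w 40) (40000018098627 / 40000000000000) (O.w 72) :=
  LeQ.trans (n211435 H) (n211954 H) (by decide +kernel)
theorem n252992 (H : Base M O) : LeQ (O.w 34) (100000178259497 / 100000000000000) (O.a 96) :=
  LeQ.trans (n211258 H) (n492 H) (by decide +kernel)
theorem n252998 (H : Base M O) : LeQ (O.w 38) (1000000872256721 / 1000000000000000) (O.a 96) :=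
  LeQ.trans (n211375 H) (n492 H) (by decide +kernel)
theorem n253605 (H : Base M O) : LeQ (O.w 72) (50000000246533019 / 50000000000000000) (O.a 104) :=
  LeQ.trans (n211963 H) (n493 H) (by decide +kernel)
theorem n255773 (H : Base M O) : LeQ (O.w 72) (1000000163671031 / 1000000000000000) (O.a 320) :=
  LeQ.trans (n211981 H) (n502 H) (by decide +kernel)
theorem n273846 (H : Base M O) : LeQ (O.a 34) (2000089189917 / 2000000000000) (O.a 96) :=
  LeQ.trans (n238456 H) (n252992 H) (by decide +kernel)
theorem n281396 (H : Base M O) : LeQ (O.a 44) (5000058474029 / 5000000000000) (O.a 96) :=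
  LeQ.trans (n245011 H) (n252998 H) (by decide +kernel)
theorem n282603 (H : Base M O) : LeQ (O.u 32) (10000068792969 / 10000000000000) (O.u 72) :=
  LeQ.trans (n211418 H) (n211435 H) (by decide +kernel)
theorem n282633 (H : Base M O) : LeQ (O.u 34) (100000481701049 / 100000000000000) (O.u 56) :=
  LeQ.trans (n211419 H) (n211429 H) (by decide +kernel)
theorem n282699 (H : Base M O) : LeQ (O.u 38) (100000267837529 / 100000000000000) (O.w 72) :=
  LeQ.trans (n211421 H) (n250831 H) (by decide +kernel)
theorem n285773 (H : Base M O) : LeQ (O.u 44) (20000021626133 / 20000000000000) (O.u 72) :=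
  LeQ.trans (n211489 H) (n211502 H) (by decide +kernel)
theorem n293039 (H : Base M O) : LeQ (O.u 56) (1000000221368751 / 1000000000000000) (O.u 80) :=
  LeQ.trans (n211691 H) (n211700 H) (by decide +kernel)
theorem n299244 (H : Base M O) : LeQ (O.u 38) (100000268330597 / 100000000000000) (O.a 104) :=
  LeQ.trans (n282699 H) (n253605 H) (by decide +kernel)
theorem n299251 (H : Base M O) : LeQ (O.u 38) (25000071051169 / 25000000000000) (O.a 320) :=
  LeQ.trans (n282699 H) (n255773 H) (by decide +kernel)
theorem n303229 (H : Base M O) : O.TZ 60 34 (113137 / 10000000) :=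
  Sys.R6 (n35779 H) (n143220 H) (n39722 H) (n282633 H) (n143285 H) (11096641 / 10000000) (1001033131 / 1000000000) (1009875119 / 1000000000) (18383111 / 10000000) (155637 / 250000000) (by decide +kernel)
theorem n303247 (H : Base M O) : O.TZ 64 32 (81831 / 5000000) :=
  Sys.R6 (n35894 H) (n143448 H) (n39682 H) (n282603 H) (n207283 H) (11591563 / 10000000) (1002096973 / 1000000000) (101418847 / 100000000) (3208361 / 1000000) (479019 / 5000000000) (by decide +kernel)
theorem n303249 (H : Base M O) : O.TZ 64 34 (121631 / 10000000) :=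
  Sys.R6 (n35899 H) (n143457 H) (n39722 H) (n282633 H) (n143523 H) (87296 / 78125) (500588437 / 500000000) (25263423 / 25000000) (4804113 / 2500000) (87673 / 125000000) (by decide +kernel)
theorem n303364 (H : Base M O) : O.TZ 80 44 (102557 / 25000000) :=
  Sys.R6 (n36278 H) (n144207 H) (n209126 H) (n285773 H) (n207592 H) (52420217 / 50000000) (1250263927 / 1250000000) (1003813451 / 1000000000) (1669359 / 1250000) (62089 / 500000000) (by decide +kernel)
theorem n303475 (H : Base M O) : O.TZ 96 44 (498889 / 100000000) :=
  Sys.R6 (n36518 H) (n144687 H) (n209126 H) (n285773 H) (n207801 H) (105836281 / 100000000) (100030453 / 100000000) (251144471 / 250000000) (1775221 / 1250000) (1069 / 6250000) (by decide +kernel)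
theorem n303540 (H : Base M O) : O.TZ 104 44 (544089 / 100000000) :=
  Sys.R6 (n36639 H) (n144928 H) (n209126 H) (n285773 H) (n207906 H) (53168873 / 50000000) (10003576859 / 10000000000) (1004960319 / 1000000000) (14652263 / 10000000) (197121 / 1000000000) (by decide +kernel)
theorem n303858 (H : Base M O) : O.TZ 160 56 (218859 / 100000000) :=
  Sys.R6 (n203805 H) (n145928 H) (n209153 H) (n293039 H) (n208333 H) (25792301 / 25000000) (50004586953 / 50000000000) (1001985433 / 1000000000) (73787 / 62500) (9911 / 62500000) (by decide +kernel)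
theorem n304871 (H : Base M O) : O.SZ 21 72 (4607 / 200000) :=
  Sys.R6' (n16134 H) (n18628 H) (n147327 H) (n241189 H) (n206109 H) (11151939 / 10000000) (250283791 / 250000000) (398579 / 390625) (2069879 / 1000000) (223167 / 100000000) (by decide +kernel)
theorem n304938 (H : Base M O) : O.SZ 22 72 (47331 / 2500000) :=
  Sys.R6' (n16213 H) (n18820 H) (n147336 H) (n241216 H) (n206350 H) (27398893 / 25000000) (2501998347 / 2500000000) (101701731 / 100000000) (9499981 / 5000000) (9479 / 6250000) (by decide +kernel)
theorem n304941 (H : Base M O) : O.SZ 22 80 (8451 / 400000) :=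
  Sys.R6' (n16215 H) (n18826 H) (n147336 H) (n241216 H) (n206364 H) (1383963 / 1250000) (5004942793 / 5000000000) (101892591 / 100000000) (407929 / 200000) (90743 / 50000000) (by decide +kernel)
theorem n304949 (H : Base M O) : O.SZ 22 96 (51599 / 2000000) :=
  Sys.R6' (n16219 H) (n18838 H) (n147336 H) (n241216 H) (n206394 H) (11299451 / 10000000) (1001428511 / 1000000000) (51137693 / 50000000) (295899 / 125000) (251663 / 100000000) (by decide +kernel)
theorem n304953 (H : Base M O) : O.SZ 22 104 (141129 / 5000000) :=
  Sys.R6' (n16221 H) (n18844 H) (n147336 H) (n241216 H) (n206411 H) (2853769 / 2500000) (1001679463 / 1000000000) (51233661 / 50000000) (510977 / 200000) (145769 / 50000000) (by decide +kernel)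
theorem n304957 (H : Base M O) : O.SZ 22 112 (153513 / 5000000) :=
  Sys.R6' (n16223 H) (n18850 H) (n147336 H) (n241216 H) (n206429 H) (2882971 / 2500000) (250487803 / 250000000) (102659619 / 100000000) (275987 / 100000) (83639 / 25000000) (by decide +kernel)
theorem n305091 (H : Base M O) : O.SZ 26 224 (370499 / 10000000) :=
  Sys.R6' (n196984 H) (n38222 H) (n209085 H) (n242770 H) (n206523 H) (455387 / 400000) (500805861 / 500000000) (51382527 / 50000000) (1414441 / 500000) (104309 / 10000000) (by decide +kernel)
theorem n305094 (H : Base M O) : O.SZ 26 256 (27233 / 625000) :=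
  Sys.R6' (n196987 H) (n38228 H) (n209085 H) (n242770 H) (n206539 H) (2319511 / 2000000) (1002111863 / 1000000000) (51583127 / 50000000) (1656949 / 500000) (130569 / 10000000) (by decide +kernel)
theorem n305140 (H : Base M O) : O.SZ 28 256 (67573 / 2000000) :=
  Sys.R6' (n197142 H) (n205620 H) (n209093 H) (n244175 H) (n206539 H) (5570637 / 5000000) (125139393 / 125000000) (102244277 / 100000000) (2314353 / 1000000) (128347 / 10000000) (by decide +kernel)
theorem n305152 (H : Base M O) : O.SZ 28 448 (346877 / 5000000) :=
  Sys.R6' (n137806 H) (n205640 H) (n209093 H) (n244175 H) (n206591 H) (12081921 / 10000000) (1003463471 / 1000000000) (103960477 / 100000000) (1146183 / 250000) (64737 / 2000000) (by decide +kernel)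
theorem n305482 (H : Base M O) : O.Rh0 96 (16936767 / 20000000) :=
  Sys.Rh0_of (n304949 H) (by decide +kernel)
theorem n305670 (H : Base M O) : O.Rh1 96 (84777797 / 100000000) :=
  Sys.Rh1_of (n210876 H) (by decide +kernel)
theorem n307355 (H : Base M O) : O.So 18 96 (393699 / 100000) :=
  OSys.O4 (n132329 H) (n13677 H) (n305482 H) (n305670 H) (84777797 / 100000000) (482001 / 125000) (by decide +kernel)
theorem n307892 (H : Base M O) : O.So 34 96 (17521 / 62500) :=
  OSys.Sop (n307355 H) (n305482 H) (n305670 H) (84777797 / 100000000) (by decide +kernel)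
theorem n307978 (H : Base M O) : O.So 36 96 (40297 / 200000) :=
  OSys.Sop (n307355 H) (n305482 H) (n305670 H) (84777797 / 100000000) (by decide +kernel)
theorem n308986 (H : Base M O) : O.To 64 34 (265681 / 500000) :=
  OSys.O3 (n13669 H) (n307892 H) (n273846 H) (104653619 / 100000000) 3004039000000001 (167739 / 1000000) (by decide +kernel)
theorem n309036 (H : Base M O) : O.To 64 104 (2891 / 20000) :=
  OSys.To.pow (n308986 H) (by decide +kernel)
theorem n309402 (H : Base M O) : O.To 80 44 (18279 / 40000) :=
  OSys.O3 (n13848 H) (n307978 H) (n281396 H) (102289927 / 100000000) 3240303000001 (22639 / 125000) (by decide +kernel)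
theorem n309533 (H : Base M O) : O.To 80 256 (105001 / 10000000) :=
  OSys.To.pow (n309402 H) (by decide +kernel)
theorem n313388 (H : Base M O) : O.SZ 36 72 (9479 / 6250000) :=
  Sys.SZ.pow (n304938 H) (by decide +kernel)
theorem n313650 (H : Base M O) : O.SZ 44 80 (111593 / 250000000) :=
  Sys.SZ.pow (n304941 H) (by decide +kernel)
theorem n313740 (H : Base M O) : O.SZ 48 72 (180671 / 1000000000) :=
  Sys.SZ.pow (n304871 H) (by decide +kernel)
theorem n313745 (H : Base M O) : O.SZ 48 80 (221373 / 1000000000) :=
  Sys.SZ.pow (n304941 H) (by decide +kernel)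
theorem n313760 (H : Base M O) : O.SZ 48 104 (208239 / 500000000) :=
  Sys.SZ.pow (n304953 H) (by decide +kernel)
theorem n313852 (H : Base M O) : O.SZ 52 80 (109787 / 1000000000) :=
  Sys.SZ.pow (n304941 H) (by decide +kernel)
theorem n314101 (H : Base M O) : O.TZ 60 72 (377739 / 5000000000) :=
  Sys.TZ.pow (n303229 H) (by decide +kernel)
theorem n314115 (H : Base M O) : O.TZ 60 88 (916793 / 100000000000) :=
  Sys.TZ.pow (n303229 H) (by decide +kernel)
theorem n314181 (H : Base M O) : O.TZ 60 256 (110601 / 50000000000000000000) :=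
  Sys.TZ.pow (n303229 H) (by decide +kernel)
theorem n314186 (H : Base M O) : O.SZ 60 256 (723983 / 1000000000) :=
  Sys.SZ.pow (n305094 H) (by decide +kernel)
theorem n314264 (H : Base M O) : O.TZ 64 88 (27643 / 2500000000) :=
  Sys.TZ.pow (n303249 H) (by decide +kernel)
theorem n314371 (H : Base M O) : O.TZ 64 448 (1 / 10000000000000000000000000) :=
  Sys.TZ.pow (n303247 H) (by decide +kernel)
theorem n314376 (H : Base M O) : O.SZ 64 448 (112279 / 50000000) :=
  Sys.SZ.pow (n305152 H) (by decide +kernel)
theorem n314639 (H : Base M O) : O.SZ 72 112 (13991 / 1250000000) :=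
  Sys.SZ.pow (n304957 H) (by decide +kernel)
theorem n314780 (H : Base M O) : O.TZ 80 72 (62089 / 500000000) :=
  Sys.TZ.pow (n303364 H) (by decide +kernel)
theorem n314793 (H : Base M O) : O.TZ 80 80 (457137 / 10000000000) :=
  Sys.TZ.pow (n303364 H) (by decide +kernel)
theorem n314844 (H : Base M O) : O.TZ 80 112 (167917 / 200000000000) :=
  Sys.TZ.pow (n303364 H) (by decide +kernel)
theorem n314850 (H : Base M O) : O.SZ 80 112 (315369 / 100000000000) :=
  Sys.SZ.pow (n304957 H) (by decide +kernel)
theorem n314924 (H : Base M O) : O.SZ 80 256 (325043 / 5000000000) :=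
  Sys.SZ.pow (n305094 H) (by decide +kernel)
theorem n314968 (H : Base M O) : O.TZ 80 448 (496887 / 1000000000000000000000000000000) :=
  Sys.TZ.pow (n303364 H) (by decide +kernel)
theorem n314973 (H : Base M O) : O.SZ 80 448 (488831 / 1000000000) :=
  Sys.SZ.pow (n305152 H) (by decide +kernel)
theorem n315297 (H : Base M O) : O.TZ 96 112 (69079 / 50000000000) :=
  Sys.TZ.pow (n303475 H) (by decide +kernel)
theorem n315311 (H : Base M O) : O.TZ 96 128 (201041 / 1000000000000) :=
  Sys.TZ.pow (n303475 H) (by decide +kernel)
theorem n315488 (H : Base M O) : O.TZ 104 80 (7639 / 100000000) :=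
  Sys.TZ.pow (n303540 H) (by decide +kernel)
theorem n315574 (H : Base M O) : O.TZ 104 144 (388567 / 10000000000000) :=
  Sys.TZ.pow (n303540 H) (by decide +kernel)
theorem n316606 (H : Base M O) : O.TZ 160 224 (114717 / 5000000000000000) :=
  Sys.TZ.pow (n303858 H) (by decide +kernel)
theorem n316612 (H : Base M O) : O.SZ 160 224 (155789 / 100000000000000) :=
  Sys.SZ.pow (n305091 H) (by decide +kernel)
theorem n316888 (H : Base M O) : O.SZ 192 256 (407711 / 5000000000000000) :=
  Sys.SZ.pow (n305140 H) (by decide +kernel)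
theorem n318225 (H : Base M O) : O.TX 36 104 (354283 / 100000000000) :=
  Sys.TX.pow (n209930 H) (by decide +kernel)
theorem n318918 (H : Base M O) : O.TX 44 38 (123957 / 10000000) :=
  Sys.TX.pow (n210034 H) (by decide +kernel)
theorem n319128 (H : Base M O) : O.TX 44 256 (71387 / 500000000000000000) :=
  Sys.TX.pow (n210034 H) (by decide +kernel)
theorem n319275 (H : Base M O) : O.TX 48 72 (58679 / 200000000) :=
  Sys.TX.pow (n210073 H) (by decide +kernel)
theorem n319276 (H : Base M O) : O.SX 48 72 (232441 / 1000000000) :=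
  Sys.SX.pow (n210842 H) (by decide +kernel)
theorem n319331 (H : Base M O) : O.TX 48 104 (789643 / 100000000000) :=
  Sys.TX.pow (n210073 H) (by decide +kernel)
theorem n319561 (H : Base M O) : O.TX 48 448 (104641 / 1000000000000000000000000000) :=
  Sys.TX.pow (n210073 H) (by decide +kernel)
theorem n319601 (H : Base M O) : O.TX 52 80 (18029 / 125000000) :=
  Sys.TX.pow (n210112 H) (by decide +kernel)
theorem n320229 (H : Base M O) : O.SX 60 88 (417083 / 10000000000) :=
  Sys.SX.pow (n210875 H) (by decide +kernel)
theorem n320256 (H : Base M O) : O.TX 60 104 (151137 / 10000000000) :=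
  Sys.TX.pow (n210190 H) (by decide +kernel)
theorem n320383 (H : Base M O) : O.TX 60 256 (6181 / 5000000000000000) :=
  Sys.TX.pow (n210193 H) (by decide +kernel)
theorem n320546 (H : Base M O) : O.SX 64 88 (21293 / 1000000000) :=
  Sys.SX.pow (n210875 H) (by decide +kernel)
theorem n320819 (H : Base M O) : O.TX 64 448 (281901 / 100000000000000000000000000) :=
  Sys.TX.pow (n210231 H) (by decide +kernel)
theorem n321226 (H : Base M O) : O.TX 72 112 (247481 / 25000000000) :=
  Sys.TX.pow (n210305 H) (by decide +kernel)
theorem n321539 (H : Base M O) : O.SX 80 112 (124191 / 50000000000) :=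
  Sys.SX.pow (n210908 H) (by decide +kernel)
theorem n321762 (H : Base M O) : O.TX 80 448 (235979 / 10000000000000000000000000) :=
  Sys.TX.pow (n210342 H) (by decide +kernel)
theorem n322166 (H : Base M O) : O.SX 96 128 (13829 / 50000000000) :=
  Sys.SX.pow (n210909 H) (by decide +kernel)
theorem n322361 (H : Base M O) : O.TX 96 448 (8409 / 62500000000000000000000) :=
  Sys.TX.pow (n210413 H) (by decide +kernel)
theorem n322470 (H : Base M O) : O.SX 104 144 (4549 / 40000000000) :=
  Sys.SX.pow (n210910 H) (by decide +kernel)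
theorem n322542 (H : Base M O) : O.TX 104 256 (128021 / 5000000000000000) :=
  Sys.TX.pow (n210448 H) (by decide +kernel)
theorem n323625 (H : Base M O) : O.TX 160 224 (404129 / 100000000000000) :=
  Sys.TX.pow (n210577 H) (by decide +kernel)
theorem n323630 (H : Base M O) : O.SX 160 224 (150127 / 1000000000000000) :=
  Sys.SX.pow (n210928 H) (by decide +kernel)
theorem n323918 (H : Base M O) : O.TX 192 256 (611517 / 1000000000000000) :=
  Sys.TX.pow (n210606 H) (by decide +kernel)
theorem n325342 (H : Base M O) : O.Mu 38 (100111506593 / 100000000000) :=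
  Sys.R2 (n318918 H) (n35310 H) (by decide +kernel)
theorem n325362 (H : Base M O) : O.Mu 72 (10000282064519 / 10000000000000) :=
  Sys.R2 (n319275 H) (n313740 H) (by decide +kernel)
theorem n325363 (H : Base M O) : O.Nu 48 (10000135322291 / 10000000000000) :=
  Sys.R2' (n319276 H) (n199294 H) (by decide +kernel)
theorem n325380 (H : Base M O) : O.Mu 80 (5000066022147 / 5000000000000) :=
  Sys.R2 (n319601 H) (n313852 H) (by decide +kernel)
theorem n325413 (H : Base M O) : O.Nu 60 (10000019999353 / 10000000000000) :=
  Sys.R2' (n320229 H) (n314115 H) (by decide +kernel)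
theorem n325428 (H : Base M O) : O.Nu 64 (50000054674647 / 50000000000000) :=
  Sys.R2' (n320546 H) (n314264 H) (by decide +kernel)
theorem n325457 (H : Base M O) : O.Mu 112 (1000000705407269 / 1000000000000000) :=
  Sys.R2 (n321226 H) (n314639 H) (by decide +kernel)
theorem n325470 (H : Base M O) : O.Nu 80 (1000000096203933 / 1000000000000000) :=
  Sys.R2' (n321539 H) (n314844 H) (by decide +kernel)
theorem n325495 (H : Base M O) : O.Nu 96 (5000000051068777 / 5000000000000000) :=
  Sys.R2' (n322166 H) (n315311 H) (by decide +kernel)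
theorem n325506 (H : Base M O) : O.Nu 104 (50000000171443281 / 50000000000000000) :=
  Sys.R2' (n322470 H) (n315574 H) (by decide +kernel)
theorem n325553 (H : Base M O) : O.Mu 256 (2000000000026329273 / 2000000000000000000) :=
  Sys.R2 (n323918 H) (n316888 H) (by decide +kernel)
theorem n326028 (H : Base M O) : O.SX 48 104 (179083 / 500000000) :=
  Sys.R3' (n313760 H) (n199353 H) (n319331 H) (n325363 H) (500704167 / 500000000) (by decide +kernel)
theorem n326067 (H : Base M O) : O.SX 60 256 (25621 / 200000000) :=
  Sys.R3' (n314186 H) (n314181 H) (n320383 H) (n325413 H) (10005121141 / 10000000000) (by decide +kernel)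
theorem n326081 (H : Base M O) : O.SX 64 448 (61381 / 500000000) :=
  Sys.R3' (n314376 H) (n314371 H) (n320819 H) (n325428 H) (5002450023 / 5000000000) (by decide +kernel)
theorem n326109 (H : Base M O) : O.SX 80 448 (107803 / 10000000000) :=
  Sys.R3' (n314973 H) (n314968 H) (n321762 H) (n325470 H) (100004310029 / 100000000000) (by decide +kernel)
theorem n326201 (H : Base M O) : LeQ (O.w 36) (200000116943533 / 200000000000000) (O.u 72) :=
  Sys.R4' (n313388 H) (n325362 H) (500507967 / 500000000) (by decide +kernel)
theorem n326242 (H : Base M O) : LeQ (O.w 44) (1000000126790933 / 1000000000000000) (O.u 80) :=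
  Sys.R4' (n313650 H) (n325380 H) (10005811599 / 10000000000) (by decide +kernel)
theorem n326257 (H : Base M O) : LeQ (O.w 48) (10000000576526489 / 10000000000000000) (O.u 80) :=
  Sys.R4' (n313745 H) (n325380 H) (5003170047 / 5000000000) (by decide +kernel)
theorem n326364 (H : Base M O) : LeQ (O.u 72) (10000000174877063 / 10000000000000000) (O.w 60) :=
  Sys.R4 (n314101 H) (n325413 H) (1250180007 / 1250000000) (by decide +kernel)
theorem n326518 (H : Base M O) : LeQ (O.u 72) (1250000026946679 / 1250000000000000) (O.w 80) :=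
  Sys.R4 (n314780 H) (n325470 H) (1000006926707 / 1000000000000) (by decide +kernel)
theorem n326520 (H : Base M O) : LeQ (O.u 80) (100000000714260327 / 100000000000000000) (O.w 80) :=
  Sys.R4 (n314793 H) (n325470 H) (125000962043 / 125000000000) (by decide +kernel)
theorem n326529 (H : Base M O) : LeQ (O.w 80) (500000000176003549 / 500000000000000000) (O.u 112) :=
  Sys.R4' (n314850 H) (n325457 H) (12500705427 / 12500000000) (by decide +kernel)
theorem n326538 (H : Base M O) : LeQ (O.w 80) (12500000039676811 / 12500000000000000) (O.u 256) :=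
  Sys.R4' (n314924 H) (n325553 H) (1000000001053171 / 1000000000000000) (by decide +kernel)
theorem n326596 (H : Base M O) : LeQ (O.u 112) (1000000000128495087 / 1000000000000000000) (O.w 96) :=
  Sys.R4 (n315297 H) (n325495 H) (500000571971 / 500000000000) (by decide +kernel)
theorem n326621 (H : Base M O) : LeQ (O.u 80) (12500000114764247 / 12500000000000000) (O.w 104) :=
  Sys.R4 (n315488 H) (n325506 H) (10000002743093 / 10000000000000) (by decide +kernel)
theorem n326976 (H : Base M O) : LeQ (O.a 38) (10000219958611 / 10000000000000) (O.u 38) :=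
  Sys.Pau (n325342 H) (by decide +kernel)
theorem n326983 (H : Base M O) : LeQ (O.a 72) (1000000293813107 / 1000000000000000) (O.u 72) :=
  Sys.Pau (n325362 H) (by decide +kernel)
theorem n327489 (H : Base M O) : LeQ (O.a 38) (10000246792261 / 10000000000000) (O.a 104) :=
  LeQ.trans (n326976 H) (n299244 H) (by decide +kernel)
theorem n327498 (H : Base M O) : LeQ (O.a 38) (1250031047463 / 1250000000000) (O.a 320) :=
  LeQ.trans (n326976 H) (n299251 H) (by decide +kernel)
theorem n329424 (H : Base M O) : LeQ (O.w 36) (500000301102691 / 500000000000000) (O.w 60) :=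
  LeQ.trans (n326201 H) (n326364 H) (by decide +kernel)
theorem n329846 (H : Base M O) : LeQ (O.a 72) (1000000315370457 / 1000000000000000) (O.w 80) :=
  LeQ.trans (n326983 H) (n326518 H) (by decide +kernel)
theorem n329919 (H : Base M O) : LeQ (O.w 44) (500000067986037 / 500000000000000) (O.w 104) :=
  LeQ.trans (n326242 H) (n326621 H) (by decide +kernel)
theorem n329962 (H : Base M O) : LeQ (O.w 48) (5000000323976263 / 5000000000000000) (O.w 80) :=
  LeQ.trans (n326257 H) (n326520 H) (by decide +kernel)
theorem n332438 (H : Base M O) : LeQ (O.w 80) (500000000240251093 / 500000000000000000) (O.w 96) :=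
  LeQ.trans (n326529 H) (n326596 H) (by decide +kernel)
theorem n334478 (H : Base M O) : LeQ (O.w 80) (100000000317414489 / 100000000000000000) (O.a 256) :=
  LeQ.trans (n326538 H) (n500 H) (by decide +kernel)
theorem n342345 (H : Base M O) : LeQ (O.a 72) (1000000318544603 / 1000000000000000) (O.a 256) :=
  LeQ.trans (n329846 H) (n334478 H) (by decide +kernel)
theorem n348986 (H : Base M O) : O.SZ 36 104 (1843 / 800000) :=
  Sys.R6' (n198006 H) (n318225 H) (n209178 H) (n329424 H) (n320256 H) (101116803 / 100000000) (25000289629 / 25000000000) (2505643 / 2500000) (2865979 / 2500000) (200923 / 5000000000) (by decide +kernel)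
theorem n349159 (H : Base M O) : O.SZ 44 256 (153751 / 100000000) :=
  Sys.R6' (n199120 H) (n319128 H) (n209271 H) (n329919 H) (n322542 H) (1007056569 / 1000000000) (62500290063 / 62500000000) (1001532763 / 1000000000) (11732387 / 10000000) (224213 / 1000000000000) (by decide +kernel)
theorem n349227 (H : Base M O) : O.SZ 48 448 (70421 / 50000000) :=
  Sys.R6' (n199541 H) (n319561 H) (n325363 H) (n329962 H) (n321762 H) (251520203 / 250000000) (20000068981 / 20000000000) (1001394329 / 1000000000) (174723 / 156250) (35393 / 2000000000) (by decide +kernel)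
theorem n349448 (H : Base M O) : O.SZ 80 448 (95123 / 5000000000) :=
  Sys.R6' (n314968 H) (n321762 H) (n325470 H) (n332438 H) (n322361 H) (100004310029 / 100000000000) (10000000001741471 / 10000000000000000) (20000344427 / 20000000000) (50082731 / 50000000) (216361 / 100000000000) (by decide +kernel)
theorem n349826 (H : Base M O) : O.Rh0 104 (8447619 / 10000000) :=
  Sys.Rh0_of (n348986 H) (by decide +kernel)
theorem n350009 (H : Base M O) : O.Rh0 256 (43155291 / 50000000) :=
  Sys.Rh0_of (n349159 H) (by decide +kernel)
theorem n350047 (H : Base M O) : O.Rh1 104 (84763737 / 100000000) :=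
  Sys.Rh1_of (n326028 H) (by decide +kernel)
theorem n350079 (H : Base M O) : O.Rh0 448 (87216487 / 100000000) :=
  Sys.Rh0_of (n349227 H) (by decide +kernel)
theorem n350214 (H : Base M O) : O.Rh1 256 (86124379 / 100000000) :=
  Sys.Rh1_of (n326067 H) (by decide +kernel)
theorem n350271 (H : Base M O) : O.Rh1 448 (43437181 / 50000000) :=
  Sys.Rh1_of (n326081 H) (by decide +kernel)
theorem n350411 (H : Base M O) : O.TF 80 448 (353971 / 5000000000000000000000000) :=
  Sys.TF_of (n314968 H) (n321762 H) (by decide +kernel)
theorem n350412 (H : Base M O) : O.SF 80 448 (64207 / 1250000000) :=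
  Sys.SF_of (n349448 H) (n326109 H) (by decide +kernel)
theorem n350724 (H : Base M O) : O.TF 160 224 (121469 / 10000000000000) :=
  Sys.TF_of (n316606 H) (n323625 H) (by decide +kernel)
theorem n350725 (H : Base M O) : O.SF 160 224 (50207 / 25000000000000) :=
  Sys.SF_of (n316612 H) (n323630 H) (by decide +kernel)
theorem n351100 (H : Base M O) : O.So 18 104 (476397 / 100000) :=
  OSys.O4 (n132329 H) (n13840 H) (n349826 H) (n350047 H) (84763737 / 100000000) (4636837 / 1000000) (by decide +kernel)
theorem n351422 (H : Base M O) : O.So 36 104 (243081 / 1000000) :=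
  OSys.Sop (n351100 H) (n349826 H) (n350047 H) (84763737 / 100000000) (by decide +kernel)
theorem n351443 (H : Base M O) : O.So 36 256 (71877 / 50000) :=
  OSys.O4 (n351422 H) (n309036 H) (n350009 H) (n350214 H) (43155291 / 50000000) (1191011 / 500000) (by decide +kernel)
theorem n351744 (H : Base M O) : O.So 52 256 (136347 / 1000000) :=
  OSys.Sop (n351443 H) (n350009 H) (n350214 H) (43155291 / 50000000) (by decide +kernel)
theorem n351775 (H : Base M O) : O.So 52 448 (140767 / 500000) :=
  OSys.O4 (n351744 H) (n309533 H) (n350079 H) (n350271 H) (87216487 / 100000000) (636873 / 500000) (by decide +kernel)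
theorem n351882 (H : Base M O) : O.To 64 38 (23249 / 50000) :=
  OSys.O3 (n13840 H) (n351422 H) (n327489 H) (102660617 / 100000000) 2149835000000001 (3843 / 31250) (by decide +kernel)
theorem n351890 (H : Base M O) : O.To 64 72 (58589 / 250000) :=
  OSys.To.pow (n351882 H) (by decide +kernel)
theorem n351936 (H : Base M O) : O.So 64 256 (233031 / 10000000) :=
  OSys.Sop (n351443 H) (n350009 H) (n350214 H) (43155291 / 50000000) (by decide +kernel)
theorem n352936 (H : Base M O) : O.To 160 72 (123779 / 500000) :=
  OSys.O3 (n351890 H) (n351936 H) (n342345 H) (501102103 / 500000000) 2365115000000000000000001 (69853 / 10000000) (by decide +kernel)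
theorem n353001 (H : Base M O) : O.To 160 224 (32479 / 2500000) :=
  OSys.To.pow (n352936 H) (by decide +kernel)
theorem n353082 (H : Base M O) : O.So 160 448 (27047 / 250000000000) :=
  OSys.Sop (n351775 H) (n350079 H) (n350271 H) (87216487 / 100000000) (by decide +kernel)
theorem n354143 (H : Base M O) : ∀ i, 11 ≤ i → i ≤ 159 → O.TF i 38 (843323 / 1000000) :=
  Sys.Range (n129875 H) (n327498 H) 159 (5809573 / 5000000) 2934211000000000000000000000000000000000000000000000000000000000000000000000000001 (119059 / 500000) (by decide +kernel)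

end Crest.Agent.R347.Num
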