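import Crest.Agent.R347.D.C4
import Crest.Agent.R347.Induct2
import Crest.Agent.R347.Final

/-! Row 347: the end of the numerical chain (computer generated) -/

set_option autoImplicit false
set_option Elab.async false
set_option linter.unusedVariables false

namespace Crest.Agent.R347.Num

variable {M : Model} {O : OSys}

theorem So_mono {n j : ℕ} {s s' : ℚ} (h : O.So n j s) (hc : 1 ≤ j ∧ s ≤ s') : O.So n j s' := by
  have h1 : (s : ℝ) ≤ s' := by exact_mod_cast hc.2
  have h2 : 0 ≤ O.ω j * O.A j ^ n :=
    mul_nonneg (O.w_nonneg j hc.1) (pow_nonneg (O.A_pos hc.1).le _)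
  exact le_trans h (mul_le_mul_of_nonneg_right (by linarith) h2)

theorem done (H : Base M O) : Done O 80 := by
  have h := OSys.final O (i0 := 80) (j0 := 224) (ε := (32479 / 2500000))
    (Sys.TF.pow (n350724 H) (by decide +kernel)) (Sys.SF.pow (n350725 H) (by decide +kernel))
    (Sys.SF.pow (n350412 H) (by decide +kernel)) (Sys.TF.pow (n350411 H) (by decide +kernel))
    (OSys.To.pow (n353001 H) (by decide +kernel)) (So_mono (n353082 H) (by decide +kernel)) (by decide +kernel)
  refine ⟨by decide, h.1, h.2, fun i h1 h2 => ?_⟩
  exact ⟨38, (843323 / 1000000), by decide, by decide +kernel, n354143 H i (by omega) (by omega), by decide +kernel⟩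

end Crest.Agent.R347.Num
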