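import Crest.Agent.R347.EngS

/-! Row 347: runs of the kernel engine (computer generated) -/

set_option autoImplicit false
set_option Elab.async false
set_option maxRecDepth 100000

namespace Crest.Agent.R347.Eng

namespace Rb10s9c0
noncomputable def st : Nat → Nat → T 5 → T 5 → T 5 := by sym_step 9 1 10 0 0 75 6 2 9 1 0
noncomputable def bl : (Nat → Nat) → T 5 := by sym_build 9 1 10 0 0 75 6 2 9 1 0
theorem eq0 : ((fun a b x o => (genStep (symMat (gensOf 10 1 1 0) 9 1 10 0 0 75 6 2 9) a b x o).a0) = fun a b x o => (st a b x o).a0) ∧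
    (fun y => (genBuild (symMat (gensOf 10 1 1 0) 9 1 10 0 0 75 6 2 9) y).a0) = fun y => (bl y).a0 := ⟨by kernel_rfl, by kernel_rfl⟩
theorem eq1 : ((fun a b x o => (genStep (symMat (gensOf 10 1 1 0) 9 1 10 0 0 75 6 2 9) a b x o).a1) = fun a b x o => (st a b x o).a1) ∧
    (fun y => (genBuild (symMat (gensOf 10 1 1 0) 9 1 10 0 0 75 6 2 9) y).a1) = fun y => (bl y).a1 := ⟨by kernel_rfl, by kernel_rfl⟩
theorem eq2 : ((fun a b x o => (genStep (symMat (gensOf 10 1 1 0) 9 1 10 0 0 75 6 2 9) a b x o).a2) = fun a b x o => (st a b x o).a2) ∧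
    (fun y => (genBuild (symMat (gensOf 10 1 1 0) 9 1 10 0 0 75 6 2 9) y).a2) = fun y => (bl y).a2 := ⟨by kernel_rfl, by kernel_rfl⟩
theorem eq3 : ((fun a b x o => (genStep (symMat (gensOf 10 1 1 0) 9 1 10 0 0 75 6 2 9) a b x o).a3) = fun a b x o => (st a b x o).a3) ∧
    (fun y => (genBuild (symMat (gensOf 10 1 1 0) 9 1 10 0 0 75 6 2 9) y).a3) = fun y => (bl y).a3 := ⟨by kernel_rfl, by kernel_rfl⟩
theorem eq4 : ((fun a b x o => (genStep (symMat (gensOf 10 1 1 0) 9 1 10 0 0 75 6 2 9) a b x o).a4) = fun a b x o => (st a b x o).a4) ∧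
    (fun y => (genBuild (symMat (gensOf 10 1 1 0) 9 1 10 0 0 75 6 2 9) y).a4) = fun y => (bl y).a4 := ⟨by kernel_rfl, by kernel_rfl⟩
theorem eq5 : ((fun a b x o => (genStep (symMat (gensOf 10 1 1 0) 9 1 10 0 0 75 6 2 9) a b x o).a5) = fun a b x o => (st a b x o).a5) ∧
    (fun y => (genBuild (symMat (gensOf 10 1 1 0) 9 1 10 0 0 75 6 2 9) y).a5) = fun y => (bl y).a5 := ⟨by kernel_rfl, by kernel_rfl⟩
theorem eq6 : ((fun a b x o => (genStep (symMat (gensOf 10 1 1 0) 9 1 10 0 0 75 6 2 9) a b x o).a6) = fun a b x o => (st a b x o).a6) ∧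
    (fun y => (genBuild (symMat (gensOf 10 1 1 0) 9 1 10 0 0 75 6 2 9) y).a6) = fun y => (bl y).a6 := ⟨by kernel_rfl, by kernel_rfl⟩
theorem eq7 : ((fun a b x o => (genStep (symMat (gensOf 10 1 1 0) 9 1 10 0 0 75 6 2 9) a b x o).a7) = fun a b x o => (st a b x o).a7) ∧
    (fun y => (genBuild (symMat (gensOf 10 1 1 0) 9 1 10 0 0 75 6 2 9) y).a7) = fun y => (bl y).a7 := ⟨by kernel_rfl, by kernel_rfl⟩
theorem eq8 : ((fun a b x o => (genStep (symMat (gensOf 10 1 1 0) 9 1 10 0 0 75 6 2 9) a b x o).a8) = fun a b x o => (st a b x o).a8) ∧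
    (fun y => (genBuild (symMat (gensOf 10 1 1 0) 9 1 10 0 0 75 6 2 9) y).a8) = fun y => (bl y).a8 := ⟨by kernel_rfl, by kernel_rfl⟩
theorem eqs : genStep (symMat (gensOf 10 1 1 0) 9 1 10 0 0 75 6 2 9) = st ∧ genBuild (symMat (gensOf 10 1 1 0) 9 1 10 0 0 75 6 2 9) = bl := both_ext _ _ _ _ eq0 eq1 eq2 eq3 eq4 eq5 eq6 eq7 eq8
theorem st_eq : genStep (symMat (gensOf 10 1 1 0) 9 1 10 0 0 75 6 2 9) = st := eqs.1
theorem bl_eq : genBuild (symMat (gensOf 10 1 1 0) 9 1 10 0 0 75 6 2 9) = bl := eqs.2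
end Rb10s9c0

end Crest.Agent.R347.Eng
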