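import Crest.Agent.R347.D.Tab

/-! Row 347: runs of the kernel engine (computer generated) -/

set_option autoImplicit false
set_option Elab.async false
set_option maxRecDepth 100000

namespace Crest.Agent.R347.Eng

namespace MR16
noncomputable def st : Nat → Nat → T 4 → T 4 → T 4 := by mpsf_step rN rQ / 18 3 3 16 4 28 4
noncomputable def bl : (Nat → Nat) → T 4 := by mps_build rN rQ / 18 3 3 16 4 28 4
theorem bl_eq : genBuild (mpsMatF rA rW rQ 18 16 4 28 4) = bl := by kernel_rfl
theorem st_eq0 : (fun a b x o => (genStep (mpsMatF rA rW rQ 18 16 4 28 4) a b x o).a0) = fun a b x o => (st a b x o).a0 := by kernel_rfl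
theorem st_eq1 : (fun a b x o => (genStep (mpsMatF rA rW rQ 18 16 4 28 4) a b x o).a1) = fun a b x o => (st a b x o).a1 := by kernel_rfl
theorem st_eq2 : (fun a b x o => (genStep (mpsMatF rA rW rQ 18 16 4 28 4) a b x o).a2) = fun a b x o => (st a b x o).a2 := by kernel_rfl
theorem st_eq3 : (fun a b x o => (genStep (mpsMatF rA rW rQ 18 16 4 28 4) a b x o).a3) = fun a b x o => (st a b x o).a3 := by kernel_rfl
theorem st_eq4 : (fun a b x o => (genStep (mpsMatF rA rW rQ 18 16 4 28 4) a b x o).a4) = fun a b x o => (st a b x o).a4 := by kernel_rfl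
theorem st_eq5 : (fun a b x o => (genStep (mpsMatF rA rW rQ 18 16 4 28 4) a b x o).a5) = fun a b x o => (st a b x o).a5 := by kernel_rfl
theorem st_eq6 : (fun a b x o => (genStep (mpsMatF rA rW rQ 18 16 4 28 4) a b x o).a6) = fun a b x o => (st a b x o).a6 := by kernel_rfl
theorem st_eq7 : (fun a b x o => (genStep (mpsMatF rA rW rQ 18 16 4 28 4) a b x o).a7) = fun a b x o => (st a b x o).a7 := by kernel_rfl
theorem st_eq8 : (fun a b x o => (genStep (mpsMatF rA rW rQ 18 16 4 28 4) a b x o).a8) = fun a b x o => (st a b x o).a8 := by kernel_rfl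
theorem st_eq : genStep (mpsMatF rA rW rQ 18 16 4 28 4) = st := step_ext _ _ st_eq0 st_eq1 st_eq2 st_eq3 st_eq4 st_eq5 st_eq6 st_eq7 st_eq8
theorem rows0 : rowsLe rA rW rQ 18 16 2138033792 0 756 = true := by kernel_rfl
theorem rows1 : rowsLe rA rW rQ 18 16 2138033792 756 756 = true := by kernel_rfl
theorem rows2 : rowsLe rA rW rQ 18 16 2138033792 1512 756 = true := by kernel_rfl
end MR16

end Crest.Agent.R347.Eng
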