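import Crest.Agent.R347.EngS
import Crest.Agent.R347.D.F100

/-! Row 347: runs of the kernel engine (computer generated) -/

set_option autoImplicit false
set_option Elab.async false
set_option maxRecDepth 100000

namespace Crest.Agent.R347.Eng

namespace Rb10g10
theorem g0 : goodOK 10 10 (gensOf 10 1 7 0) 4 0 = true := by kernel_rfl
theorem g1 : goodOK 10 10 (gensOf 10 1 7 0) 4 1 = true := by kernel_rfl
theorem g2 : goodOK 10 10 (gensOf 10 1 7 0) 4 2 = true := by kernel_rfl
theorem g3 : goodOK 10 10 (gensOf 10 1 7 0) 4 3 = true := by kernel_rfl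
theorem g4 : goodOK 10 10 (gensOf 10 1 7 0) 4 4 = true := by kernel_rfl
theorem g5 : goodOK 10 10 (gensOf 10 1 7 0) 4 5 = true := by kernel_rfl
theorem g6 : goodOK 10 10 (gensOf 10 1 7 0) 4 6 = true := by kernel_rfl
theorem g7 : goodOK 10 10 (gensOf 10 1 7 0) 4 7 = true := by kernel_rfl
theorem g8 : goodOK 10 10 (gensOf 10 1 7 0) 4 8 = true := by kernel_rfl
end Rb10g10

end Crest.Agent.R347.Eng
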