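import Crest.Agent.R347.D.Par
import Crest.Agent.R347.D.F035
import Crest.Agent.R347.D.F036
import Crest.Agent.R347.D.F040
import Crest.Agent.R347.D.F047
import Crest.Agent.R347.D.F048
import Crest.Agent.R347.D.F049
import Crest.Agent.R347.D.F071
import Crest.Agent.R347.D.F076
import Crest.Agent.R347.D.F099
import Crest.Agent.R347.D.F100
import Crest.Agent.R347.D.F101

/-! Row 347: the moments (computer generated) -/

set_option autoImplicit false
set_option Elab.async false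
set_option maxRecDepth 100000

namespace Crest.Agent.R347.Eng

namespace Ra9
def S9 : Sec := ⟨9, 5, [(18, 161), (36, 215), (18, 233), (18, 377), (36, 395), (36, 401), (18, 403), (36, 431), (36, 449), (36, 455), (36, 457), (36, 467), (36, 473), (18, 479), (36, 557), (36, 563), (18, 593), (36, 611), (36, 617), (36, 629), (36, 665), (18, 881), (36, 887), (36, 935), (36, 941), (18, 943), (36, 953), (36, 959), (18, 1097), (36, 1103), (18, 1105), (36, 1115), (36, 1121), (36, 1123), (18, 1127), (18, 1129), (36, 1151), (36, 1157), (36, 1159), (36, 1169), (36, 1175), (36, 1177), (36, 1181), (18, 1183), (18, 1193), (36, 1195), (36, 1265), (18, 1267), (36, 1277), (36, 1283), (36, 1285), (36, 1289), (18, 1313), (36, 1319), (36, 1321), (36, 1331), (36, 1337), (18, 1339), (36, 1343), (36, 1355), (36, 1361), (18, 1385), (18, 1391), (18, 1397), (36, 1589), (18, 1601), (36, 1607), (36, 1643), (36, 1655), (36, 1661), (18, 1667), (18, 1679), (36, 1751),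 (36, 1769), (36, 1805), (18, 1817), (18, 1823), (18, 1871), (18, 2561), (36, 2579), (18, 2581), (36, 2615), (36, 2633), (18, 2635), (18, 2639), (36, 2741), (18, 2777), (18, 2795), (18, 3065), (18, 3119), (18, 3281), (18, 3283), (18, 3287), (18, 3289), (18, 3299), (36, 3301), (18, 3307), (18, 3335), (36, 3337), (18, 3341), (36, 3343), (18, 3355), (18, 3445), (36, 3449), (36, 3451), (36, 3463), (18, 3467), (18, 3499), (6, 3785), (36, 3787), (18, 3823), (18, 3827), (1, 9841)],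
  [(0, [Ra9j9c0x0.job]), (1, [Ra9j9c1x0.job]), (4, [Ra9j9c4x0.job]), (5, [Ra9j9c5x0.job])]⟩
theorem c9 : ∀ b ∈ S9.blks, ∀ J ∈ b.2, check (P.smat S9.lo S9.mode b.1) J = true :=
  List.forall_mem_cons.2 ⟨List.forall_mem_cons.2 ⟨Ra9j9c0x0.ok, List.forall_mem_nil _⟩, List.forall_mem_cons.2 ⟨List.forall_mem_cons.2 ⟨Ra9j9c1x0.ok, List.forall_mem_nil _⟩, List.forall_mem_cons.2 ⟨List.forall_mem_cons.2 ⟨Ra9j9c4x0.ok, List.forall_mem_nil _⟩, List.forall_mem_cons.2 ⟨List.forall_mem_cons.2 ⟨Ra9j9c5x0.ok, List.forall_mem_nil _⟩, List.forall_mem_nil _⟩⟩⟩⟩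
theorem g9 : Good (fun c => okS (P.l + 1) S9.lo c = true) (P.gens S9.mode 0) :=
  good_nine Ra9g9.g0 Ra9g9.g1 Ra9g9.g2 Ra9g9.g3 Ra9g9.g4 Ra9g9.g5 Ra9g9.g6 Ra9g9.g7 Ra9g9.g8 (by decide +kernel)
theorem w9 : S9.wf P = true := by kernel_rfl
def S8 : Sec := ⟨8, 1, [(18, 80), (36, 134), (36, 152), (36, 158), (18, 160), (36, 188), (36, 206), (18, 212), (18, 224), (36, 296), (36, 314), (36, 320), (36, 322), (36, 350), (36, 368), (36, 374), (36, 376), (36, 386), (36, 392), (36, 394), (36, 398), (18, 400), (36, 422), (36, 428), (36, 430), (36, 440), (36, 446), (18, 448), (36, 452), (36, 464), (36, 470), (36, 512), (36, 530), (36, 536), (36, 548), (36, 554), (18, 560), (36, 584), (36, 590), (36, 602), (18, 608), (18, 656), (36, 782), (36, 800), (36, 836), (36, 854), (36, 860), (36, 862), (36, 872), (36, 878), (36, 880), (36, 884), (36, 886), (36, 908), (36, 914), (36, 916), (36, 926), (36, 932), (36, 934), (36, 938), (36, 940), (36, 950), (36, 952),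 (36, 956), (36, 958), (18, 964), (18, 998), (36, 1016), (36, 1022), (36, 1024), (36, 1034), (36, 1040), (36, 1042), (36, 1046), (36, 1048), (36, 1070), (36, 1076), (36, 1078), (36, 1088), (36, 1094), (36, 1096), (36, 1100), (36, 1102), (36, 1112), (36, 1114), (36, 1118), (18, 1120), (36, 1142), (36, 1148), (36, 1150), (36, 1154), (18, 1156), (36, 1166), (36, 1168), (36, 1172), (36, 1190), (36, 1232), (36, 1238), (36, 1240), (36, 1250), (36, 1256), (36, 1258), (36, 1262), (36, 1274), (18, 1276), (36, 1280), (18, 1304), (36, 1310), (18, 1312), (36, 1316), (36, 1328), (36, 1334), (36, 1352), (36, 1388), (18, 1406), (36, 1520), (18, 1526), (36, 1556), (36, 1562), (36, 1574), (36, 1580), (36, 1586), (36, 1598), (18, 1604), (18, 1628), (36, 1634), (18, 1640), (36, 1652), (36, 1736), (36, 1742), (18, 1760), (18, 1796), (36, 2474), (36, 2480), (18, 2482), (36, 2492), (18, 2498), (36, 2528), (36, 2534), (36, 2536), (36, 2546), (36, 2552), (36,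 2554), (36, 2558), (36, 2560), (36, 2570), (36, 2572), (36, 2576), (36, 2606), (36, 2608), (36, 2612), (36, 2624), (36, 2630), (18, 2708), (36, 2714), (36, 2720), (36, 2732), (36, 2768), (18, 3032), (36, 3038), (36, 3040), (36, 3044), (18, 3046), (36, 3056), (18, 3058), (36, 3062), (36, 3092), (18, 3098), (18, 3110), (36, 3200), (36, 3202), (36, 3206), (36, 3218), (36, 3254), (18, 3256), (18, 3260), (36, 3272), (18, 3278), (18, 3280)],
  [(0, [Ra9j8c0x0.job, Ra9j8c0x1.job]), (1, [Ra9j8c1x0.job, Ra9j8c1x1.job])]⟩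
theorem c8 : ∀ b ∈ S8.blks, ∀ J ∈ b.2, check (P.smat S8.lo S8.mode b.1) J = true :=
  List.forall_mem_cons.2 ⟨List.forall_mem_cons.2 ⟨Ra9j8c0x0.ok, List.forall_mem_cons.2 ⟨Ra9j8c0x1.ok, List.forall_mem_nil _⟩⟩, List.forall_mem_cons.2 ⟨List.forall_mem_cons.2 ⟨Ra9j8c1x0.ok, List.forall_mem_cons.2 ⟨Ra9j8c1x1.ok, List.forall_mem_nil _⟩⟩, List.forall_mem_nil _⟩⟩
theorem g8 : Good (fun c => okS (P.l + 1) S8.lo c = true) (P.gens S8.mode 0) :=
  good_one Ra9g8.g (by decide +kernel)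
theorem w8 : S8.wf P = true := by kernel_rfl
def S7 : Sec := ⟨7, 1, [(36, 53), (36, 71), (36, 107), (36, 125), (36, 131), (36, 133), (36, 143), (36, 149), (18, 151), (36, 155), (36, 179), (36, 185), (36, 197), (18, 203), (36, 269), (36, 287), (36, 293), (36, 295), (36, 305), (36, 311), (36, 313), (36, 317), (36, 319), (36, 341), (36, 347), (36, 349), (36, 359), (36, 365), (36, 367), (36, 371), (36, 373), (36, 383), (36, 385), (36, 389), (36, 413), (36, 419), (36, 421), (36, 425), (36, 437), (36, 443), (36, 461), (36, 503), (36, 509), (36, 521), (36, 527), (36, 533), (36, 545), (36, 575), (36, 581), (36, 773), (36, 779), (18, 781), (36, 791), (18, 797), (36, 827), (36, 833), (36, 835), (36, 845), (36, 851), (36, 853), (36, 857), (36, 859), (36, 869), (36, 871), (36, 875), (36, 877), (36, 883), (36, 899), (36, 905), (36, 907), (36, 911), (36, 913), (36, 923), (36, 925), (36, 929), (36, 931), (18, 937), (36, 947), (36, 949), (36, 989), (18,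 995), (36, 1007), (36, 1013), (36, 1015), (36, 1019), (36, 1021), (36, 1031), (36, 1033), (36, 1037), (36, 1039), (18, 1061), (36, 1067), (36, 1069), (36, 1073), (36, 1075), (36, 1085), (36, 1087), (36, 1091), (18, 1093), (36, 1109), (36, 1139), (36, 1141), (36, 1145), (36, 1163), (36, 1231), (36, 1235), (36, 1247), (18, 1249), (36, 1253), (36, 1271), (36, 1307), (36, 1517), (36, 1553), (36, 1559), (36, 1571), (18, 1577), (18, 1733), (18, 2465), (36, 2471), (36, 2473), (36, 2477), (36, 2489), (36, 2525), (36, 2527), (36, 2531), (36, 2533), (36, 2543), (36, 2545), (36, 2549), (18, 2551), (36, 2603), (18, 2711), (36, 3029), (36, 3035), (18, 3037), (18, 3199)],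
  [(0, [Ra9j7c0x0.job, Ra9j7c0x1.job]), (1, [Ra9j7c1x0.job, Ra9j7c1x1.job])]⟩
theorem c7 : ∀ b ∈ S7.blks, ∀ J ∈ b.2, check (P.smat S7.lo S7.mode b.1) J = true :=
  List.forall_mem_cons.2 ⟨List.forall_mem_cons.2 ⟨Ra9j7c0x0.ok, List.forall_mem_cons.2 ⟨Ra9j7c0x1.ok, List.forall_mem_nil _⟩⟩, List.forall_mem_cons.2 ⟨List.forall_mem_cons.2 ⟨Ra9j7c1x0.ok, List.forall_mem_cons.2 ⟨Ra9j7c1x1.ok, List.forall_mem_nil _⟩⟩, List.forall_mem_nil _⟩⟩
theorem g7 : Good (fun c => okS (P.l + 1) S7.lo c = true) (P.gens S7.mode 0) :=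
  good_one Ra9g7.g (by decide +kernel)
theorem w7 : S7.wf P = true := by kernel_rfl
def S6 : Sec := ⟨6, 1, [(18, 26), (36, 44), (36, 50), (18, 52), (36, 62), (18, 68), (36, 98), (36, 104), (36, 106), (36, 116), (36, 122), (36, 124), (36, 128), (18, 130), (36, 140), (18, 142), (36, 146), (36, 170), (36, 176), (18, 182), (18, 194), (36, 260), (36, 266), (36, 268), (36, 278), (36, 284), (36, 286), (36, 290), (36, 292), (36, 302), (36, 304), (36, 308), (36, 310), (18, 316), (36, 332), (36, 338), (36, 340), (36, 344), (36, 346), (36, 356), (36, 358), (36, 362), (18, 364), (36, 380), (36, 410), (18, 412), (36, 416), (36, 434), (18, 494), (36, 500), (36, 506), (36, 518), (18, 524), (18, 572), (36, 764), (36, 770), (36, 772), (36, 776), (36, 788), (18, 818), (36, 824), (36, 826), (36, 830), (36, 832), (36, 842), (36, 844), (36, 848), (36, 850), (36, 856), (36, 866), (36, 868), (18, 874), (36, 896), (36, 898), (36, 902), (36, 904), (18, 910), (36,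 920), (36, 922), (36, 986), (18, 988), (18, 992), (36, 1004), (36, 1006), (36, 1010), (36, 1012), (36, 1028), (18, 1030), (36, 1058), (36, 1064), (18, 1066), (18, 1082), (6, 1514), (18, 1550), (36, 2462), (36, 2468), (18, 2470), (18, 2522), (36, 2524), (6, 3028)],
  [(0, [Ra9j6c0x0.job]), (1, [Ra9j6c1x0.job])]⟩
theorem c6 : ∀ b ∈ S6.blks, ∀ J ∈ b.2, check (P.smat S6.lo S6.mode b.1) J = true :=
  List.forall_mem_cons.2 ⟨List.forall_mem_cons.2 ⟨Ra9j6c0x0.ok, List.forall_mem_nil _⟩, List.forall_mem_cons.2 ⟨List.forall_mem_cons.2 ⟨Ra9j6c1x0.ok, List.forall_mem_nil _⟩, List.forall_mem_nil _⟩⟩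
theorem g6 : Good (fun c => okS (P.l + 1) S6.lo c = true) (P.gens S6.mode 0) :=
  good_one Ra9g6.g (by decide +kernel)
theorem w6 : S6.wf P = true := by kernel_rfl
def S5 : Sec := ⟨5, 0, [(36, 17), (18, 23), (36, 35), (36, 41), (36, 43), (36, 47), (36, 59), (36, 89), (36, 95), (36, 97), (36, 101), (36, 103), (36, 113), (36, 115), (36, 119), (18, 121), (36, 137), (36, 167), (18, 173), (18, 251), (36, 257), (36, 259), (36, 263), (36, 265), (36, 275), (36, 277), (36, 281), (36, 283), (36, 289), (36, 299), (36, 301), (36, 329), (36, 331), (36, 335), (36, 337), (36, 353), (36, 407), (36, 497), (36, 761), (36, 763), (36, 767), (18, 769), (18, 785), (36, 815), (36, 821), (36, 823), (36, 829), (36, 839), (36, 841), (18, 847), (36, 895), (18, 985), (18, 1003), (18, 2461)],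
  [(0, [Ra9j5c0x0.job])]⟩
theorem c5 : ∀ b ∈ S5.blks, ∀ J ∈ b.2, check (P.smat S5.lo S5.mode b.1) J = true :=
  List.forall_mem_cons.2 ⟨List.forall_mem_cons.2 ⟨Ra9j5c0x0.ok, List.forall_mem_nil _⟩, List.forall_mem_nil _⟩
theorem g5 : Good (fun c => okS (P.l + 1) S5.lo c = true) (P.gens S5.mode 0) :=
  fun _ h => absurd h List.not_mem_nil
theorem w5 : S5.wf P = true := by kernel_rfl
def S4 : Sec := ⟨4, 0, [(18, 8), (36, 14), (18, 16), (18, 20), (36, 32), (36, 34), (36, 38), (18, 40), (18, 56), (36, 86), (36, 88), (36, 92), (36, 94), (18, 100), (36, 110), (18, 112), (18, 164), (36, 248), (36, 254), (36, 256), (36, 262), (36, 272), (36, 274), (18, 280), (18, 326), (18, 328), (18, 758), (36, 760), (18, 814), (18, 820)],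
  [(0, [Ra9j4c0x0.job])]⟩
theorem c4 : ∀ b ∈ S4.blks, ∀ J ∈ b.2, check (P.smat S4.lo S4.mode b.1) J = true :=
  List.forall_mem_cons.2 ⟨List.forall_mem_cons.2 ⟨Ra9j4c0x0.ok, List.forall_mem_nil _⟩, List.forall_mem_nil _⟩
theorem g4 : Good (fun c => okS (P.l + 1) S4.lo c = true) (P.gens S4.mode 0) :=
  fun _ h => absurd h List.not_mem_nil
theorem w4 : S4.wf P = true := by kernel_rfl
def S3 : Sec := ⟨3, 0, [(36, 5), (36, 11), (18, 13), (36, 29), (36, 31), (36, 83), (36, 85), (18, 91), (18, 247), (36, 253), (6, 757)],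
  [(0, [Ra9j3c0x0.job])]⟩
theorem c3 : ∀ b ∈ S3.blks, ∀ J ∈ b.2, check (P.smat S3.lo S3.mode b.1) J = true :=
  List.forall_mem_cons.2 ⟨List.forall_mem_cons.2 ⟨Ra9j3c0x0.ok, List.forall_mem_nil _⟩, List.forall_mem_nil _⟩
theorem g3 : Good (fun c => okS (P.l + 1) S3.lo c = true) (P.gens S3.mode 0) :=
  fun _ h => absurd h List.not_mem_nil
theorem w3 : S3.wf P = true := by kernel_rfl
def S2 : Sec := ⟨2, 0, [(18, 2), (18, 4), (18, 10), (18, 28), (18, 82)],
  [(0, [Ra9j2c0x0.job])]⟩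
theorem c2 : ∀ b ∈ S2.blks, ∀ J ∈ b.2, check (P.smat S2.lo S2.mode b.1) J = true :=
  List.forall_mem_cons.2 ⟨List.forall_mem_cons.2 ⟨Ra9j2c0x0.ok, List.forall_mem_nil _⟩, List.forall_mem_nil _⟩
theorem g2 : Good (fun c => okS (P.l + 1) S2.lo c = true) (P.gens S2.mode 0) :=
  fun _ h => absurd h List.not_mem_nil
theorem w2 : S2.wf P = true := by kernel_rfl
def S1 : Sec := ⟨1, 0, [(18, 1)],
  [(0, [Ra9j1c0x0.job])]⟩
theorem c1 : ∀ b ∈ S1.blks, ∀ J ∈ b.2, check (P.smat S1.lo S1.mode b.1) J = true :=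
  List.forall_mem_cons.2 ⟨List.forall_mem_cons.2 ⟨Ra9j1c0x0.ok, List.forall_mem_nil _⟩, List.forall_mem_nil _⟩
theorem g1 : Good (fun c => okS (P.l + 1) S1.lo c = true) (P.gens S1.mode 0) :=
  fun _ h => absurd h List.not_mem_nil
theorem w1 : S1.wf P = true := by kernel_rfl
def S0 : Sec := ⟨0, 0, [(2, 0)],
  [(0, [Ra9j0c0x0.job])]⟩
theorem c0 : ∀ b ∈ S0.blks, ∀ J ∈ b.2, check (P.smat S0.lo S0.mode b.1) J = true :=
  List.forall_mem_cons.2 ⟨List.forall_mem_cons.2 ⟨Ra9j0c0x0.ok, List.forall_mem_nil _⟩, List.forall_mem_nil _⟩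
theorem g0 : Good (fun c => okS (P.l + 1) S0.lo c = true) (P.gens S0.mode 0) :=
  fun _ h => absurd h List.not_mem_nil
theorem w0 : S0.wf P = true := by kernel_rfl
def ss : List Sec := [S9, S8, S7, S6, S5, S4, S3, S2, S1, S0]
theorem hs : ∀ S ∈ ss, S.OK P :=
  List.forall_mem_cons.2 ⟨⟨c9, g9, w9⟩, List.forall_mem_cons.2 ⟨⟨c8, g8, w8⟩, List.forall_mem_cons.2 ⟨⟨c7, g7, w7⟩, List.forall_mem_cons.2 ⟨⟨c6, g6, w6⟩, List.forall_mem_cons.2 ⟨⟨c5, g5, w5⟩, List.forall_mem_cons.2 ⟨⟨c4, g4, w4⟩, List.forall_mem_cons.2 ⟨⟨c3, g3, w3⟩, List.forall_mem_cons.2 ⟨⟨c2, g2, w2⟩, List.forall_mem_cons.2 ⟨⟨c1, g1, w1⟩, List.forall_mem_cons.2 ⟨⟨c0, g0, w0⟩, List.forall_mem_nil _⟩⟩⟩⟩⟩⟩⟩⟩⟩⟩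
theorem cov : cover (P.l + 1) true (ss.flatMap fun S => S.cols) 0 = true := by kernel_rfl
theorem e1 : (List.range (P.K + 1)).map (tot1 ss P.s) = V1 :=
  tot1_fast (by kernel_rfl) (by decide +kernel)
theorem m1 : Mom P.up.A 1 P.up.F V1 P.up.err := e1 ▸ (moments2 P ok ss hs cov (P.spec2 ok1)).1
theorem eZ : (List.range (P.K + 1)).map (totZ ss (P.l + 1) P.s) = VZ :=
  totZ_fast (by kernel_rfl) (by decide +kernel)
theorem mZ : Mom P.up.A (tens (P.up.l + 1) (rot (some 2))) P.up.F VZ P.up.err :=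
  eZ ▸ (moments2 P ok ss hs cov (P.spec2 ok1)).2.1
end Ra9

namespace Rb9
def S9 : Sec := ⟨9, 5, [(18, 161), (36, 215), (18, 233), (18, 377), (36, 395), (36, 401), (18, 403), (36, 431), (36, 449), (36, 455), (36, 457), (36, 467), (36, 473), (18, 479), (36, 557), (36, 563), (18, 593), (36, 611), (36, 617), (36, 629), (36, 665), (18, 881), (36, 887), (36, 935), (36, 941), (18, 943), (36, 953), (36, 959), (18, 1097), (36, 1103), (18, 1105), (36, 1115), (36, 1121), (36, 1123), (18, 1127), (18, 1129), (36, 1151), (36, 1157), (36, 1159), (36, 1169), (36, 1175), (36, 1177), (36, 1181), (18, 1183), (18, 1193), (36, 1195), (36, 1265), (18, 1267), (36, 1277), (36, 1283), (36, 1285), (36, 1289), (18, 1313), (36, 1319), (36, 1321), (36, 1331), (36, 1337), (18, 1339), (36, 1343), (36, 1355), (36, 1361), (18, 1385), (18, 1391), (18, 1397), (36, 1589), (18, 1601), (36, 1607), (36, 1643), (36, 1655), (36, 1661), (18, 1667), (18, 1679), (36, 1751), (36,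 1769), (36, 1805), (18, 1817), (18, 1823), (18, 1871), (18, 2561), (36, 2579), (18, 2581), (36, 2615), (36, 2633), (18, 2635), (18, 2639), (36, 2741), (18, 2777), (18, 2795), (18, 3065), (18, 3119), (18, 3281), (18, 3283), (18, 3287), (18, 3289), (18, 3299), (36, 3301), (18, 3307), (18, 3335), (36, 3337), (18, 3341), (36, 3343), (18, 3355), (18, 3445), (36, 3449), (36, 3451), (36, 3463), (18, 3467), (18, 3499), (6, 3785), (36, 3787), (18, 3823), (18, 3827), (1, 9841)],
  [(0, [Rb9j9c0x0.job]), (1, [Rb9j9c1x0.job]), (4, [Rb9j9c4x0.job]), (5, [Rb9j9c5x0.job])]⟩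
theorem c9 : ∀ b ∈ S9.blks, ∀ J ∈ b.2, check (P.smat S9.lo S9.mode b.1) J = true :=
  List.forall_mem_cons.2 ⟨List.forall_mem_cons.2 ⟨Rb9j9c0x0.ok, List.forall_mem_nil _⟩, List.forall_mem_cons.2 ⟨List.forall_mem_cons.2 ⟨Rb9j9c1x0.ok, List.forall_mem_nil _⟩, List.forall_mem_cons.2 ⟨List.forall_mem_cons.2 ⟨Rb9j9c4x0.ok, List.forall_mem_nil _⟩, List.forall_mem_cons.2 ⟨List.forall_mem_cons.2 ⟨Rb9j9c5x0.ok, List.forall_mem_nil _⟩, List.forall_mem_nil _⟩⟩⟩⟩
theorem g9 : Good (fun c => okS (P.l + 1) S9.lo c = true) (P.gens S9.mode 0) :=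
  good_nine Rb9g9.g0 Rb9g9.g1 Rb9g9.g2 Rb9g9.g3 Rb9g9.g4 Rb9g9.g5 Rb9g9.g6 Rb9g9.g7 Rb9g9.g8 (by decide +kernel)
theorem w9 : S9.wf P = true := by kernel_rfl
def S8 : Sec := ⟨8, 1, [(18, 80), (36, 134), (36, 152), (36, 158), (18, 160), (36, 188), (36, 206), (18, 212), (18, 224), (36, 296), (36, 314), (36, 320), (36, 322), (36, 350), (36, 368), (36, 374), (36, 376), (36, 386), (36, 392), (36, 394), (36, 398), (18, 400), (36, 422), (36, 428), (36, 430), (36, 440), (36, 446), (18, 448), (36, 452), (36, 464), (36, 470), (36, 512), (36, 530), (36, 536), (36, 548), (36, 554), (18, 560), (36, 584), (36, 590), (36, 602), (18, 608), (18, 656), (36, 782), (36, 800), (36, 836), (36, 854), (36, 860), (36, 862), (36, 872), (36, 878), (36, 880), (36, 884), (36, 886), (36, 908), (36, 914), (36, 916), (36, 926), (36, 932), (36, 934), (36, 938), (36, 940), (36, 950), (36, 952), (36, 956), (36, 958), (18, 964), (18, 998), (36, 1016), (36, 1022), (36, 1024),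 (36, 1034), (36, 1040), (36, 1042), (36, 1046), (36, 1048), (36, 1070), (36, 1076), (36, 1078), (36, 1088), (36, 1094), (36, 1096), (36, 1100), (36, 1102), (36, 1112), (36, 1114), (36, 1118), (18, 1120), (36, 1142), (36, 1148), (36, 1150), (36, 1154), (18, 1156), (36, 1166), (36, 1168), (36, 1172), (36, 1190), (36, 1232), (36, 1238), (36, 1240), (36, 1250), (36, 1256), (36, 1258), (36, 1262), (36, 1274), (18, 1276), (36, 1280), (18, 1304), (36, 1310), (18, 1312), (36, 1316), (36, 1328), (36, 1334), (36, 1352), (36, 1388), (18, 1406), (36, 1520), (18, 1526), (36, 1556), (36, 1562), (36, 1574), (36, 1580), (36, 1586), (36, 1598), (18, 1604), (18, 1628), (36, 1634), (18, 1640), (36, 1652), (36, 1736), (36, 1742), (18, 1760), (18, 1796), (36, 2474), (36, 2480), (18, 2482), (36, 2492), (18, 2498), (36, 2528), (36, 2534), (36, 2536), (36, 2546), (36, 2552), (36, 2554), (36, 2558), (36, 2560), (36, 2570), (36, 2572), (36, 2576), (36, 2606), (36,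 2608), (36, 2612), (36, 2624), (36, 2630), (18, 2708), (36, 2714), (36, 2720), (36, 2732), (36, 2768), (18, 3032), (36, 3038), (36, 3040), (36, 3044), (18, 3046), (36, 3056), (18, 3058), (36, 3062), (36, 3092), (18, 3098), (18, 3110), (36, 3200), (36, 3202), (36, 3206), (36, 3218), (36, 3254), (18, 3256), (18, 3260), (36, 3272), (18, 3278), (18, 3280)],
  [(0, [Rb9j8c0x0.job, Rb9j8c0x1.job]), (1, [Rb9j8c1x0.job, Rb9j8c1x1.job])]⟩
theorem c8 : ∀ b ∈ S8.blks, ∀ J ∈ b.2, check (P.smat S8.lo S8.mode b.1) J = true :=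
  List.forall_mem_cons.2 ⟨List.forall_mem_cons.2 ⟨Rb9j8c0x0.ok, List.forall_mem_cons.2 ⟨Rb9j8c0x1.ok, List.forall_mem_nil _⟩⟩, List.forall_mem_cons.2 ⟨List.forall_mem_cons.2 ⟨Rb9j8c1x0.ok, List.forall_mem_cons.2 ⟨Rb9j8c1x1.ok, List.forall_mem_nil _⟩⟩, List.forall_mem_nil _⟩⟩
theorem g8 : Good (fun c => okS (P.l + 1) S8.lo c = true) (P.gens S8.mode 0) :=
  good_one Rb9g8.g (by decide +kernel)
theorem w8 : S8.wf P = true := by kernel_rfl
def S7 : Sec := ⟨7, 1, [(36, 53), (36, 71), (36, 107), (36, 125), (36, 131), (36, 133), (36, 143), (36, 149), (18, 151), (36, 155), (36, 179), (36, 185), (36, 197), (18, 203), (36, 269), (36, 287), (36, 293), (36, 295), (36, 305), (36, 311), (36, 313), (36, 317), (36, 319), (36, 341), (36, 347), (36, 349), (36, 359), (36, 365), (36, 367), (36, 371), (36, 373), (36, 383), (36, 385), (36, 389), (36, 413), (36, 419), (36, 421), (36, 425), (36, 437), (36, 443), (36, 461), (36, 503), (36, 509), (36, 521), (36,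 527), (36, 533), (36, 545), (36, 575), (36, 581), (36, 773), (36, 779), (18, 781), (36, 791), (18, 797), (36, 827), (36, 833), (36, 835), (36, 845), (36, 851), (36, 853), (36, 857), (36, 859), (36, 869), (36, 871), (36, 875), (36, 877), (36, 883), (36, 899), (36, 905), (36, 907), (36, 911), (36, 913), (36, 923), (36, 925), (36, 929), (36, 931), (18, 937), (36, 947), (36, 949), (36, 989), (18, 995), (36, 1007), (36, 1013), (36, 1015), (36, 1019), (36, 1021), (36, 1031), (36, 1033), (36, 1037), (36, 1039), (18, 1061), (36, 1067), (36, 1069), (36, 1073), (36, 1075), (36, 1085), (36, 1087), (36, 1091), (18, 1093), (36, 1109), (36, 1139), (36, 1141), (36, 1145), (36, 1163), (36, 1231), (36, 1235), (36, 1247), (18, 1249), (36, 1253), (36, 1271), (36, 1307), (36, 1517), (36, 1553), (36, 1559), (36, 1571), (18, 1577), (18, 1733), (18, 2465), (36, 2471), (36, 2473), (36, 2477), (36, 2489), (36, 2525), (36, 2527), (36, 2531), (36, 2533), (36, 2543),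 (36, 2545), (36, 2549), (18, 2551), (36, 2603), (18, 2711), (36, 3029), (36, 3035), (18, 3037), (18, 3199)],
  [(0, [Rb9j7c0x0.job, Rb9j7c0x1.job]), (1, [Rb9j7c1x0.job, Rb9j7c1x1.job])]⟩
theorem c7 : ∀ b ∈ S7.blks, ∀ J ∈ b.2, check (P.smat S7.lo S7.mode b.1) J = true :=
  List.forall_mem_cons.2 ⟨List.forall_mem_cons.2 ⟨Rb9j7c0x0.ok, List.forall_mem_cons.2 ⟨Rb9j7c0x1.ok, List.forall_mem_nil _⟩⟩, List.forall_mem_cons.2 ⟨List.forall_mem_cons.2 ⟨Rb9j7c1x0.ok, List.forall_mem_cons.2 ⟨Rb9j7c1x1.ok, List.forall_mem_nil _⟩⟩, List.forall_mem_nil _⟩⟩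
theorem g7 : Good (fun c => okS (P.l + 1) S7.lo c = true) (P.gens S7.mode 0) :=
  good_one Rb9g7.g (by decide +kernel)
theorem w7 : S7.wf P = true := by kernel_rfl
def S6 : Sec := ⟨6, 1, [(18, 26), (36, 44), (36, 50), (18, 52), (36, 62), (18, 68), (36, 98), (36, 104), (36, 106), (36, 116), (36, 122), (36, 124), (36, 128), (18, 130), (36, 140), (18, 142), (36, 146), (36, 170), (36, 176), (18, 182), (18, 194), (36, 260), (36, 266), (36, 268), (36, 278), (36, 284), (36, 286), (36, 290), (36, 292), (36, 302), (36, 304), (36, 308), (36, 310), (18, 316), (36, 332), (36, 338), (36, 340), (36, 344), (36, 346), (36, 356), (36, 358), (36, 362), (18, 364), (36, 380), (36, 410), (18, 412), (36, 416), (36, 434), (18, 494), (36, 500), (36, 506), (36, 518), (18, 524), (18, 572), (36, 764), (36, 770), (36, 772), (36, 776), (36, 788), (18, 818), (36, 824), (36, 826), (36, 830), (36, 832), (36, 842), (36, 844), (36, 848), (36, 850), (36, 856), (36, 866),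 (36, 868), (18, 874), (36, 896), (36, 898), (36, 902), (36, 904), (18, 910), (36, 920), (36, 922), (36, 986), (18, 988), (18, 992), (36, 1004), (36, 1006), (36, 1010), (36, 1012), (36, 1028), (18, 1030), (36, 1058), (36, 1064), (18, 1066), (18, 1082), (6, 1514), (18, 1550), (36, 2462), (36, 2468), (18, 2470), (18, 2522), (36, 2524), (6, 3028)],
  [(0, [Rb9j6c0x0.job]), (1, [Rb9j6c1x0.job])]⟩
theorem c6 : ∀ b ∈ S6.blks, ∀ J ∈ b.2, check (P.smat S6.lo S6.mode b.1) J = true :=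
  List.forall_mem_cons.2 ⟨List.forall_mem_cons.2 ⟨Rb9j6c0x0.ok, List.forall_mem_nil _⟩, List.forall_mem_cons.2 ⟨List.forall_mem_cons.2 ⟨Rb9j6c1x0.ok, List.forall_mem_nil _⟩, List.forall_mem_nil _⟩⟩
theorem g6 : Good (fun c => okS (P.l + 1) S6.lo c = true) (P.gens S6.mode 0) :=
  good_one Rb9g6.g (by decide +kernel)
theorem w6 : S6.wf P = true := by kernel_rfl
def S5 : Sec := ⟨5, 0, [(36, 17), (18, 23), (36, 35), (36, 41), (36, 43), (36, 47), (36, 59), (36, 89), (36, 95), (36, 97), (36, 101), (36, 103), (36, 113), (36, 115), (36, 119), (18, 121), (36, 137), (36, 167), (18, 173), (18, 251), (36, 257), (36, 259), (36, 263), (36, 265), (36, 275), (36, 277), (36, 281), (36, 283), (36, 289), (36, 299), (36, 301), (36, 329), (36, 331), (36, 335), (36, 337), (36, 353), (36, 407), (36, 497), (36, 761), (36, 763), (36, 767), (18, 769), (18, 785), (36, 815), (36, 821), (36, 823), (36, 829), (36, 839), (36, 841), (18, 847), (36, 895), (18, 985), (18,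 1003), (18, 2461)],
  [(0, [Rb9j5c0x0.job])]⟩
theorem c5 : ∀ b ∈ S5.blks, ∀ J ∈ b.2, check (P.smat S5.lo S5.mode b.1) J = true :=
  List.forall_mem_cons.2 ⟨List.forall_mem_cons.2 ⟨Rb9j5c0x0.ok, List.forall_mem_nil _⟩, List.forall_mem_nil _⟩
theorem g5 : Good (fun c => okS (P.l + 1) S5.lo c = true) (P.gens S5.mode 0) :=
  fun _ h => absurd h List.not_mem_nil
theorem w5 : S5.wf P = true := by kernel_rfl
def S4 : Sec := ⟨4, 0, [(18, 8), (36, 14), (18, 16), (18, 20), (36, 32), (36, 34), (36, 38), (18, 40), (18, 56), (36, 86), (36, 88), (36, 92), (36, 94), (18, 100), (36, 110), (18, 112), (18, 164), (36, 248), (36, 254), (36, 256), (36, 262), (36, 272), (36, 274), (18, 280), (18, 326), (18, 328), (18, 758), (36, 760), (18, 814), (18, 820)],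
  [(0, [Rb9j4c0x0.job])]⟩
theorem c4 : ∀ b ∈ S4.blks, ∀ J ∈ b.2, check (P.smat S4.lo S4.mode b.1) J = true :=
  List.forall_mem_cons.2 ⟨List.forall_mem_cons.2 ⟨Rb9j4c0x0.ok, List.forall_mem_nil _⟩, List.forall_mem_nil _⟩
theorem g4 : Good (fun c => okS (P.l + 1) S4.lo c = true) (P.gens S4.mode 0) :=
  fun _ h => absurd h List.not_mem_nil
theorem w4 : S4.wf P = true := by kernel_rfl
def S3 : Sec := ⟨3, 0, [(36, 5), (36, 11), (18, 13), (36, 29), (36, 31), (36, 83), (36, 85), (18, 91), (18, 247), (36, 253), (6, 757)],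
  [(0, [Rb9j3c0x0.job])]⟩
theorem c3 : ∀ b ∈ S3.blks, ∀ J ∈ b.2, check (P.smat S3.lo S3.mode b.1) J = true :=
  List.forall_mem_cons.2 ⟨List.forall_mem_cons.2 ⟨Rb9j3c0x0.ok, List.forall_mem_nil _⟩, List.forall_mem_nil _⟩
theorem g3 : Good (fun c => okS (P.l + 1) S3.lo c = true) (P.gens S3.mode 0) :=
  fun _ h => absurd h List.not_mem_nil
theorem w3 : S3.wf P = true := by kernel_rfl
def S2 : Sec := ⟨2, 0, [(18, 2), (18, 4), (18, 10), (18, 28), (18, 82)],
  [(0, [Rb9j2c0x0.job])]⟩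
theorem c2 : ∀ b ∈ S2.blks, ∀ J ∈ b.2, check (P.smat S2.lo S2.mode b.1) J = true :=
  List.forall_mem_cons.2 ⟨List.forall_mem_cons.2 ⟨Rb9j2c0x0.ok, List.forall_mem_nil _⟩, List.forall_mem_nil _⟩
theorem g2 : Good (fun c => okS (P.l + 1) S2.lo c = true) (P.gens S2.mode 0) :=
  fun _ h => absurd h List.not_mem_nil
theorem w2 : S2.wf P = true := by kernel_rfl
def S1 : Sec := ⟨1, 0, [(18, 1)],
  [(0, [Rb9j1c0x0.job])]⟩
theorem c1 : ∀ b ∈ S1.blks, ∀ J ∈ b.2, check (P.smat S1.lo S1.mode b.1) J = true :=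
  List.forall_mem_cons.2 ⟨List.forall_mem_cons.2 ⟨Rb9j1c0x0.ok, List.forall_mem_nil _⟩, List.forall_mem_nil _⟩
theorem g1 : Good (fun c => okS (P.l + 1) S1.lo c = true) (P.gens S1.mode 0) :=
  fun _ h => absurd h List.not_mem_nil
theorem w1 : S1.wf P = true := by kernel_rfl
def S0 : Sec := ⟨0, 0, [(2, 0)],
  [(0, [Rb9j0c0x0.job])]⟩
theorem c0 : ∀ b ∈ S0.blks, ∀ J ∈ b.2, check (P.smat S0.lo S0.mode b.1) J = true :=
  List.forall_mem_cons.2 ⟨List.forall_mem_cons.2 ⟨Rb9j0c0x0.ok, List.forall_mem_nil _⟩, List.forall_mem_nil _⟩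
theorem g0 : Good (fun c => okS (P.l + 1) S0.lo c = true) (P.gens S0.mode 0) :=
  fun _ h => absurd h List.not_mem_nil
theorem w0 : S0.wf P = true := by kernel_rfl
def ss : List Sec := [S9, S8, S7, S6, S5, S4, S3, S2, S1, S0]
theorem hs : ∀ S ∈ ss, S.OK P :=
  List.forall_mem_cons.2 ⟨⟨c9, g9, w9⟩, List.forall_mem_cons.2 ⟨⟨c8, g8, w8⟩, List.forall_mem_cons.2 ⟨⟨c7, g7, w7⟩, List.forall_mem_cons.2 ⟨⟨c6, g6, w6⟩, List.forall_mem_cons.2 ⟨⟨c5, g5, w5⟩, List.forall_mem_cons.2 ⟨⟨c4, g4, w4⟩, List.forall_mem_cons.2 ⟨⟨c3, g3, w3⟩, List.forall_mem_cons.2 ⟨⟨c2, g2, w2⟩, List.forall_mem_cons.2 ⟨⟨c1, g1, w1⟩, List.forall_mem_cons.2 ⟨⟨c0, g0, w0⟩, List.forall_mem_nil _⟩⟩⟩⟩⟩⟩⟩⟩⟩⟩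
theorem cov : cover (P.l + 1) true (ss.flatMap fun S => S.cols) 0 = true := by kernel_rfl
theorem e1 : (List.range (P.K + 1)).map (tot1 ss P.s) = V1 :=
  tot1_fast (by kernel_rfl) (by decide +kernel)
theorem m1 : Mom P.up.A 1 P.up.F V1 P.up.err := e1 ▸ (moments2 P ok ss hs cov (P.spec2 ok1)).1
theorem eZ : (List.range (P.K + 1)).map (totZ ss (P.l + 1) P.s) = VZ :=
  totZ_fast (by kernel_rfl) (by decide +kernel)
theorem mZ : Mom P.up.A (tens (P.up.l + 1) (rot (some 2))) P.up.F VZ P.up.err :=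
  eZ ▸ (moments2 P ok ss hs cov (P.spec2 ok1)).2.1
theorem eX : (List.range (P.K + 1)).map (totX ss (P.l + 1) P.s) = VX :=
  totX_fast (by kernel_rfl) (by decide +kernel)
theorem mX : Mom P.up.A (tens (P.up.l + 1) (rot (some 0))) P.up.F VX P.up.err :=
  eX ▸ (moments2 P ok ss hs cov (P.spec2 ok1)).2.2 rfl
end Rb9


end Crest.Agent.R347.Eng
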