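import Crest.Agent.R347.MpsFast
import Crest.Agent.R347.MpsBound
import Crest.Agent.R347.Final
import Crest.Agent.R347.D.F000
import Crest.Agent.R347.D.F007
import Crest.Agent.R347.D.F013
import Crest.Agent.R347.D.F014
import Crest.Agent.R347.D.F021
import Crest.Agent.R347.D.F028
import Crest.Agent.R347.D.F033
import Crest.Agent.R347.D.F053
import Crest.Agent.R347.D.F064
import Crest.Agent.R347.D.F065
import Crest.Agent.R347.D.F105

/-! Row 347: trial states (computer generated) -/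

set_option autoImplicit false
set_option Elab.async false
set_option maxRecDepth 100000

namespace Crest.Agent.R347.Eng

def mbs : List Blk := [⟨11, MR11x0.job⟩, ⟨12, MR12x0.job⟩, ⟨13, MR13x0.job⟩, ⟨14, MR14x0.job⟩, ⟨14, MR14x1.job⟩, ⟨15, MR15x0.job⟩, ⟨15, MR15x1.job⟩, ⟨15, MR15x2.job⟩, ⟨15, MR15x3.job⟩, ⟨15, MR15x4.job⟩, ⟨16, MR16x0.job⟩, ⟨16, MR16x1.job⟩, ⟨16, MR16x2.job⟩, ⟨16, MR16x3.job⟩, ⟨16, MR16x4.job⟩, ⟨16, MR16x5.job⟩, ⟨16, MR16x6.job⟩, ⟨16, MR16x7.job⟩, ⟨17, MR17x0.job⟩, ⟨17, MR17x1.job⟩, ⟨17, MR17x2.job⟩, ⟨17, MR17x3.job⟩, ⟨17, MR17x4.job⟩, ⟨18, MR18x0.job⟩, ⟨18, MR18x1.job⟩, ⟨19, MR19x0.job⟩, ⟨20, MR20x0.job⟩, ⟨21, MR21x0.job⟩]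
theorem mrow11 : mpsCheck rN rQ 18 0 0 11 4 28 4 2138033792 = true :=
  mpsCheck_fast rA_eq rW_eq (rowsLe_sound MR11.rows0) (by decide +kernel)
theorem mrow12 : mpsCheck rN rQ 18 0 0 12 4 28 4 2138033792 = true :=
  mpsCheck_fast rA_eq rW_eq (rowsLe_sound MR12.rows0) (by decide +kernel)
theorem mrow13 : mpsCheck rN rQ 18 0 0 13 4 28 4 2138033792 = true :=
  mpsCheck_fast rA_eq rW_eq (rowsLe_sound MR13.rows0) (by decide +kernel)
theorem mrow14 : mpsCheck rN rQ 18 0 0 14 4 28 4 2138033792 = true :=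
  mpsCheck_fast rA_eq rW_eq (rowsLe_sound MR14.rows0) (by decide +kernel)
theorem mrow15 : mpsCheck rN rQ 18 0 0 15 4 28 4 2138033792 = true :=
  mpsCheck_fast rA_eq rW_eq (((rowsLe_sound MR15.rows0).append (rowsLe_sound MR15.rows1)).append (rowsLe_sound MR15.rows2)) (by decide +kernel)
theorem mrow16 : mpsCheck rN rQ 18 0 0 16 4 28 4 2138033792 = true :=
  mpsCheck_fast rA_eq rW_eq (((rowsLe_sound MR16.rows0).append (rowsLe_sound MR16.rows1)).append (rowsLe_sound MR16.rows2)) (by decide +kernel)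
theorem mrow17 : mpsCheck rN rQ 18 0 0 17 4 28 4 2138033792 = true :=
  mpsCheck_fast rA_eq rW_eq (((rowsLe_sound MR17.rows0).append (rowsLe_sound MR17.rows1)).append (rowsLe_sound MR17.rows2)) (by decide +kernel)
theorem mrow18 : mpsCheck rN rQ 18 0 0 18 4 28 4 2138033792 = true :=
  mpsCheck_fast rA_eq rW_eq (rowsLe_sound MR18.rows0) (by decide +kernel)
theorem mrow19 : mpsCheck rN rQ 18 0 0 19 4 28 4 2138033792 = true :=
  mpsCheck_fast rA_eq rW_eq (rowsLe_sound MR19.rows0) (by decide +kernel)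
theorem mrow20 : mpsCheck rN rQ 18 0 0 20 4 28 4 2138033792 = true :=
  mpsCheck_fast rA_eq rW_eq (rowsLe_sound MR20.rows0) (by decide +kernel)
theorem mrow21 : mpsCheck rN rQ 18 0 0 21 4 28 4 2138033792 = true :=
  mpsCheck_fast rA_eq rW_eq (rowsLe_sound MR21.rows0) (by decide +kernel)
theorem mchk : ∀ b ∈ mbs, check (mpsMat rN rQ 18 0 0 b.lo 4 28 4) b.J = true :=
  List.forall_mem_cons.2 ⟨check_fast rA_eq rW_eq MR11x0.ok, List.forall_mem_cons.2 ⟨check_fast rA_eq rW_eq MR12x0.ok, List.forall_mem_cons.2 ⟨check_fast rA_eq rW_eq MR13x0.ok, List.forall_mem_cons.2 ⟨check_fast rA_eq rW_eq MR14x0.ok, List.forall_mem_cons.2 ⟨check_fast rA_eq rW_eq MR14x1.ok, List.forall_mem_cons.2 ⟨check_fast rA_eq rW_eq MR15x0.ok, List.forall_mem_cons.2 ⟨check_fast rA_eq rW_eq MR15x1.ok, List.forall_mem_cons.2 ⟨check_fast rA_eq rW_eq MR15x2.ok, List.forall_mem_cons.2 ⟨check_fast rA_eq rW_eq MR15x3.ok, List.forall_mem_cons.2 ⟨check_fast rA_eq rW_eq MR15x4.ok, List.forall_mem_cons.2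 ⟨check_fast rA_eq rW_eq MR16x0.ok, List.forall_mem_cons.2 ⟨check_fast rA_eq rW_eq MR16x1.ok, List.forall_mem_cons.2 ⟨check_fast rA_eq rW_eq MR16x2.ok, List.forall_mem_cons.2 ⟨check_fast rA_eq rW_eq MR16x3.ok, List.forall_mem_cons.2 ⟨check_fast rA_eq rW_eq MR16x4.ok, List.forall_mem_cons.2 ⟨check_fast rA_eq rW_eq MR16x5.ok, List.forall_mem_cons.2 ⟨check_fast rA_eq rW_eq MR16x6.ok, List.forall_mem_cons.2 ⟨check_fast rA_eq rW_eq MR16x7.ok, List.forall_mem_cons.2 ⟨check_fast rA_eq rW_eq MR17x0.ok, List.forall_mem_cons.2 ⟨check_fast rA_eq rW_eq MR17x1.ok, List.forall_mem_cons.2 ⟨check_fast rA_eq rW_eq MR17x2.ok, List.forall_mem_cons.2 ⟨check_fast rA_eq rW_eq MR17x3.ok, List.forall_mem_cons.2 ⟨check_fast rA_eq rW_eq MR17x4.ok, List.forall_mem_cons.2 ⟨check_fast rA_eq rW_eq MR18x0.ok, List.forall_mem_cons.2 ⟨check_fast rA_eq rW_eq MR18x1.ok, List.forall_mem_cons.2 ⟨check_fast rA_eq rW_eq MR19x0.ok, List.forall_mem_cons.2 ⟨check_fast rA_eq rW_eq MR20x0.ok,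 List.forall_mem_cons.2 ⟨check_fast rA_eq rW_eq MR21x0.ok, List.forall_mem_nil _⟩⟩⟩⟩⟩⟩⟩⟩⟩⟩⟩⟩⟩⟩⟩⟩⟩⟩⟩⟩⟩⟩⟩⟩⟩⟩⟩⟩
theorem mrow : ∀ b ∈ mbs, mpsCheck rN rQ 18 0 0 b.lo 4 28 4 2138033792 = true :=
  List.forall_mem_cons.2 ⟨mrow11, List.forall_mem_cons.2 ⟨mrow12, List.forall_mem_cons.2 ⟨mrow13, List.forall_mem_cons.2 ⟨mrow14, List.forall_mem_cons.2 ⟨mrow14, List.forall_mem_cons.2 ⟨mrow15, List.forall_mem_cons.2 ⟨mrow15, List.forall_mem_cons.2 ⟨mrow15, List.forall_mem_cons.2 ⟨mrow15, List.forall_mem_cons.2 ⟨mrow15, List.forall_mem_cons.2 ⟨mrow16, List.forall_mem_cons.2 ⟨mrow16, List.forall_mem_cons.2 ⟨mrow16, List.forall_mem_cons.2 ⟨mrow16, List.forall_mem_cons.2 ⟨mrow16, List.forall_mem_cons.2 ⟨mrow16, List.forall_mem_cons.2 ⟨mrow16, List.forall_mem_cons.2 ⟨mrow16, List.forall_mem_cons.2 ⟨mrow17, List.forall_mem_cons.2 ⟨mrow17, List.forall_mem_cons.2 ⟨mrow17, List.forall_mem_cons.2 ⟨mrow17, List.forall_mem_cons.2 ⟨mrow17, List.forall_mem_cons.2 ⟨mrow18,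 List.forall_mem_cons.2 ⟨mrow18, List.forall_mem_cons.2 ⟨mrow19, List.forall_mem_cons.2 ⟨mrow20, List.forall_mem_cons.2 ⟨mrow21, List.forall_mem_nil _⟩⟩⟩⟩⟩⟩⟩⟩⟩⟩⟩⟩⟩⟩⟩⟩⟩⟩⟩⟩⟩⟩⟩⟩⟩⟩⟩⟩
theorem mwf : (mbs.all fun b => b.mwf rQ 18 44 344 180) = true := by decide +kernel
theorem mperm : (mbs.flatMap fun b => b.J.l0.map fun e => e.2.1).Perm
    ((List.range 18).flatMap fun a' => (List.range 18).map fun a => mcode 18 a' 6 a) := by decide +kernel
theorem msz : PowOK 28 2138033792 44 344 180 := by decide +kernel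
theorem Ea9 : HasE (ringH (17 + 1) none) (-2524158503923 / 100000000000) :=
  ring_bound mbs mchk mrow mwf mperm msz false 17 _ (by decide +kernel)
theorem Eb9 : HasE (ringH (17 + 1) (some 2)) (-630513990913 / 25000000000) :=
  ring_bound mbs mchk mrow mwf mperm msz true 17 _ (by decide +kernel)
theorem Ea10 : HasE (ringH (19 + 1) none) (-700984952807 / 25000000000) :=
  ring_bound mbs mchk mrow mwf mperm msz false 19 _ (by decide +kernel)
theorem Eb10 : HasE (ringH (19 + 1) (some 2)) (-1401263355491 / 50000000000) :=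
  ring_bound mbs mchk mrow mwf mperm msz true 19 _ (by decide +kernel)
theorem Ea11 : HasE (ringH (21 + 1) none) (-3083883504311 / 100000000000) :=
  ring_bound mbs mchk mrow mwf mperm msz false 21 _ (by decide +kernel)
theorem Eb11 : HasE (ringH (21 + 1) (some 2)) (-3082935868057 / 100000000000) :=
  ring_bound mbs mchk mrow mwf mperm msz true 21 _ (by decide +kernel)
theorem Ea12 : HasE (ringH (23 + 1) none) (-672787591679 / 20000000000) :=
  ring_bound mbs mchk mrow mwf mperm msz false 23 _ (by decide +kernel)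
theorem Eb12 : HasE (ringH (23 + 1) (some 2)) (-3363304861367 / 100000000000) :=
  ring_bound mbs mchk mrow mwf mperm msz true 23 _ (by decide +kernel)
theorem Ea13 : HasE (ringH (25 + 1) none) (-3644068302073 / 100000000000) :=
  ring_bound mbs mchk mrow mwf mperm msz false 25 _ (by decide +kernel)
theorem Eb13 : HasE (ringH (25 + 1) (some 2)) (-910911796581 / 25000000000) :=
  ring_bound mbs mchk mrow mwf mperm msz true 25 _ (by decide +kernel)
theorem Ea14 : HasE (ringH (27 + 1) none) (-3924250527929 / 100000000000) :=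
  ring_bound mbs mchk mrow mwf mperm msz false 27 _ (by decide +kernel)
theorem Eb14 : HasE (ringH (27 + 1) (some 2)) (-784794331219 / 20000000000) :=
  ring_bound mbs mchk mrow mwf mperm msz true 27 _ (by decide +kernel)
theorem Ea15 : HasE (ringH (29 + 1) none) (-105111700917 / 2500000000) :=
  ring_bound mbs mchk mrow mwf mperm msz false 29 _ (by decide +kernel)
theorem Eb15 : HasE (ringH (29 + 1) (some 2)) (-525535518201 / 12500000000) :=
  ring_bound mbs mchk mrow mwf mperm msz true 29 _ (by decide +kernel)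
theorem Ea16 : HasE (ringH (31 + 1) none) (-2242354694333 / 50000000000) :=
  ring_bound mbs mchk mrow mwf mperm msz false 31 _ (by decide +kernel)
theorem Eb16 : HasE (ringH (31 + 1) (some 2)) (-448458860773 / 10000000000) :=
  ring_bound mbs mchk mrow mwf mperm msz true 31 _ (by decide +kernel)
theorem Ea17 : HasE (ringH (33 + 1) none) (-476496675083 / 10000000000) :=
  ring_bound mbs mchk mrow mwf mperm msz false 33 _ (by decide +kernel)
theorem Eb17 : HasE (ringH (33 + 1) (some 2)) (-952977541633 / 20000000000) :=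
  ring_bound mbs mchk mrow mwf mperm msz true 33 _ (by decide +kernel)
theorem Ea18 : HasE (ringH (35 + 1) none) (-5045234799139 / 100000000000) :=
  ring_bound mbs mchk mrow mwf mperm msz false 35 _ (by decide +kernel)
theorem Eb18 : HasE (ringH (35 + 1) (some 2)) (-5045183241617 / 100000000000) :=
  ring_bound mbs mchk mrow mwf mperm msz true 35 _ (by decide +kernel)
theorem Ea19 : HasE (ringH (37 + 1) none) (-665688742641 / 12500000000) :=
  ring_bound mbs mchk mrow mwf mperm msz false 37 _ (by decide +kernel)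
theorem Eb19 : HasE (ringH (37 + 1) (some 2)) (-1065095282401 / 20000000000) :=
  ring_bound mbs mchk mrow mwf mperm msz true 37 _ (by decide +kernel)
theorem Ea20 : HasE (ringH (39 + 1) none) (-5605789768987 / 100000000000) :=
  ring_bound mbs mchk mrow mwf mperm msz false 39 _ (by decide +kernel)
theorem Eb20 : HasE (ringH (39 + 1) (some 2)) (-5605768023349 / 100000000000) :=
  ring_bound mbs mchk mrow mwf mperm msz true 39 _ (by decide +kernel)
theorem Ea21 : HasE (ringH (41 + 1) none) (-5886072678649 / 100000000000) :=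
  ring_bound mbs mchk mrow mwf mperm msz false 41 _ (by decide +kernel)
theorem Eb21 : HasE (ringH (41 + 1) (some 2)) (-2943029305051 / 50000000000) :=
  ring_bound mbs mchk mrow mwf mperm msz true 41 _ (by decide +kernel)
theorem Ea22 : HasE (ringH (43 + 1) none) (-6166357606951 / 100000000000) :=
  ring_bound mbs mchk mrow mwf mperm msz false 43 _ (by decide +kernel)
theorem Eb22 : HasE (ringH (43 + 1) (some 2)) (-6166348525637 / 100000000000) :=
  ring_bound mbs mchk mrow mwf mperm msz true 43 _ (by decide +kernel)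
theorem ochk : check (mpsMat oN oQ 30 3 (-3) 16 4 28 11) MO.job = true := check_fast oA_eq oW_eq MO.ok
theorem orow : mpsCheck oN oQ 30 3 (-3) 16 4 28 11 5735475328 = true :=
  mpsCheck_fast oA_eq oW_eq (((((((((rowsLe_sound MO.rows0).append (rowsLe_sound MO.rows1)).append (rowsLe_sound MO.rows2)).append (rowsLe_sound MO.rows3)).append (rowsLe_sound MO.rows4)).append (rowsLe_sound MO.rows5)).append (rowsLe_sound MO.rows6)).append (rowsLe_sound MO.rows7)).append (rowsLe_sound MO.rows8)) (by decide +kernel)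
theorem osz : PowOK 28 5735475328 82 803 407 := by decide +kernel
theorem Ee8 : HasE (openH 17 1 (-1)) (-2483902373647 / 100000000000) :=
  open_bound MO.job 22 29 ochk orow (by decide +kernel) osz 17 _ (by decide +kernel)
theorem Ee22 : HasE (openH 45 1 (-1)) (-3203191844693 / 50000000000) :=
  open_bound MO.job 22 29 ochk orow (by decide +kernel) osz 45 _ (by decide +kernel)
theorem Ee34 : HasE (openH 69 1 (-1)) (-9769916612617 / 100000000000) :=
  open_bound MO.job 22 29 ochk orow (by decide +kernel) osz 69 _ (by decide +kernel)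
theorem Ee36 : HasE (openH 73 1 (-1)) (-1033050657001 / 10000000000) :=
  open_bound MO.job 22 29 ochk orow (by decide +kernel) osz 73 _ (by decide +kernel)

end Crest.Agent.R347.Eng
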