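import Crest.Agent.R347.D.Par
import Crest.Agent.R347.D.F037
import Crest.Agent.R347.D.F038
import Crest.Agent.R347.D.F039
import Crest.Agent.R347.D.F041
import Crest.Agent.R347.D.F042
import Crest.Agent.R347.D.F044

/-! Row 347: the moments (computer generated) -/

set_option autoImplicit false
set_option Elab.async false
set_option maxRecDepth 100000

namespace Crest.Agent.R347.Eng

namespace Om2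
def bs : List Blk := [⟨2, Om2j2x0.job⟩, ⟨1, Om2j1x0.job⟩, ⟨3, Om2j3x0.job⟩, ⟨0, Om2j0x0.job⟩, ⟨4, Om2j4x0.job⟩]
theorem chk : ∀ b ∈ bs, check (P.mat b.lo) b.J = true :=
  List.forall_mem_cons.2 ⟨Om2j2x0.ok, List.forall_mem_cons.2 ⟨Om2j1x0.ok, List.forall_mem_cons.2 ⟨Om2j3x0.ok, List.forall_mem_cons.2 ⟨Om2j0x0.ok, List.forall_mem_cons.2 ⟨Om2j4x0.ok, List.forall_mem_nil _⟩⟩⟩⟩⟩
theorem wf : (bs.all fun b => b.wf (P.l + 1) P.fl P.K P.w P.F) = true := by kernel_rfl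
theorem cov : cover (P.l + 1) (decide (P.kind ≤ 1)) (reps bs) 0 = true := by kernel_rfl
theorem e1 : (List.range (P.K + 1)).map (sum1 bs P.s) = V1 := by decide +kernel
theorem m1 : Mom P.A 1 P.F V1 P.err := e1 ▸ (moments P ok bs chk wf cov (P.spec2 ok2)).1
end Om2

namespace Op2
def bs : List Blk := [⟨2, Op2j2x0.job⟩, ⟨1, Op2j1x0.job⟩, ⟨3, Op2j3x0.job⟩, ⟨0, Op2j0x0.job⟩, ⟨4, Op2j4x0.job⟩]
theorem chk : ∀ b ∈ bs, check (P.mat b.lo) b.J = true :=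
  List.forall_mem_cons.2 ⟨Op2j2x0.ok, List.forall_mem_cons.2 ⟨Op2j1x0.ok, List.forall_mem_cons.2 ⟨Op2j3x0.ok, List.forall_mem_cons.2 ⟨Op2j0x0.ok, List.forall_mem_cons.2 ⟨Op2j4x0.ok, List.forall_mem_nil _⟩⟩⟩⟩⟩
theorem wf : (bs.all fun b => b.wf (P.l + 1) P.fl P.K P.w P.F) = true := by kernel_rfl
theorem cov : cover (P.l + 1) (decide (P.kind ≤ 1)) (reps bs) 0 = true := by kernel_rfl
theorem e1 : (List.range (P.K + 1)).map (sum1 bs P.s) = V1 := by decide +kernel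
theorem m1 : Mom P.A 1 P.F V1 P.err := e1 ▸ (moments P ok bs chk wf cov (P.spec2 ok2)).1
end Op2

namespace Om3
def bs : List Blk := [⟨3, Om3j3x0.job⟩, ⟨2, Om3j2x0.job⟩, ⟨4, Om3j4x0.job⟩, ⟨1, Om3j1x0.job⟩, ⟨5, Om3j5x0.job⟩, ⟨0, Om3j0x0.job⟩, ⟨6, Om3j6x0.job⟩]
theorem chk : ∀ b ∈ bs, check (P.mat b.lo) b.J = true :=
  List.forall_mem_cons.2 ⟨Om3j3x0.ok, List.forall_mem_cons.2 ⟨Om3j2x0.ok, List.forall_mem_cons.2 ⟨Om3j4x0.ok, List.forall_mem_cons.2 ⟨Om3j1x0.ok, List.forall_mem_cons.2 ⟨Om3j5x0.ok, List.forall_mem_cons.2 ⟨Om3j0x0.ok, List.forall_mem_cons.2 ⟨Om3j6x0.ok, List.forall_mem_nil _⟩⟩⟩⟩⟩⟩⟩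
theorem wf : (bs.all fun b => b.wf (P.l + 1) P.fl P.K P.w P.F) = true := by kernel_rfl
theorem cov : cover (P.l + 1) (decide (P.kind ≤ 1)) (reps bs) 0 = true := by kernel_rfl
theorem e1 : (List.range (P.K + 1)).map (sum1 bs P.s) = V1 := by decide +kernel
theorem m1 : Mom P.A 1 P.F V1 P.err := e1 ▸ (moments P ok bs chk wf cov (P.spec2 ok2)).1
end Om3

namespace Op3
def bs : List Blk := [⟨3, Op3j3x0.job⟩, ⟨2, Op3j2x0.job⟩, ⟨4, Op3j4x0.job⟩, ⟨1, Op3j1x0.job⟩, ⟨5, Op3j5x0.job⟩, ⟨0, Op3j0x0.job⟩, ⟨6, Op3j6x0.job⟩]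
theorem chk : ∀ b ∈ bs, check (P.mat b.lo) b.J = true :=
  List.forall_mem_cons.2 ⟨Op3j3x0.ok, List.forall_mem_cons.2 ⟨Op3j2x0.ok, List.forall_mem_cons.2 ⟨Op3j4x0.ok, List.forall_mem_cons.2 ⟨Op3j1x0.ok, List.forall_mem_cons.2 ⟨Op3j5x0.ok, List.forall_mem_cons.2 ⟨Op3j0x0.ok, List.forall_mem_cons.2 ⟨Op3j6x0.ok, List.forall_mem_nil _⟩⟩⟩⟩⟩⟩⟩
theorem wf : (bs.all fun b => b.wf (P.l + 1) P.fl P.K P.w P.F) = true := by kernel_rfl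
theorem cov : cover (P.l + 1) (decide (P.kind ≤ 1)) (reps bs) 0 = true := by kernel_rfl
theorem e1 : (List.range (P.K + 1)).map (sum1 bs P.s) = V1 := by decide +kernel
theorem m1 : Mom P.A 1 P.F V1 P.err := e1 ▸ (moments P ok bs chk wf cov (P.spec2 ok2)).1
end Op3

namespace Om4
def bs : List Blk := [⟨4, Om4j4x0.job⟩, ⟨3, Om4j3x0.job⟩, ⟨5, Om4j5x0.job⟩, ⟨2, Om4j2x0.job⟩, ⟨6, Om4j6x0.job⟩, ⟨1, Om4j1x0.job⟩, ⟨7, Om4j7x0.job⟩, ⟨0, Om4j0x0.job⟩, ⟨8, Om4j8x0.job⟩]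
theorem chk : ∀ b ∈ bs, check (P.mat b.lo) b.J = true :=
  List.forall_mem_cons.2 ⟨Om4j4x0.ok, List.forall_mem_cons.2 ⟨Om4j3x0.ok, List.forall_mem_cons.2 ⟨Om4j5x0.ok, List.forall_mem_cons.2 ⟨Om4j2x0.ok, List.forall_mem_cons.2 ⟨Om4j6x0.ok, List.forall_mem_cons.2 ⟨Om4j1x0.ok, List.forall_mem_cons.2 ⟨Om4j7x0.ok, List.forall_mem_cons.2 ⟨Om4j0x0.ok, List.forall_mem_cons.2 ⟨Om4j8x0.ok, List.forall_mem_nil _⟩⟩⟩⟩⟩⟩⟩⟩⟩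
theorem wf : (bs.all fun b => b.wf (P.l + 1) P.fl P.K P.w P.F) = true := by kernel_rfl
theorem cov : cover (P.l + 1) (decide (P.kind ≤ 1)) (reps bs) 0 = true := by kernel_rfl
theorem e1 : (List.range (P.K + 1)).map (sum1 bs P.s) = V1 := by decide +kernel
theorem m1 : Mom P.A 1 P.F V1 P.err := e1 ▸ (moments P ok bs chk wf cov (P.spec2 ok2)).1
end Om4

namespace Op4
def bs : List Blk := [⟨4, Op4j4x0.job⟩, ⟨3, Op4j3x0.job⟩, ⟨5, Op4j5x0.job⟩, ⟨2, Op4j2x0.job⟩, ⟨6, Op4j6x0.job⟩, ⟨1, Op4j1x0.job⟩, ⟨7, Op4j7x0.job⟩, ⟨0, Op4j0x0.job⟩, ⟨8, Op4j8x0.job⟩]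
theorem chk : ∀ b ∈ bs, check (P.mat b.lo) b.J = true :=
  List.forall_mem_cons.2 ⟨Op4j4x0.ok, List.forall_mem_cons.2 ⟨Op4j3x0.ok, List.forall_mem_cons.2 ⟨Op4j5x0.ok, List.forall_mem_cons.2 ⟨Op4j2x0.ok, List.forall_mem_cons.2 ⟨Op4j6x0.ok, List.forall_mem_cons.2 ⟨Op4j1x0.ok, List.forall_mem_cons.2 ⟨Op4j7x0.ok, List.forall_mem_cons.2 ⟨Op4j0x0.ok, List.forall_mem_cons.2 ⟨Op4j8x0.ok, List.forall_mem_nil _⟩⟩⟩⟩⟩⟩⟩⟩⟩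
theorem wf : (bs.all fun b => b.wf (P.l + 1) P.fl P.K P.w P.F) = true := by kernel_rfl
theorem cov : cover (P.l + 1) (decide (P.kind ≤ 1)) (reps bs) 0 = true := by kernel_rfl
theorem e1 : (List.range (P.K + 1)).map (sum1 bs P.s) = V1 := by decide +kernel
theorem m1 : Mom P.A 1 P.F V1 P.err := e1 ▸ (moments P ok bs chk wf cov (P.spec2 ok2)).1
end Op4

namespace Om5
def bs : List Blk := [⟨5, Om5j5x0.job⟩, ⟨4, Om5j4x0.job⟩, ⟨6, Om5j6x0.job⟩, ⟨3, Om5j3x0.job⟩, ⟨7, Om5j7x0.job⟩, ⟨2, Om5j2x0.job⟩, ⟨8, Om5j8x0.job⟩, ⟨1, Om5j1x0.job⟩, ⟨9, Om5j9x0.job⟩, ⟨0, Om5j0x0.job⟩, ⟨10, Om5j10x0.job⟩]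
theorem chk : ∀ b ∈ bs, check (P.mat b.lo) b.J = true :=
  List.forall_mem_cons.2 ⟨Om5j5x0.ok, List.forall_mem_cons.2 ⟨Om5j4x0.ok, List.forall_mem_cons.2 ⟨Om5j6x0.ok, List.forall_mem_cons.2 ⟨Om5j3x0.ok, List.forall_mem_cons.2 ⟨Om5j7x0.ok, List.forall_mem_cons.2 ⟨Om5j2x0.ok, List.forall_mem_cons.2 ⟨Om5j8x0.ok, List.forall_mem_cons.2 ⟨Om5j1x0.ok, List.forall_mem_cons.2 ⟨Om5j9x0.ok, List.forall_mem_cons.2 ⟨Om5j0x0.ok, List.forall_mem_cons.2 ⟨Om5j10x0.ok, List.forall_mem_nil _⟩⟩⟩⟩⟩⟩⟩⟩⟩⟩⟩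
theorem wf : (bs.all fun b => b.wf (P.l + 1) P.fl P.K P.w P.F) = true := by kernel_rfl
theorem cov : cover (P.l + 1) (decide (P.kind ≤ 1)) (reps bs) 0 = true := by kernel_rfl
theorem e1 : (List.range (P.K + 1)).map (sum1 bs P.s) = V1 := by decide +kernel
theorem m1 : Mom P.A 1 P.F V1 P.err := e1 ▸ (moments P ok bs chk wf cov (P.spec2 ok2)).1
end Om5

namespace Op5
def bs : List Blk := [⟨5, Op5j5x0.job⟩, ⟨4, Op5j4x0.job⟩, ⟨6, Op5j6x0.job⟩, ⟨3, Op5j3x0.job⟩, ⟨7, Op5j7x0.job⟩, ⟨2, Op5j2x0.job⟩, ⟨8, Op5j8x0.job⟩, ⟨1, Op5j1x0.job⟩, ⟨9, Op5j9x0.job⟩, ⟨0, Op5j0x0.job⟩, ⟨10, Op5j10x0.job⟩]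
theorem chk : ∀ b ∈ bs, check (P.mat b.lo) b.J = true :=
  List.forall_mem_cons.2 ⟨Op5j5x0.ok, List.forall_mem_cons.2 ⟨Op5j4x0.ok, List.forall_mem_cons.2 ⟨Op5j6x0.ok, List.forall_mem_cons.2 ⟨Op5j3x0.ok, List.forall_mem_cons.2 ⟨Op5j7x0.ok, List.forall_mem_cons.2 ⟨Op5j2x0.ok, List.forall_mem_cons.2 ⟨Op5j8x0.ok, List.forall_mem_cons.2 ⟨Op5j1x0.ok, List.forall_mem_cons.2 ⟨Op5j9x0.ok, List.forall_mem_cons.2 ⟨Op5j0x0.ok, List.forall_mem_cons.2 ⟨Op5j10x0.ok, List.forall_mem_nil _⟩⟩⟩⟩⟩⟩⟩⟩⟩⟩⟩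
theorem wf : (bs.all fun b => b.wf (P.l + 1) P.fl P.K P.w P.F) = true := by kernel_rfl
theorem cov : cover (P.l + 1) (decide (P.kind ≤ 1)) (reps bs) 0 = true := by kernel_rfl
theorem e1 : (List.range (P.K + 1)).map (sum1 bs P.s) = V1 := by decide +kernel
theorem m1 : Mom P.A 1 P.F V1 P.err := e1 ▸ (moments P ok bs chk wf cov (P.spec2 ok2)).1
end Op5

namespace Om6
def bs : List Blk := [⟨6, Om6j6x0.job⟩, ⟨5, Om6j5x0.job⟩, ⟨7, Om6j7x0.job⟩, ⟨4, Om6j4x0.job⟩, ⟨8, Om6j8x0.job⟩, ⟨3, Om6j3x0.job⟩, ⟨9, Om6j9x0.job⟩, ⟨2, Om6j2x0.job⟩, ⟨10, Om6j10x0.job⟩, ⟨1, Om6j1x0.job⟩, ⟨11, Om6j11x0.job⟩, ⟨0, Om6j0x0.job⟩, ⟨12, Om6j12x0.job⟩]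
theorem chk : ∀ b ∈ bs, check (P.mat b.lo) b.J = true :=
  List.forall_mem_cons.2 ⟨Om6j6x0.ok, List.forall_mem_cons.2 ⟨Om6j5x0.ok, List.forall_mem_cons.2 ⟨Om6j7x0.ok, List.forall_mem_cons.2 ⟨Om6j4x0.ok, List.forall_mem_cons.2 ⟨Om6j8x0.ok, List.forall_mem_cons.2 ⟨Om6j3x0.ok, List.forall_mem_cons.2 ⟨Om6j9x0.ok, List.forall_mem_cons.2 ⟨Om6j2x0.ok, List.forall_mem_cons.2 ⟨Om6j10x0.ok, List.forall_mem_cons.2 ⟨Om6j1x0.ok, List.forall_mem_cons.2 ⟨Om6j11x0.ok, List.forall_mem_cons.2 ⟨Om6j0x0.ok, List.forall_mem_cons.2 ⟨Om6j12x0.ok, List.forall_mem_nil _⟩⟩⟩⟩⟩⟩⟩⟩⟩⟩⟩⟩⟩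
theorem wf : (bs.all fun b => b.wf (P.l + 1) P.fl P.K P.w P.F) = true := by kernel_rfl
theorem cov : cover (P.l + 1) (decide (P.kind ≤ 1)) (reps bs) 0 = true := by kernel_rfl
theorem e1 : (List.range (P.K + 1)).map (sum1 bs P.s) = V1 := by decide +kernel
theorem m1 : Mom P.A 1 P.F V1 P.err := e1 ▸ (moments P ok bs chk wf cov (P.spec2 ok2)).1
end Om6

namespace Op6
def bs : List Blk := [⟨6, Op6j6x0.job⟩, ⟨5, Op6j5x0.job⟩, ⟨7, Op6j7x0.job⟩, ⟨4, Op6j4x0.job⟩, ⟨8, Op6j8x0.job⟩, ⟨3, Op6j3x0.job⟩, ⟨9, Op6j9x0.job⟩, ⟨2, Op6j2x0.job⟩, ⟨10, Op6j10x0.job⟩, ⟨1, Op6j1x0.job⟩, ⟨11, Op6j11x0.job⟩, ⟨0, Op6j0x0.job⟩, ⟨12, Op6j12x0.job⟩]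
theorem chk : ∀ b ∈ bs, check (P.mat b.lo) b.J = true :=
  List.forall_mem_cons.2 ⟨Op6j6x0.ok, List.forall_mem_cons.2 ⟨Op6j5x0.ok, List.forall_mem_cons.2 ⟨Op6j7x0.ok, List.forall_mem_cons.2 ⟨Op6j4x0.ok, List.forall_mem_cons.2 ⟨Op6j8x0.ok, List.forall_mem_cons.2 ⟨Op6j3x0.ok, List.forall_mem_cons.2 ⟨Op6j9x0.ok, List.forall_mem_cons.2 ⟨Op6j2x0.ok, List.forall_mem_cons.2 ⟨Op6j10x0.ok, List.forall_mem_cons.2 ⟨Op6j1x0.ok, List.forall_mem_cons.2 ⟨Op6j11x0.ok, List.forall_mem_cons.2 ⟨Op6j0x0.ok, List.forall_mem_cons.2 ⟨Op6j12x0.ok, List.forall_mem_nil _⟩⟩⟩⟩⟩⟩⟩⟩⟩⟩⟩⟩⟩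
theorem wf : (bs.all fun b => b.wf (P.l + 1) P.fl P.K P.w P.F) = true := by kernel_rfl
theorem cov : cover (P.l + 1) (decide (P.kind ≤ 1)) (reps bs) 0 = true := by kernel_rfl
theorem e1 : (List.range (P.K + 1)).map (sum1 bs P.s) = V1 := by decide +kernel
theorem m1 : Mom P.A 1 P.F V1 P.err := e1 ▸ (moments P ok bs chk wf cov (P.spec2 ok2)).1
end Op6

namespace Om7
def bs : List Blk := [⟨7, Om7j7x0.job⟩, ⟨7, Om7j7x1.job⟩, ⟨6, Om7j6x0.job⟩, ⟨8, Om7j8x0.job⟩, ⟨5, Om7j5x0.job⟩, ⟨9, Om7j9x0.job⟩, ⟨4, Om7j4x0.job⟩, ⟨10, Om7j10x0.job⟩, ⟨3, Om7j3x0.job⟩, ⟨11, Om7j11x0.job⟩, ⟨2, Om7j2x0.job⟩, ⟨12, Om7j12x0.job⟩, ⟨1, Om7j1x0.job⟩, ⟨13, Om7j13x0.job⟩, ⟨0, Om7j0x0.job⟩, ⟨14, Om7j14x0.job⟩]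
theorem chk : ∀ b ∈ bs, check (P.mat b.lo) b.J = true :=
  List.forall_mem_cons.2 ⟨Om7j7x0.ok, List.forall_mem_cons.2 ⟨Om7j7x1.ok, List.forall_mem_cons.2 ⟨Om7j6x0.ok, List.forall_mem_cons.2 ⟨Om7j8x0.ok, List.forall_mem_cons.2 ⟨Om7j5x0.ok, List.forall_mem_cons.2 ⟨Om7j9x0.ok, List.forall_mem_cons.2 ⟨Om7j4x0.ok, List.forall_mem_cons.2 ⟨Om7j10x0.ok, List.forall_mem_cons.2 ⟨Om7j3x0.ok, List.forall_mem_cons.2 ⟨Om7j11x0.ok, List.forall_mem_cons.2 ⟨Om7j2x0.ok, List.forall_mem_cons.2 ⟨Om7j12x0.ok, List.forall_mem_cons.2 ⟨Om7j1x0.ok, List.forall_mem_cons.2 ⟨Om7j13x0.ok, List.forall_mem_cons.2 ⟨Om7j0x0.ok, List.forall_mem_cons.2 ⟨Om7j14x0.ok, List.forall_mem_nil _⟩⟩⟩⟩⟩⟩⟩⟩⟩⟩⟩⟩⟩⟩⟩⟩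
theorem wf : (bs.all fun b => b.wf (P.l + 1) P.fl P.K P.w P.F) = true := by kernel_rfl
theorem cov : cover (P.l + 1) (decide (P.kind ≤ 1)) (reps bs) 0 = true := by kernel_rfl
theorem e1 : (List.range (P.K + 1)).map (sum1 bs P.s) = V1 := by decide +kernel
theorem m1 : Mom P.A 1 P.F V1 P.err := e1 ▸ (moments P ok bs chk wf cov (P.spec2 ok2)).1
end Om7

namespace Op7
def bs : List Blk := [⟨7, Op7j7x0.job⟩, ⟨7, Op7j7x1.job⟩, ⟨6, Op7j6x0.job⟩, ⟨8, Op7j8x0.job⟩, ⟨5, Op7j5x0.job⟩, ⟨9, Op7j9x0.job⟩, ⟨4, Op7j4x0.job⟩, ⟨10, Op7j10x0.job⟩, ⟨3, Op7j3x0.job⟩, ⟨11, Op7j11x0.job⟩, ⟨2, Op7j2x0.job⟩, ⟨12, Op7j12x0.job⟩, ⟨1, Op7j1x0.job⟩, ⟨13, Op7j13x0.job⟩, ⟨0, Op7j0x0.job⟩, ⟨14, Op7j14x0.job⟩]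
theorem chk : ∀ b ∈ bs, check (P.mat b.lo) b.J = true :=
  List.forall_mem_cons.2 ⟨Op7j7x0.ok, List.forall_mem_cons.2 ⟨Op7j7x1.ok, List.forall_mem_cons.2 ⟨Op7j6x0.ok, List.forall_mem_cons.2 ⟨Op7j8x0.ok, List.forall_mem_cons.2 ⟨Op7j5x0.ok, List.forall_mem_cons.2 ⟨Op7j9x0.ok, List.forall_mem_cons.2 ⟨Op7j4x0.ok, List.forall_mem_cons.2 ⟨Op7j10x0.ok, List.forall_mem_cons.2 ⟨Op7j3x0.ok, List.forall_mem_cons.2 ⟨Op7j11x0.ok, List.forall_mem_cons.2 ⟨Op7j2x0.ok, List.forall_mem_cons.2 ⟨Op7j12x0.ok, List.forall_mem_cons.2 ⟨Op7j1x0.ok, List.forall_mem_cons.2 ⟨Op7j13x0.ok, List.forall_mem_cons.2 ⟨Op7j0x0.ok, List.forall_mem_cons.2 ⟨Op7j14x0.ok, List.forall_mem_nil _⟩⟩⟩⟩⟩⟩⟩⟩⟩⟩⟩⟩⟩⟩⟩⟩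
theorem wf : (bs.all fun b => b.wf (P.l + 1) P.fl P.K P.w P.F) = true := by kernel_rfl
theorem cov : cover (P.l + 1) (decide (P.kind ≤ 1)) (reps bs) 0 = true := by kernel_rfl
theorem e1 : (List.range (P.K + 1)).map (sum1 bs P.s) = V1 := by decide +kernel
theorem m1 : Mom P.A 1 P.F V1 P.err := e1 ▸ (moments P ok bs chk wf cov (P.spec2 ok2)).1
end Op7


end Crest.Agent.R347.Eng
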