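import Crest.Agent.R347.D.Par
import Crest.Agent.R347.D.F037
import Crest.Agent.R347.D.F038
import Crest.Agent.R347.D.F040
import Crest.Agent.R347.D.F041
import Crest.Agent.R347.D.F042
import Crest.Agent.R347.D.F070

/-! Row 347: the moments (computer generated) -/

set_option autoImplicit false
set_option Elab.async false
set_option maxRecDepth 100000

namespace Crest.Agent.R347.Eng

namespace Ra6
def bs : List Blk := [⟨6, Ra6j6x0.job⟩, ⟨5, Ra6j5x0.job⟩, ⟨4, Ra6j4x0.job⟩, ⟨3, Ra6j3x0.job⟩, ⟨2, Ra6j2x0.job⟩, ⟨1, Ra6j1x0.job⟩, ⟨0, Ra6j0x0.job⟩]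
theorem chk : ∀ b ∈ bs, check (P.mat b.lo) b.J = true :=
  List.forall_mem_cons.2 ⟨Ra6j6x0.ok, List.forall_mem_cons.2 ⟨Ra6j5x0.ok, List.forall_mem_cons.2 ⟨Ra6j4x0.ok, List.forall_mem_cons.2 ⟨Ra6j3x0.ok, List.forall_mem_cons.2 ⟨Ra6j2x0.ok, List.forall_mem_cons.2 ⟨Ra6j1x0.ok, List.forall_mem_cons.2 ⟨Ra6j0x0.ok, List.forall_mem_nil _⟩⟩⟩⟩⟩⟩⟩
theorem wf : (bs.all fun b => b.wf (P.l + 1) P.fl P.K P.w P.F) = true := by kernel_rfl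
theorem cov : cover (P.l + 1) (decide (P.kind ≤ 1)) (reps bs) 0 = true := by kernel_rfl
theorem e1 : (List.range (P.K + 1)).map (sum1 bs P.s) = V1 := by decide +kernel
theorem m1 : Mom P.A 1 P.F V1 P.err := e1 ▸ (moments P ok bs chk wf cov (P.spec2 ok2)).1
theorem eZ : (List.range (P.K + 1)).map (sumZ bs (P.l + 1) P.s) = VZ := by decide +kernel
theorem mZ : Mom P.A (tens (P.l + 1) (rot (some 2))) P.F VZ P.err :=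
  eZ ▸ (moments P ok bs chk wf cov (P.spec2 ok2)).2.1
end Ra6

namespace Rb6
def bs : List Blk := [⟨6, Rb6j6x0.job⟩, ⟨5, Rb6j5x0.job⟩, ⟨4, Rb6j4x0.job⟩, ⟨3, Rb6j3x0.job⟩, ⟨2, Rb6j2x0.job⟩, ⟨1, Rb6j1x0.job⟩, ⟨0, Rb6j0x0.job⟩]
theorem chk : ∀ b ∈ bs, check (P.mat b.lo) b.J = true :=
  List.forall_mem_cons.2 ⟨Rb6j6x0.ok, List.forall_mem_cons.2 ⟨Rb6j5x0.ok, List.forall_mem_cons.2 ⟨Rb6j4x0.ok, List.forall_mem_cons.2 ⟨Rb6j3x0.ok, List.forall_mem_cons.2 ⟨Rb6j2x0.ok, List.forall_mem_cons.2 ⟨Rb6j1x0.ok, List.forall_mem_cons.2 ⟨Rb6j0x0.ok, List.forall_mem_nil _⟩⟩⟩⟩⟩⟩⟩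
theorem wf : (bs.all fun b => b.wf (P.l + 1) P.fl P.K P.w P.F) = true := by kernel_rfl
theorem cov : cover (P.l + 1) (decide (P.kind ≤ 1)) (reps bs) 0 = true := by kernel_rfl
theorem e1 : (List.range (P.K + 1)).map (sum1 bs P.s) = V1 := by decide +kernel
theorem m1 : Mom P.A 1 P.F V1 P.err := e1 ▸ (moments P ok bs chk wf cov (P.spec2 ok2)).1
theorem eZ : (List.range (P.K + 1)).map (sumZ bs (P.l + 1) P.s) = VZ := by decide +kernel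
theorem mZ : Mom P.A (tens (P.l + 1) (rot (some 2))) P.F VZ P.err :=
  eZ ▸ (moments P ok bs chk wf cov (P.spec2 ok2)).2.1
theorem eX : (List.range (P.K + 1)).map (sumX bs (P.l + 1) P.s) = VX := by decide +kernel
theorem mX : Mom P.A (tens (P.l + 1) (rot (some 0))) P.F VX P.err :=
  eX ▸ (moments P ok bs chk wf cov (P.spec2 ok2)).2.2 rfl
end Rb6

namespace Ra7
def bs : List Blk := [⟨7, Ra7j7x0.job⟩, ⟨6, Ra7j6x0.job⟩, ⟨5, Ra7j5x0.job⟩, ⟨4, Ra7j4x0.job⟩, ⟨3, Ra7j3x0.job⟩, ⟨2, Ra7j2x0.job⟩, ⟨1, Ra7j1x0.job⟩, ⟨0, Ra7j0x0.job⟩]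
theorem chk : ∀ b ∈ bs, check (P.mat b.lo) b.J = true :=
  List.forall_mem_cons.2 ⟨Ra7j7x0.ok, List.forall_mem_cons.2 ⟨Ra7j6x0.ok, List.forall_mem_cons.2 ⟨Ra7j5x0.ok, List.forall_mem_cons.2 ⟨Ra7j4x0.ok, List.forall_mem_cons.2 ⟨Ra7j3x0.ok, List.forall_mem_cons.2 ⟨Ra7j2x0.ok, List.forall_mem_cons.2 ⟨Ra7j1x0.ok, List.forall_mem_cons.2 ⟨Ra7j0x0.ok, List.forall_mem_nil _⟩⟩⟩⟩⟩⟩⟩⟩
theorem wf : (bs.all fun b => b.wf (P.l + 1) P.fl P.K P.w P.F) = true := by kernel_rfl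
theorem cov : cover (P.l + 1) (decide (P.kind ≤ 1)) (reps bs) 0 = true := by kernel_rfl
theorem e1 : (List.range (P.K + 1)).map (sum1 bs P.s) = V1 := by decide +kernel
theorem m1 : Mom P.A 1 P.F V1 P.err := e1 ▸ (moments P ok bs chk wf cov (P.spec2 ok2)).1
theorem eZ : (List.range (P.K + 1)).map (sumZ bs (P.l + 1) P.s) = VZ := by decide +kernel
theorem mZ : Mom P.A (tens (P.l + 1) (rot (some 2))) P.F VZ P.err :=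
  eZ ▸ (moments P ok bs chk wf cov (P.spec2 ok2)).2.1
end Ra7

namespace Rb7
def bs : List Blk := [⟨7, Rb7j7x0.job⟩, ⟨6, Rb7j6x0.job⟩, ⟨5, Rb7j5x0.job⟩, ⟨4, Rb7j4x0.job⟩, ⟨3, Rb7j3x0.job⟩, ⟨2, Rb7j2x0.job⟩, ⟨1, Rb7j1x0.job⟩, ⟨0, Rb7j0x0.job⟩]
theorem chk : ∀ b ∈ bs, check (P.mat b.lo) b.J = true :=
  List.forall_mem_cons.2 ⟨Rb7j7x0.ok, List.forall_mem_cons.2 ⟨Rb7j6x0.ok, List.forall_mem_cons.2 ⟨Rb7j5x0.ok, List.forall_mem_cons.2 ⟨Rb7j4x0.ok, List.forall_mem_cons.2 ⟨Rb7j3x0.ok, List.forall_mem_cons.2 ⟨Rb7j2x0.ok, List.forall_mem_cons.2 ⟨Rb7j1x0.ok, List.forall_mem_cons.2 ⟨Rb7j0x0.ok, List.forall_mem_nil _⟩⟩⟩⟩⟩⟩⟩⟩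
theorem wf : (bs.all fun b => b.wf (P.l + 1) P.fl P.K P.w P.F) = true := by kernel_rfl
theorem cov : cover (P.l + 1) (decide (P.kind ≤ 1)) (reps bs) 0 = true := by kernel_rfl
theorem e1 : (List.range (P.K + 1)).map (sum1 bs P.s) = V1 := by decide +kernel
theorem m1 : Mom P.A 1 P.F V1 P.err := e1 ▸ (moments P ok bs chk wf cov (P.spec2 ok2)).1
theorem eZ : (List.range (P.K + 1)).map (sumZ bs (P.l + 1) P.s) = VZ := by decide +kernel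
theorem mZ : Mom P.A (tens (P.l + 1) (rot (some 2))) P.F VZ P.err :=
  eZ ▸ (moments P ok bs chk wf cov (P.spec2 ok2)).2.1
theorem eX : (List.range (P.K + 1)).map (sumX bs (P.l + 1) P.s) = VX := by decide +kernel
theorem mX : Mom P.A (tens (P.l + 1) (rot (some 0))) P.F VX P.err :=
  eX ▸ (moments P ok bs chk wf cov (P.spec2 ok2)).2.2 rfl
end Rb7

namespace Ra8
def bs : List Blk := [⟨8, Ra8j8x0.job⟩, ⟨7, Ra8j7x0.job⟩, ⟨6, Ra8j6x0.job⟩, ⟨5, Ra8j5x0.job⟩, ⟨4, Ra8j4x0.job⟩, ⟨3, Ra8j3x0.job⟩, ⟨2, Ra8j2x0.job⟩, ⟨1, Ra8j1x0.job⟩, ⟨0, Ra8j0x0.job⟩]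
theorem chk : ∀ b ∈ bs, check (P.mat b.lo) b.J = true :=
  List.forall_mem_cons.2 ⟨Ra8j8x0.ok, List.forall_mem_cons.2 ⟨Ra8j7x0.ok, List.forall_mem_cons.2 ⟨Ra8j6x0.ok, List.forall_mem_cons.2 ⟨Ra8j5x0.ok, List.forall_mem_cons.2 ⟨Ra8j4x0.ok, List.forall_mem_cons.2 ⟨Ra8j3x0.ok, List.forall_mem_cons.2 ⟨Ra8j2x0.ok, List.forall_mem_cons.2 ⟨Ra8j1x0.ok, List.forall_mem_cons.2 ⟨Ra8j0x0.ok, List.forall_mem_nil _⟩⟩⟩⟩⟩⟩⟩⟩⟩
theorem wf : (bs.all fun b => b.wf (P.l + 1) P.fl P.K P.w P.F) = true := by kernel_rfl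
theorem cov : cover (P.l + 1) (decide (P.kind ≤ 1)) (reps bs) 0 = true := by kernel_rfl
theorem e1 : (List.range (P.K + 1)).map (sum1 bs P.s) = V1 := by decide +kernel
theorem m1 : Mom P.A 1 P.F V1 P.err := e1 ▸ (moments P ok bs chk wf cov (P.spec2 ok2)).1
theorem eZ : (List.range (P.K + 1)).map (sumZ bs (P.l + 1) P.s) = VZ := by decide +kernel
theorem mZ : Mom P.A (tens (P.l + 1) (rot (some 2))) P.F VZ P.err :=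
  eZ ▸ (moments P ok bs chk wf cov (P.spec2 ok2)).2.1
end Ra8

namespace Rb8
def bs : List Blk := [⟨8, Rb8j8x0.job⟩, ⟨7, Rb8j7x0.job⟩, ⟨6, Rb8j6x0.job⟩, ⟨5, Rb8j5x0.job⟩, ⟨4, Rb8j4x0.job⟩, ⟨3, Rb8j3x0.job⟩, ⟨2, Rb8j2x0.job⟩, ⟨1, Rb8j1x0.job⟩, ⟨0, Rb8j0x0.job⟩]
theorem chk : ∀ b ∈ bs, check (P.mat b.lo) b.J = true :=
  List.forall_mem_cons.2 ⟨Rb8j8x0.ok, List.forall_mem_cons.2 ⟨Rb8j7x0.ok, List.forall_mem_cons.2 ⟨Rb8j6x0.ok, List.forall_mem_cons.2 ⟨Rb8j5x0.ok, List.forall_mem_cons.2 ⟨Rb8j4x0.ok, List.forall_mem_cons.2 ⟨Rb8j3x0.ok, List.forall_mem_cons.2 ⟨Rb8j2x0.ok, List.forall_mem_cons.2 ⟨Rb8j1x0.ok, List.forall_mem_cons.2 ⟨Rb8j0x0.ok, List.forall_mem_nil _⟩⟩⟩⟩⟩⟩⟩⟩⟩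
theorem wf : (bs.all fun b => b.wf (P.l + 1) P.fl P.K P.w P.F) = true := by kernel_rfl
theorem cov : cover (P.l + 1) (decide (P.kind ≤ 1)) (reps bs) 0 = true := by kernel_rfl
theorem e1 : (List.range (P.K + 1)).map (sum1 bs P.s) = V1 := by decide +kernel
theorem m1 : Mom P.A 1 P.F V1 P.err := e1 ▸ (moments P ok bs chk wf cov (P.spec2 ok2)).1
theorem eZ : (List.range (P.K + 1)).map (sumZ bs (P.l + 1) P.s) = VZ := by decide +kernel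
theorem mZ : Mom P.A (tens (P.l + 1) (rot (some 2))) P.F VZ P.err :=
  eZ ▸ (moments P ok bs chk wf cov (P.spec2 ok2)).2.1
theorem eX : (List.range (P.K + 1)).map (sumX bs (P.l + 1) P.s) = VX := by decide +kernel
theorem mX : Mom P.A (tens (P.l + 1) (rot (some 0))) P.F VX P.err :=
  eX ▸ (moments P ok bs chk wf cov (P.spec2 ok2)).2.2 rfl
end Rb8


end Crest.Agent.R347.Eng
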