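import Crest.Agent.R347.D.Par
import Crest.Agent.R347.D.F003
import Crest.Agent.R347.D.F004
import Crest.Agent.R347.D.F005
import Crest.Agent.R347.D.F006
import Crest.Agent.R347.D.F010
import Crest.Agent.R347.D.F012
import Crest.Agent.R347.D.F017
import Crest.Agent.R347.D.F019
import Crest.Agent.R347.D.F020
import Crest.Agent.R347.D.F029
import Crest.Agent.R347.D.F030
import Crest.Agent.R347.D.F031
import Crest.Agent.R347.D.F032
import Crest.Agent.R347.D.F046
import Crest.Agent.R347.D.F050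
import Crest.Agent.R347.D.F054
import Crest.Agent.R347.D.F056
import Crest.Agent.R347.D.F057
import Crest.Agent.R347.D.F060
import Crest.Agent.R347.D.F061
import Crest.Agent.R347.D.F063
import Crest.Agent.R347.D.F066
import Crest.Agent.R347.D.F067
import Crest.Agent.R347.D.F068
import Crest.Agent.R347.D.F069
import Crest.Agent.R347.D.F072
import Crest.Agent.R347.D.F073
import Crest.Agent.R347.D.F075
import Crest.Agent.R347.D.F078
import Crest.Agent.R347.D.F079
import Crest.Agent.R347.D.F091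
import Crest.Agent.R347.D.F092
import Crest.Agent.R347.D.F097
import Crest.Agent.R347.D.F098
import Crest.Agent.R347.D.F102
import Crest.Agent.R347.D.F103

/-! Row 347: the moments (computer generated) -/

set_option autoImplicit false
set_option Elab.async false
set_option maxRecDepth 100000

namespace Crest.Agent.R347.Eng

namespace Ra10
def S10 : Sec := ⟨10, 7, [(10, 242), (20, 404), (40, 458), (40, 476), (40, 482), (10, 484), (20, 566), (40, 620), (40, 638), (20, 644), (40, 674), (20, 692), (20, 944), (40, 962), (20, 968), (20, 1106), (40, 1124), (40, 1130), (20, 1132), (40, 1160), (40, 1178), (40, 1184), (40, 1186), (40, 1196), (40, 1202), (40, 1204), (20, 1208), (10, 1210), (20, 1268), (40, 1286), (40, 1292), (40, 1294), (40, 1322), (40, 1340), (40, 1346), (40, 1348), (40, 1358), (40, 1364), (20, 1366), (40, 1370), (40, 1394), (40, 1400), (20, 1402), (40, 1412), (40, 1418), (40, 1424), (20, 1436), (40, 1610), (40, 1616),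 (20, 1646), (40, 1664), (40, 1670), (40, 1682), (40, 1688), (10, 1694), (40, 1772), (40, 1778), (20, 1808), (40, 1826), (40, 1832), (40, 1844), (20, 1850), (40, 1880), (20, 1886), (40, 1898), (20, 1970), (40, 1988), (20, 2006), (20, 2042), (10, 2420), (20, 2582), (40, 2588), (40, 2636), (40, 2642), (20, 2644), (40, 2654), (40, 2660), (20, 2662), (20, 2744), (40, 2750), (40, 2798), (40, 2804), (40, 2806), (40, 2816), (40, 2822), (40, 2824), (20, 2828), (20, 2830), (40, 2852), (40, 2858), (40, 2860), (40, 2870), (40, 2876), (40, 2878), (20, 3122), (40, 3128), (40, 3140), (20, 3146), (20, 3284), (40, 3290), (20, 3292), (40, 3302), (40, 3308), (40, 3310), (20, 3314), (20, 3316), (40, 3338), (40, 3344), (40, 3346), (40, 3356), (40, 3362), (40, 3364), (40, 3368), (40, 3370), (20, 3380), (40, 3382), (10, 3388), (20, 3446), (40, 3452), (40, 3454), (40, 3464), (40, 3470), (40, 3472), (40, 3476), (40, 3478), (40, 3500), (40, 3506), (40,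 3508), (40, 3518), (40, 3524), (40, 3526), (40, 3530), (20, 3532), (40, 3542), (40, 3544), (40, 3548), (20, 3572), (20, 3578), (40, 3580), (20, 3584), (20, 3598), (40, 3776), (40, 3788), (40, 3794), (40, 3796), (20, 3800), (20, 3824), (40, 3830), (40, 3832), (40, 3842), (40, 3848), (40, 3850), (40, 3854), (40, 3866), (20, 3868), (20, 3872), (40, 3938), (20, 3940), (40, 3950), (40, 3956), (40, 3958), (40, 3962), (20, 3986), (40, 3992), (40, 3994), (40, 4004), (40, 4010), (20, 4012), (40, 4016), (40, 4028), (40, 4034), (40, 4058), (40, 4064), (40, 4070), (40, 4082), (40, 4088), (10, 4148), (40, 4154), (20, 4156), (20, 4172), (40, 4178), (20, 4196), (20, 4586), (10, 4598), (40, 4748), (20, 4760), (40, 4766), (40, 4802), (40, 4814), (40, 4820), (40, 4826), (40, 4910), (20, 4922), (40, 4928), (20, 4934), (40, 4964), (40, 4976), (40, 4982), (20, 4988), (40, 5000), (20, 5030), (20, 5036), (40, 5234), (40, 5252), (40, 5288), (20, 5300),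 (40, 5306), (10, 5324), (40, 5396), (40, 5414), (40, 5450), (20, 5462), (20, 5468), (20, 5516), (10, 5612), (20, 5624), (10, 7502), (20, 7664), (40, 7682), (20, 7684), (40, 7718), (40, 7736), (40, 7738), (20, 7742), (10, 7744), (20, 7826), (40, 7844), (40, 7846), (40, 7880), (40, 7898), (20, 7900), (40, 7904), (20, 7916), (40, 8168), (20, 8204), (40, 8222), (10, 8228), (40, 8330), (20, 8366), (20, 8384), (20, 9140), (40, 9194), (10, 9196), (20, 9302), (20, 9356), (10, 9680), (20, 9842), (20, 9844), (20, 9848), (20, 9850), (20, 9860), (40, 9862), (20, 9868), (20, 9896), (40, 9898), (20, 9902), (40, 9904), (20, 9916), (10, 9922), (10, 10004), (40, 10006), (40, 10010), (40, 10012), (40, 10024), (20, 10028), (20, 10030), (20, 10060), (40, 10066), (20, 10334), (20, 10336), (20, 10346), (40, 10348), (40, 10352), (40, 10384), (20, 10388), (20, 10390), (40, 10402), (10, 10406), (10, 10492), (20, 10498), (20, 10510), (20, 11356), (20,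 11360), (10, 11374), (10, 11468), (20, 11482), (20, 11486), (20, 11518), (2, 14762), (1, 29524)],
  [(0, [Ra10j10c0x0.job, Ra10j10c0x1.job, Ra10j10c0x2.job]), (1, [Ra10j10c1x0.job, Ra10j10c1x1.job, Ra10j10c1x2.job]), (2, [Ra10j10c2x0.job, Ra10j10c2x1.job, Ra10j10c2x2.job]), (3, [Ra10j10c3x0.job, Ra10j10c3x1.job]), (4, [Ra10j10c4x0.job, Ra10j10c4x1.job]), (5, [Ra10j10c5x0.job, Ra10j10c5x1.job, Ra10j10c5x2.job]), (6, [Ra10j10c6x0.job, Ra10j10c6x1.job, Ra10j10c6x2.job]), (7, [Ra10j10c7x0.job, Ra10j10c7x1.job, Ra10j10c7x2.job])]⟩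
theorem c10 : ∀ b ∈ S10.blks, ∀ J ∈ b.2, check (P.smat S10.lo S10.mode b.1) J = true :=
  List.forall_mem_cons.2 ⟨List.forall_mem_cons.2 ⟨Ra10j10c0x0.ok, List.forall_mem_cons.2 ⟨Ra10j10c0x1.ok, List.forall_mem_cons.2 ⟨Ra10j10c0x2.ok, List.forall_mem_nil _⟩⟩⟩, List.forall_mem_cons.2 ⟨List.forall_mem_cons.2 ⟨Ra10j10c1x0.ok, List.forall_mem_cons.2 ⟨Ra10j10c1x1.ok, List.forall_mem_cons.2 ⟨Ra10j10c1x2.ok, List.forall_mem_nil _⟩⟩⟩, List.forall_mem_cons.2 ⟨List.forall_mem_cons.2 ⟨Ra10j10c2x0.ok, List.forall_mem_cons.2 ⟨Ra10j10c2x1.ok, List.forall_mem_cons.2 ⟨Ra10j10c2x2.ok, List.forall_mem_nil _⟩⟩⟩, List.forall_mem_cons.2 ⟨List.forall_mem_cons.2 ⟨Ra10j10c3x0.ok, List.forall_mem_cons.2 ⟨Ra10j10c3x1.ok, List.forall_mem_nil _⟩⟩, List.forall_mem_cons.2 ⟨List.forall_mem_cons.2 ⟨Ra10j10c4x0.ok, List.forall_mem_cons.2 ⟨Ra10j10c4x1.ok, List.forall_mem_nil _⟩⟩, List.forall_mem_cons.2 ⟨List.forall_mem_cons.2 ⟨Ra10j10c5x0.ok, List.forall_mem_cons.2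 ⟨Ra10j10c5x1.ok, List.forall_mem_cons.2 ⟨Ra10j10c5x2.ok, List.forall_mem_nil _⟩⟩⟩, List.forall_mem_cons.2 ⟨List.forall_mem_cons.2 ⟨Ra10j10c6x0.ok, List.forall_mem_cons.2 ⟨Ra10j10c6x1.ok, List.forall_mem_cons.2 ⟨Ra10j10c6x2.ok, List.forall_mem_nil _⟩⟩⟩, List.forall_mem_cons.2 ⟨List.forall_mem_cons.2 ⟨Ra10j10c7x0.ok, List.forall_mem_cons.2 ⟨Ra10j10c7x1.ok, List.forall_mem_cons.2 ⟨Ra10j10c7x2.ok, List.forall_mem_nil _⟩⟩⟩, List.forall_mem_nil _⟩⟩⟩⟩⟩⟩⟩⟩
theorem g10 : Good (fun c => okS (P.l + 1) S10.lo c = true) (P.gens S10.mode 0) :=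
  good_nine Ra10g10.g0 Ra10g10.g1 Ra10g10.g2 Ra10g10.g3 Ra10g10.g4 Ra10g10.g5 Ra10g10.g6 Ra10g10.g7 Ra10g10.g8 (by decide +kernel)
theorem w10 : S10.wf P = true := by kernel_rfl
def S9 : Sec := ⟨9, 3, [(40, 161), (40, 215), (20, 233), (40, 323), (40, 377), (40, 395), (40, 401), (40, 403), (40, 431), (40, 449), (40, 455), (40, 457), (40, 467), (40, 473), (40, 479), (40, 539), (40, 557), (40, 563), (40, 593), (40, 611), (40, 617), (40, 629), (40, 665), (40, 809), (40, 863), (40, 881), (40, 887), (40, 889), (40, 917), (40, 935), (40, 941), (40, 943), (40, 953), (40, 959), (40, 961), (40, 965), (40, 967), (40, 1025), (40, 1043), (40, 1049), (40, 1051), (40, 1079), (40, 1097), (40, 1103), (40, 1105), (40, 1115), (40, 1121), (40, 1123), (40, 1127), (40, 1129), (40, 1151), (40, 1157), (40, 1159), (40, 1169), (40, 1175), (40, 1177), (40, 1181), (20, 1183), (40, 1193), (40, 1195), (40, 1199), (40, 1241), (40, 1259), (40, 1265), (40,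 1267), (40, 1277), (40, 1283), (40, 1285), (40, 1289), (40, 1313), (40, 1319), (40, 1321), (40, 1331), (40, 1337), (20, 1339), (40, 1343), (40, 1355), (40, 1361), (40, 1385), (40, 1391), (40, 1397), (40, 1409), (40, 1415), (40, 1433), (40, 1511), (40, 1529), (40, 1535), (40, 1565), (40, 1583), (40, 1589), (40, 1601), (40, 1607), (40, 1613), (40, 1637), (40, 1643), (40, 1655), (40, 1661), (20, 1667), (40, 1679), (40, 1727), (40, 1745), (40, 1751), (40, 1763), (40, 1769), (40, 1799), (40, 1805), (40, 1817), (20, 1823), (40, 1871), (40, 1961), (20, 1979), (40, 2321), (40, 2339), (40, 2345), (20, 2347), (40, 2375), (40, 2393), (20, 2399), (20, 2411), (40, 2483), (40, 2501), (40, 2507), (40, 2509), (40, 2537), (40, 2555), (40, 2561), (40, 2563), (40, 2573), (40, 2579), (40, 2581), (40, 2585), (40, 2587), (40, 2609), (40, 2615), (40, 2617), (40, 2627), (40, 2633), (40, 2635), (40, 2639), (40, 2641), (40, 2651), (40, 2653), (40, 2657),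 (40, 2659), (40, 2665), (40, 2699), (40, 2717), (40, 2723), (40, 2725), (40, 2735), (40, 2741), (40, 2743), (40, 2747), (40, 2749), (40, 2771), (40, 2777), (40, 2779), (40, 2789), (40, 2795), (40, 2797), (40, 2801), (40, 2803), (40, 2813), (40, 2815), (40, 2819), (40, 2821), (40, 2827), (40, 2843), (40, 2849), (40, 2851), (40, 2855), (40, 2857), (40, 2867), (40, 2869), (40, 2873), (40, 2875), (40, 2891), (40, 2893), (40, 2969), (40, 2987), (40, 3023), (40, 3041), (40, 3047), (40, 3049), (40, 3059), (40, 3065), (40, 3067), (40, 3071), (40, 3073), (40, 3095), (40, 3101), (40, 3103), (40, 3113), (40, 3119), (40, 3121), (40, 3125), (40, 3127), (40, 3137), (40, 3139), (40, 3143), (40, 3145), (20, 3185), (40, 3203), (40, 3209), (40, 3211), (40, 3221), (40, 3227), (40, 3229), (40, 3233), (40, 3235), (40, 3257), (40, 3263), (40, 3265), (40, 3275), (40, 3281), (40, 3283), (40, 3287), (40, 3289), (40, 3299), (40, 3301), (40, 3305), (40,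 3307), (40, 3329), (40, 3335), (40, 3337), (40, 3341), (40, 3343), (40, 3353), (40, 3355), (40, 3359), (40, 3377), (40, 3419), (40, 3425), (40, 3427), (40, 3437), (40, 3443), (40, 3445), (40, 3449), (40, 3451), (40, 3461), (40, 3463), (40, 3467), (40, 3491), (40, 3497), (40, 3499), (40, 3503), (40, 3515), (40, 3517), (40, 3521), (40, 3539), (40, 3569), (40, 3571), (40, 3575), (40, 3593), (40, 3695), (40, 3697), (40, 3707), (40, 3713), (40, 3715), (40, 3719), (40, 3743), (40, 3749), (40, 3751), (40, 3761), (40, 3767), (40, 3769), (40, 3773), (40, 3785), (40, 3787), (40, 3791), (40, 3815), (40, 3821), (40, 3823), (40, 3827), (40, 3839), (40, 3845), (40, 3863), (40, 3905), (20, 3911), (40, 3923), (40, 3929), (40, 3931), (40, 3935), (40, 3947), (40, 3953), (40, 3983), (40, 3989), (40, 4001), (40, 4007), (40, 4025), (40, 4061), (20, 4079), (40, 4151), (40, 4163), (40, 4169), (40, 4187), (40, 4223), (40, 4553), (40, 4559), (40, 4571),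 (20, 4577), (40, 4661), (40, 4667), (40, 4679), (40, 4685), (40, 4691), (40, 4715), (40, 4721), (40, 4733), (40, 4739), (40, 4745), (40, 4757), (40, 4763), (40, 4787), (40, 4793), (40, 4799), (40, 4811), (20, 4883), (40, 4895), (40, 4901), (40, 4907), (40, 4919), (40, 4955), (40, 4973), (40, 5201), (40, 5207), (40, 5219), (40, 5225), (40, 5243), (40, 5279), (40, 5381), (40, 5387), (20, 7397), (40, 7415), (40, 7421), (40, 7423), (40, 7433), (40, 7439), (20, 7441), (40, 7445), (40, 7469), (40, 7475), (40, 7487), (20, 7493), (40, 7577), (40, 7583), (40, 7585), (40, 7595), (40, 7601), (40, 7603), (40, 7607), (40, 7609), (40, 7631), (40, 7637), (40, 7639), (40, 7649), (40, 7655), (40, 7657), (40, 7661), (40, 7663), (40, 7673), (40, 7675), (40, 7679), (20, 7681), (40, 7709), (40, 7711), (40, 7715), (20, 7717), (40, 7727), (40, 7729), (40, 7733), (40, 7811), (40, 7817), (40, 7819), (40, 7823), (40, 7835), (20, 7837), (40, 7841), (40,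 7871), (20, 7873), (40, 7877), (40, 7889), (40, 7895), (40, 7949), (20, 8123), (40, 8135), (40, 8141), (40, 8147), (40, 8159), (20, 8165), (40, 8195), (20, 8201), (40, 8213), (40, 8303), (20, 8321), (20, 8357), (40, 9089), (20, 9095), (40, 9107), (40, 9113), (40, 9115), (40, 9119), (40, 9121), (40, 9131), (40, 9133), (40, 9137), (40, 9167), (40, 9169), (40, 9173), (40, 9185), (40, 9191), (40, 9275), (40, 9281), (40, 9293), (40, 9329), (40, 9599), (40, 9601), (40, 9605), (20, 9607), (40, 9617), (20, 9619), (40, 9623), (40, 9653), (20, 9659), (20, 9671), (40, 9761), (40, 9763), (40, 9767), (40, 9779), (40, 9815), (20, 9817), (20, 9821), (40, 9833), (20, 9839), (20, 9841)],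
  [(0, [Ra10j9c0x0.job, Ra10j9c0x1.job, Ra10j9c0x2.job, Ra10j9c0x3.job, Ra10j9c0x4.job, Ra10j9c0x5.job, Ra10j9c0x6.job, Ra10j9c0x7.job, Ra10j9c0x8.job]), (1, [Ra10j9c1x0.job, Ra10j9c1x1.job, Ra10j9c1x2.job, Ra10j9c1x3.job, Ra10j9c1x4.job, Ra10j9c1x5.job, Ra10j9c1x6.job, Ra10j9c1x7.job]), (2, [Ra10j9c2x0.job, Ra10j9c2x1.job, Ra10j9c2x2.job, Ra10j9c2x3.job, Ra10j9c2x4.job, Ra10j9c2x5.job, Ra10j9c2x6.job, Ra10j9c2x7.job]), (3, [Ra10j9c3x0.job, Ra10j9c3x1.job, Ra10j9c3x2.job, Ra10j9c3x3.job, Ra10j9c3x4.job, Ra10j9c3x5.job, Ra10j9c3x6.job, Ra10j9c3x7.job, Ra10j9c3x8.job])]⟩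
theorem c9 : ∀ b ∈ S9.blks, ∀ J ∈ b.2, check (P.smat S9.lo S9.mode b.1) J = true :=
  List.forall_mem_cons.2 ⟨List.forall_mem_cons.2 ⟨Ra10j9c0x0.ok, List.forall_mem_cons.2 ⟨Ra10j9c0x1.ok, List.forall_mem_cons.2 ⟨Ra10j9c0x2.ok, List.forall_mem_cons.2 ⟨Ra10j9c0x3.ok, List.forall_mem_cons.2 ⟨Ra10j9c0x4.ok, List.forall_mem_cons.2 ⟨Ra10j9c0x5.ok, List.forall_mem_cons.2 ⟨Ra10j9c0x6.ok, List.forall_mem_cons.2 ⟨Ra10j9c0x7.ok, List.forall_mem_cons.2 ⟨Ra10j9c0x8.ok, List.forall_mem_nil _⟩⟩⟩⟩⟩⟩⟩⟩⟩, List.forall_mem_cons.2 ⟨List.forall_mem_cons.2 ⟨Ra10j9c1x0.ok, List.forall_mem_cons.2 ⟨Ra10j9c1x1.ok, List.forall_mem_cons.2 ⟨Ra10j9c1x2.ok, List.forall_mem_cons.2 ⟨Ra10j9c1x3.ok, List.forall_mem_cons.2 ⟨Ra10j9c1x4.ok, List.forall_mem_cons.2 ⟨Ra10j9c1x5.ok, List.forall_mem_cons.2 ⟨Ra10j9c1x6.ok, List.forall_mem_cons.2 ⟨Ra10j9c1x7.ok, List.forall_mem_nil _⟩⟩⟩⟩⟩⟩⟩⟩, List.forall_mem_cons.2 ⟨List.forall_mem_cons.2 ⟨Ra10j9c2x0.ok, List.forall_mem_cons.2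 ⟨Ra10j9c2x1.ok, List.forall_mem_cons.2 ⟨Ra10j9c2x2.ok, List.forall_mem_cons.2 ⟨Ra10j9c2x3.ok, List.forall_mem_cons.2 ⟨Ra10j9c2x4.ok, List.forall_mem_cons.2 ⟨Ra10j9c2x5.ok, List.forall_mem_cons.2 ⟨Ra10j9c2x6.ok, List.forall_mem_cons.2 ⟨Ra10j9c2x7.ok, List.forall_mem_nil _⟩⟩⟩⟩⟩⟩⟩⟩, List.forall_mem_cons.2 ⟨List.forall_mem_cons.2 ⟨Ra10j9c3x0.ok, List.forall_mem_cons.2 ⟨Ra10j9c3x1.ok, List.forall_mem_cons.2 ⟨Ra10j9c3x2.ok, List.forall_mem_cons.2 ⟨Ra10j9c3x3.ok, List.forall_mem_cons.2 ⟨Ra10j9c3x4.ok, List.forall_mem_cons.2 ⟨Ra10j9c3x5.ok, List.forall_mem_cons.2 ⟨Ra10j9c3x6.ok, List.forall_mem_cons.2 ⟨Ra10j9c3x7.ok, List.forall_mem_cons.2 ⟨Ra10j9c3x8.ok, List.forall_mem_nil _⟩⟩⟩⟩⟩⟩⟩⟩⟩, List.forall_mem_nil _⟩⟩⟩⟩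
theorem g9 : Good (fun c => okS (P.l + 1) S9.lo c = true) (P.gens S9.mode 0) :=
  good_nine Ra10g9.g0 Ra10g9.g1 Ra10g9.g2 Ra10g9.g3 Ra10g9.g4 Ra10g9.g5 Ra10g9.g6 Ra10g9.g7 Ra10g9.g8 (by decide +kernel)
theorem w9 : S9.wf P = true := by kernel_rfl
def S8 : Sec := ⟨8, 3, [(20, 80), (40, 134), (40, 152), (40, 158), (20, 160), (40, 188), (40, 206), (20, 212), (20, 224), (40, 296), (40, 314), (40, 320), (40, 322), (40, 350), (40, 368), (40, 374), (40, 376), (40, 386), (40, 392), (40, 394), (40, 398), (20, 400), (40, 422), (40, 428), (40, 430), (40, 440), (40, 446), (20, 448), (40, 452), (40, 464), (40, 470), (40, 512), (40, 530), (40, 536), (40, 548), (40, 554), (20, 560), (40, 584), (40, 590), (40, 602), (20, 608), (20, 656), (40, 782), (40, 800), (40, 806), (40, 808), (40, 836), (40, 854), (40, 860), (40, 862), (40, 872), (40, 878), (40, 880), (40, 884), (40, 886), (40, 908), (40, 914), (40, 916), (40, 926), (40, 932), (40, 934),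 (40, 938), (40, 940), (40, 950), (40, 952), (40, 956), (40, 958), (20, 964), (40, 998), (40, 1016), (40, 1022), (40, 1024), (40, 1034), (40, 1040), (40, 1042), (40, 1046), (40, 1048), (40, 1070), (40, 1076), (40, 1078), (40, 1088), (40, 1094), (40, 1096), (40, 1100), (40, 1102), (40, 1112), (40, 1114), (40, 1118), (20, 1120), (40, 1142), (40, 1148), (40, 1150), (40, 1154), (20, 1156), (40, 1166), (40, 1168), (40, 1172), (40, 1190), (40, 1232), (40, 1238), (40, 1240), (40, 1250), (40, 1256), (40, 1258), (40, 1262), (40, 1274), (20, 1276), (40, 1280), (40, 1304), (40, 1310), (20, 1312), (40, 1316), (40, 1328), (40, 1334), (40, 1352), (40, 1382), (40, 1388), (40, 1406), (20, 1484), (40, 1502), (40, 1508), (40, 1520), (40, 1526), (40, 1532), (40, 1556), (40, 1562), (40, 1574), (40, 1580), (40, 1586), (40, 1598), (20, 1604), (40, 1628), (40, 1634), (20, 1640), (40, 1652), (40, 1718), (40, 1724), (40, 1736), (40, 1742), (20, 1760),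 (40, 1790), (20, 1796), (10, 1952), (40, 2294), (40, 2312), (40, 2318), (40, 2320), (40, 2330), (40, 2336), (20, 2338), (40, 2342), (40, 2366), (40, 2372), (40, 2384), (20, 2390), (20, 2456), (40, 2474), (40, 2480), (40, 2482), (40, 2492), (40, 2498), (40, 2500), (40, 2504), (40, 2506), (40, 2528), (40, 2534), (40, 2536), (40, 2546), (40, 2552), (40, 2554), (40, 2558), (40, 2560), (40, 2570), (40, 2572), (40, 2576), (40, 2578), (40, 2584), (40, 2600), (40, 2606), (40, 2608), (40, 2612), (40, 2614), (40, 2624), (40, 2626), (40, 2630), (40, 2632), (40, 2638), (40, 2648), (40, 2650), (20, 2656), (40, 2690), (40, 2696), (40, 2698), (40, 2708), (40, 2714), (40, 2716), (40, 2720), (40, 2722), (40, 2732), (40, 2734), (40, 2738), (40, 2740), (40, 2746), (40, 2762), (40, 2768), (40, 2770), (40, 2774), (40, 2776), (40, 2786), (40, 2788), (40, 2792), (40, 2794), (20, 2800), (40, 2810), (40, 2812), (40, 2840), (40, 2842), (40, 2846), (40,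 2848), (40, 2864), (40, 2866), (40, 2960), (40, 2966), (20, 2968), (40, 2978), (20, 2984), (40, 3014), (40, 3020), (40, 3022), (40, 3032), (40, 3038), (40, 3040), (40, 3044), (40, 3046), (40, 3056), (40, 3058), (40, 3062), (40, 3064), (40, 3086), (40, 3092), (40, 3094), (40, 3098), (40, 3100), (40, 3110), (40, 3112), (40, 3116), (40, 3118), (40, 3134), (20, 3136), (40, 3176), (20, 3182), (40, 3194), (40, 3200), (40, 3202), (40, 3206), (40, 3208), (40, 3218), (40, 3220), (40, 3224), (40, 3226), (20, 3248), (40, 3254), (40, 3256), (40, 3260), (40, 3262), (40, 3272), (40, 3274), (40, 3278), (20, 3280), (40, 3296), (40, 3326), (40, 3328), (40, 3332), (40, 3350), (20, 3416), (40, 3418), (40, 3422), (20, 3424), (40, 3434), (40, 3436), (40, 3440), (40, 3458), (40, 3488), (40, 3490), (40, 3494), (20, 3512), (40, 3692), (40, 3704), (40, 3706), (40, 3710), (40, 3740), (40, 3742), (40, 3746), (40, 3758), (20, 3760), (40, 3764), (40, 3782),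 (40, 3818), (20, 3836), (10, 3904), (20, 3908), (40, 3920), (40, 3926), (40, 3944), (40, 3980), (20, 4544), (40, 4550), (20, 4556), (20, 4568), (40, 4652), (40, 4658), (40, 4664), (40, 4676), (40, 4682), (40, 4712), (40, 4718), (40, 4730), (20, 4736), (10, 4880), (40, 4892), (40, 5198), (20, 5216), (40, 7388), (20, 7394), (40, 7406), (40, 7412), (40, 7414), (40, 7418), (20, 7420), (40, 7430), (20, 7432), (40, 7436), (40, 7466), (20, 7472), (20, 7484), (20, 7568), (40, 7574), (40, 7576), (40, 7580), (40, 7582), (40, 7592), (40, 7594), (40, 7598), (40, 7600), (40, 7628), (40, 7630), (40, 7634), (40, 7636), (40, 7646), (40, 7648), (40, 7652), (20, 7654), (40, 7706), (20, 7808), (20, 7810), (40, 7814), (20, 7868), (20, 8120), (40, 8132), (20, 8138), (40, 9086), (20, 9088), (20, 9092), (40, 9104), (40, 9106), (40, 9110), (20, 9112), (10, 9272), (20, 9596), (20, 9598), (10, 9760)],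
  [(0, [Ra10j8c0x0.job, Ra10j8c0x1.job, Ra10j8c0x2.job, Ra10j8c0x3.job, Ra10j8c0x4.job, Ra10j8c0x5.job]), (1, [Ra10j8c1x0.job, Ra10j8c1x1.job, Ra10j8c1x2.job, Ra10j8c1x3.job, Ra10j8c1x4.job]), (2, [Ra10j8c2x0.job, Ra10j8c2x1.job, Ra10j8c2x2.job, Ra10j8c2x3.job, Ra10j8c2x4.job]), (3, [Ra10j8c3x0.job, Ra10j8c3x1.job, Ra10j8c3x2.job, Ra10j8c3x3.job, Ra10j8c3x4.job, Ra10j8c3x5.job])]⟩
theorem c8 : ∀ b ∈ S8.blks, ∀ J ∈ b.2, check (P.smat S8.lo S8.mode b.1) J = true :=
  List.forall_mem_cons.2 ⟨List.forall_mem_cons.2 ⟨Ra10j8c0x0.ok, List.forall_mem_cons.2 ⟨Ra10j8c0x1.ok, List.forall_mem_cons.2 ⟨Ra10j8c0x2.ok, List.forall_mem_cons.2 ⟨Ra10j8c0x3.ok, List.forall_mem_cons.2 ⟨Ra10j8c0x4.ok, List.forall_mem_cons.2 ⟨Ra10j8c0x5.ok, List.forall_mem_nil _⟩⟩⟩⟩⟩⟩, List.forall_mem_cons.2 ⟨List.forall_mem_cons.2 ⟨Ra10j8c1x0.ok, List.forall_mem_cons.2 ⟨Ra10j8c1x1.ok, List.forall_mem_cons.2 ⟨Ra10j8c1x2.ok, List.forall_mem_cons.2 ⟨Ra10j8c1x3.ok,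 List.forall_mem_cons.2 ⟨Ra10j8c1x4.ok, List.forall_mem_nil _⟩⟩⟩⟩⟩, List.forall_mem_cons.2 ⟨List.forall_mem_cons.2 ⟨Ra10j8c2x0.ok, List.forall_mem_cons.2 ⟨Ra10j8c2x1.ok, List.forall_mem_cons.2 ⟨Ra10j8c2x2.ok, List.forall_mem_cons.2 ⟨Ra10j8c2x3.ok, List.forall_mem_cons.2 ⟨Ra10j8c2x4.ok, List.forall_mem_nil _⟩⟩⟩⟩⟩, List.forall_mem_cons.2 ⟨List.forall_mem_cons.2 ⟨Ra10j8c3x0.ok, List.forall_mem_cons.2 ⟨Ra10j8c3x1.ok, List.forall_mem_cons.2 ⟨Ra10j8c3x2.ok, List.forall_mem_cons.2 ⟨Ra10j8c3x3.ok, List.forall_mem_cons.2 ⟨Ra10j8c3x4.ok, List.forall_mem_cons.2 ⟨Ra10j8c3x5.ok, List.forall_mem_nil _⟩⟩⟩⟩⟩⟩, List.forall_mem_nil _⟩⟩⟩⟩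
theorem g8 : Good (fun c => okS (P.l + 1) S8.lo c = true) (P.gens S8.mode 0) :=
  good_nine Ra10g8.g0 Ra10g8.g1 Ra10g8.g2 Ra10g8.g3 Ra10g8.g4 Ra10g8.g5 Ra10g8.g6 Ra10g8.g7 Ra10g8.g8 (by decide +kernel)
theorem w8 : S8.wf P = true := by kernel_rfl
def S7 : Sec := ⟨7, 3, [(40, 53), (40, 71), (40, 107), (40, 125), (40, 131), (40, 133), (40, 143), (40, 149), (20, 151), (40, 155), (40, 179), (40, 185), (40, 197), (20, 203), (40, 269), (40, 287), (40, 293), (40, 295), (40, 305), (40, 311), (40, 313), (40, 317), (40, 319), (40, 341), (40, 347), (40, 349), (40, 359), (40, 365), (40, 367), (40, 371), (40, 373), (40, 383), (40, 385), (40, 389), (40, 413), (40, 419), (40, 421), (40, 425), (40, 437), (40, 443), (40, 461), (40, 503), (40, 509), (40, 521), (40, 527), (40, 533), (40, 545), (40, 575), (40, 581), (20, 755), (40, 773), (40, 779), (40, 781), (40, 791), (40, 797), (40, 799), (40, 803), (40, 805), (40, 827), (40, 833), (40, 835),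 (40, 845), (40, 851), (40, 853), (40, 857), (40, 859), (40, 869), (40, 871), (40, 875), (40, 877), (40, 883), (40, 899), (40, 905), (40, 907), (40, 911), (40, 913), (40, 923), (40, 925), (40, 929), (40, 931), (20, 937), (40, 947), (40, 949), (40, 989), (40, 995), (40, 997), (40, 1007), (40, 1013), (40, 1015), (40, 1019), (40, 1021), (40, 1031), (40, 1033), (40, 1037), (40, 1039), (40, 1061), (40, 1067), (40, 1069), (40, 1073), (40, 1075), (40, 1085), (40, 1087), (40, 1091), (20, 1093), (40, 1109), (40, 1139), (40, 1141), (40, 1145), (40, 1163), (40, 1223), (40, 1229), (40, 1231), (40, 1235), (40, 1247), (20, 1249), (40, 1253), (40, 1271), (40, 1301), (40, 1307), (40, 1325), (40, 1379), (20, 1481), (40, 1493), (40, 1499), (40, 1505), (40, 1517), (40, 1523), (40, 1547), (40, 1553), (40, 1559), (40, 1571), (20, 1577), (40, 1625), (40, 1715), (20, 1733), (40, 2285), (40, 2291), (40, 2293), (40, 2303), (40, 2309), (40, 2311), (40,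 2315), (20, 2317), (40, 2327), (20, 2329), (40, 2333), (40, 2357), (40, 2363), (20, 2369), (20, 2381), (40, 2447), (20, 2453), (40, 2465), (40, 2471), (40, 2473), (40, 2477), (40, 2479), (40, 2489), (40, 2491), (40, 2495), (40, 2497), (40, 2503), (40, 2519), (40, 2525), (40, 2527), (40, 2531), (40, 2533), (40, 2543), (40, 2545), (40, 2549), (40, 2551), (40, 2557), (40, 2567), (40, 2569), (40, 2575), (40, 2597), (40, 2599), (40, 2603), (40, 2605), (40, 2611), (40, 2621), (40, 2623), (40, 2687), (40, 2689), (40, 2693), (40, 2695), (40, 2705), (40, 2707), (40, 2711), (40, 2713), (40, 2719), (40, 2729), (40, 2731), (40, 2759), (40, 2761), (40, 2765), (40, 2767), (40, 2783), (40, 2785), (40, 2839), (40, 2957), (40, 2959), (40, 2963), (40, 2975), (40, 3011), (40, 3013), (40, 3017), (40, 3019), (40, 3029), (40, 3031), (40, 3035), (40, 3037), (40, 3053), (40, 3055), (40, 3083), (40, 3085), (40, 3089), (40, 3091), (40, 3107), (40, 3173),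 (20, 3175), (20, 3179), (40, 3191), (40, 3193), (40, 3197), (40, 3199), (40, 3215), (40, 3245), (40, 3251), (20, 3269), (40, 3701), (40, 3737), (20, 4547), (40, 4649), (40, 4655), (40, 7385), (20, 7387), (20, 7391), (40, 7403), (40, 7405), (40, 7409), (20, 7411), (20, 7463), (40, 7565), (40, 7571), (40, 7573), (20, 7591), (20, 7625), (20, 7627), (20, 9085)],
  [(0, [Ra10j7c0x0.job, Ra10j7c0x1.job, Ra10j7c0x2.job]), (1, [Ra10j7c1x0.job, Ra10j7c1x1.job, Ra10j7c1x2.job]), (2, [Ra10j7c2x0.job, Ra10j7c2x1.job, Ra10j7c2x2.job]), (3, [Ra10j7c3x0.job, Ra10j7c3x1.job, Ra10j7c3x2.job])]⟩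
theorem c7 : ∀ b ∈ S7.blks, ∀ J ∈ b.2, check (P.smat S7.lo S7.mode b.1) J = true :=
  List.forall_mem_cons.2 ⟨List.forall_mem_cons.2 ⟨Ra10j7c0x0.ok, List.forall_mem_cons.2 ⟨Ra10j7c0x1.ok, List.forall_mem_cons.2 ⟨Ra10j7c0x2.ok, List.forall_mem_nil _⟩⟩⟩, List.forall_mem_cons.2 ⟨List.forall_mem_cons.2 ⟨Ra10j7c1x0.ok, List.forall_mem_cons.2 ⟨Ra10j7c1x1.ok, List.forall_mem_cons.2 ⟨Ra10j7c1x2.ok, List.forall_mem_nil _⟩⟩⟩, List.forall_mem_cons.2 ⟨List.forall_mem_cons.2 ⟨Ra10j7c2x0.ok, List.forall_mem_cons.2 ⟨Ra10j7c2x1.ok, List.forall_mem_cons.2 ⟨Ra10j7c2x2.ok, List.forall_mem_nil _⟩⟩⟩, List.forall_mem_cons.2 ⟨List.forall_mem_cons.2 ⟨Ra10j7c3x0.ok, List.forall_mem_cons.2 ⟨Ra10j7c3x1.ok, List.forall_mem_cons.2 ⟨Ra10j7c3x2.ok, List.forall_mem_nil _⟩⟩⟩, List.forall_mem_nil _⟩⟩⟩⟩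
theorem g7 : Good (fun c => okS (P.l + 1) S7.lo c = true) (P.gens S7.mode 0) :=
  good_nine Ra10g7.g0 Ra10g7.g1 Ra10g7.g2 Ra10g7.g3 Ra10g7.g4 Ra10g7.g5 Ra10g7.g6 Ra10g7.g7 Ra10g7.g8 (by decide +kernel)
theorem w7 : S7.wf P = true := by kernel_rfl
def S6 : Sec := ⟨6, 3, [(20, 26), (40, 44), (40, 50), (20, 52), (40, 62), (20, 68), (40, 98), (40, 104), (40, 106), (40, 116), (40, 122), (40, 124), (40, 128), (20, 130), (40, 140), (20, 142), (40, 146), (40, 170), (40, 176), (20, 182), (20, 194), (40, 260), (40, 266), (40, 268), (40, 278), (40, 284), (40, 286), (40, 290), (40, 292), (40, 302), (40, 304), (40, 308), (40, 310), (20, 316), (40, 332), (40, 338), (40, 340), (40, 344), (40, 346), (40, 356), (40, 358), (40, 362), (20, 364), (40, 380), (40, 410), (20, 412), (40, 416), (40, 434), (40, 494), (40, 500), (40, 506), (40, 518), (20, 524), (20, 572), (40, 746), (20, 752), (40, 764), (40, 770), (40, 772), (40, 776), (40, 778), (40,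 788), (40, 790), (40, 794), (40, 796), (40, 802), (40, 818), (40, 824), (40, 826), (40, 830), (40, 832), (40, 842), (40, 844), (40, 848), (40, 850), (40, 856), (40, 866), (40, 868), (20, 874), (40, 896), (40, 898), (40, 902), (40, 904), (20, 910), (40, 920), (40, 922), (20, 980), (40, 986), (40, 988), (40, 992), (40, 994), (40, 1004), (40, 1006), (40, 1010), (40, 1012), (40, 1028), (20, 1030), (40, 1058), (40, 1060), (40, 1064), (20, 1066), (40, 1082), (40, 1136), (20, 1220), (20, 1222), (40, 1226), (40, 1244), (20, 1298), (20, 1478), (40, 1490), (40, 1496), (20, 1514), (40, 1544), (20, 1550), (20, 2276), (40, 2282), (40, 2284), (40, 2288), (40, 2290), (40, 2300), (40, 2302), (40, 2306), (20, 2308), (40, 2324), (40, 2354), (20, 2360), (40, 2444), (20, 2446), (20, 2450), (40, 2462), (40, 2464), (40, 2468), (40, 2470), (40, 2476), (40, 2486), (40, 2488), (40, 2494), (40, 2516), (40, 2518), (40, 2522), (40, 2524), (40, 2530),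 (40, 2540), (40, 2542), (20, 2548), (40, 2596), (20, 2684), (40, 2686), (20, 2692), (20, 2702), (40, 2704), (40, 2758), (40, 2954), (20, 2956), (20, 2972), (40, 3008), (40, 3010), (20, 3026), (20, 3028), (10, 3172), (20, 7382), (20, 7384), (20, 7402), (10, 7564)],
  [(0, [Ra10j6c0x0.job]), (1, [Ra10j6c1x0.job]), (2, [Ra10j6c2x0.job]), (3, [Ra10j6c3x0.job])]⟩
theorem c6 : ∀ b ∈ S6.blks, ∀ J ∈ b.2, check (P.smat S6.lo S6.mode b.1) J = true :=
  List.forall_mem_cons.2 ⟨List.forall_mem_cons.2 ⟨Ra10j6c0x0.ok, List.forall_mem_nil _⟩, List.forall_mem_cons.2 ⟨List.forall_mem_cons.2 ⟨Ra10j6c1x0.ok, List.forall_mem_nil _⟩, List.forall_mem_cons.2 ⟨List.forall_mem_cons.2 ⟨Ra10j6c2x0.ok, List.forall_mem_nil _⟩, List.forall_mem_cons.2 ⟨List.forall_mem_cons.2 ⟨Ra10j6c3x0.ok, List.forall_mem_nil _⟩, List.forall_mem_nil _⟩⟩⟩⟩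
theorem g6 : Good (fun c => okS (P.l + 1) S6.lo c = true) (P.gens S6.mode 0) :=
  good_nine Ra10g6.g0 Ra10g6.g1 Ra10g6.g2 Ra10g6.g3 Ra10g6.g4 Ra10g6.g5 Ra10g6.g6 Ra10g6.g7 Ra10g6.g8 (by decide +kernel)
theorem w6 : S6.wf P = true := by kernel_rfl
def S5 : Sec := ⟨5, 0, [(40, 17), (20, 23), (40, 35), (40, 41), (40, 43), (40, 47), (40, 59), (40, 89), (40, 95), (40, 97), (40, 101), (40, 103), (40, 113), (40, 115), (40, 119), (20, 121), (40, 137), (40, 167), (20, 173), (40, 251), (40, 257), (40, 259), (40, 263), (40, 265), (40, 275), (40, 277), (40, 281), (40, 283), (40, 289), (40, 299), (40, 301), (40, 329), (40, 331), (40, 335), (40, 337), (40, 353), (40, 407), (40, 491), (40, 497), (40, 743), (20, 745), (20, 749), (40, 761), (40, 763), (40, 767), (40, 769), (40, 775), (40, 785), (40, 787), (40, 793), (40, 815), (40, 817), (40, 821), (40, 823), (40, 829), (40, 839), (40, 841), (20, 847), (40, 893), (40, 895), (40, 977), (40,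 983), (40, 985), (40, 1001), (20, 1003), (20, 1055), (20, 1487), (40, 2273), (40, 2279), (40, 2281), (20, 2287), (40, 2297), (20, 2299), (40, 2441), (20, 2443), (20, 2459), (40, 2461), (40, 2467), (40, 2515), (4, 7381)],
  [(0, [Ra10j5c0x0.job])]⟩
theorem c5 : ∀ b ∈ S5.blks, ∀ J ∈ b.2, check (P.smat S5.lo S5.mode b.1) J = true :=
  List.forall_mem_cons.2 ⟨List.forall_mem_cons.2 ⟨Ra10j5c0x0.ok, List.forall_mem_nil _⟩, List.forall_mem_nil _⟩
theorem g5 : Good (fun c => okS (P.l + 1) S5.lo c = true) (P.gens S5.mode 0) :=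
  fun _ h => absurd h List.not_mem_nil
theorem w5 : S5.wf P = true := by kernel_rfl
def S4 : Sec := ⟨4, 0, [(20, 8), (40, 14), (20, 16), (20, 20), (40, 32), (40, 34), (40, 38), (20, 40), (20, 56), (40, 86), (40, 88), (40, 92), (40, 94), (20, 100), (40, 110), (20, 112), (20, 164), (40, 248), (40, 250), (40, 254), (40, 256), (40, 262), (40, 272), (40, 274), (20, 280), (40, 326), (20, 328), (10, 488), (40, 740), (20, 742), (40, 758), (40, 760), (40, 766), (20, 784), (20, 812), (40, 814), (20, 820), (10, 976), (20, 2272), (20, 2278), (10, 2440)],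
  [(0, [Ra10j4c0x0.job])]⟩
theorem c4 : ∀ b ∈ S4.blks, ∀ J ∈ b.2, check (P.smat S4.lo S4.mode b.1) J = true :=
  List.forall_mem_cons.2 ⟨List.forall_mem_cons.2 ⟨Ra10j4c0x0.ok, List.forall_mem_nil _⟩, List.forall_mem_nil _⟩
theorem g4 : Good (fun c => okS (P.l + 1) S4.lo c = true) (P.gens S4.mode 0) :=
  fun _ h => absurd h List.not_mem_nil
theorem w4 : S4.wf P = true := by kernel_rfl
def S3 : Sec := ⟨3, 0, [(40, 5), (40, 11), (20, 13), (40, 29), (40, 31), (40, 83), (40, 85), (20, 91), (20, 245), (40, 247), (40, 253), (20, 739), (20, 757)],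
  [(0, [Ra10j3c0x0.job])]⟩
theorem c3 : ∀ b ∈ S3.blks, ∀ J ∈ b.2, check (P.smat S3.lo S3.mode b.1) J = true :=
  List.forall_mem_cons.2 ⟨List.forall_mem_cons.2 ⟨Ra10j3c0x0.ok, List.forall_mem_nil _⟩, List.forall_mem_nil _⟩
theorem g3 : Good (fun c => okS (P.l + 1) S3.lo c = true) (P.gens S3.mode 0) :=
  fun _ h => absurd h List.not_mem_nil
theorem w3 : S3.wf P = true := by kernel_rfl
def S2 : Sec := ⟨2, 0, [(20, 2), (20, 4), (20, 10), (20, 28), (20, 82), (10, 244)],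
  [(0, [Ra10j2c0x0.job])]⟩
theorem c2 : ∀ b ∈ S2.blks, ∀ J ∈ b.2, check (P.smat S2.lo S2.mode b.1) J = true :=
  List.forall_mem_cons.2 ⟨List.forall_mem_cons.2 ⟨Ra10j2c0x0.ok, List.forall_mem_nil _⟩, List.forall_mem_nil _⟩
theorem g2 : Good (fun c => okS (P.l + 1) S2.lo c = true) (P.gens S2.mode 0) :=
  fun _ h => absurd h List.not_mem_nil
theorem w2 : S2.wf P = true := by kernel_rfl
def S1 : Sec := ⟨1, 0, [(20, 1)],
  [(0, [Ra10j1c0x0.job])]⟩
theorem c1 : ∀ b ∈ S1.blks, ∀ J ∈ b.2, check (P.smat S1.lo S1.mode b.1) J = true :=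
  List.forall_mem_cons.2 ⟨List.forall_mem_cons.2 ⟨Ra10j1c0x0.ok, List.forall_mem_nil _⟩, List.forall_mem_nil _⟩
theorem g1 : Good (fun c => okS (P.l + 1) S1.lo c = true) (P.gens S1.mode 0) :=
  fun _ h => absurd h List.not_mem_nil
theorem w1 : S1.wf P = true := by kernel_rfl
def S0 : Sec := ⟨0, 0, [(2, 0)],
  [(0, [Ra10j0c0x0.job])]⟩
theorem c0 : ∀ b ∈ S0.blks, ∀ J ∈ b.2, check (P.smat S0.lo S0.mode b.1) J = true :=
  List.forall_mem_cons.2 ⟨List.forall_mem_cons.2 ⟨Ra10j0c0x0.ok, List.forall_mem_nil _⟩, List.forall_mem_nil _⟩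
theorem g0 : Good (fun c => okS (P.l + 1) S0.lo c = true) (P.gens S0.mode 0) :=
  fun _ h => absurd h List.not_mem_nil
theorem w0 : S0.wf P = true := by kernel_rfl
def ss : List Sec := [S10, S9, S8, S7, S6, S5, S4, S3, S2, S1, S0]
theorem hs : ∀ S ∈ ss, S.OK P :=
  List.forall_mem_cons.2 ⟨⟨c10, g10, w10⟩, List.forall_mem_cons.2 ⟨⟨c9, g9, w9⟩, List.forall_mem_cons.2 ⟨⟨c8, g8, w8⟩, List.forall_mem_cons.2 ⟨⟨c7, g7, w7⟩, List.forall_mem_cons.2 ⟨⟨c6, g6, w6⟩, List.forall_mem_cons.2 ⟨⟨c5, g5, w5⟩, List.forall_mem_cons.2 ⟨⟨c4, g4, w4⟩, List.forall_mem_cons.2 ⟨⟨c3, g3, w3⟩, List.forall_mem_cons.2 ⟨⟨c2, g2, w2⟩, List.forall_mem_cons.2 ⟨⟨c1, g1, w1⟩, List.forall_mem_cons.2 ⟨⟨c0, g0, w0⟩, List.forall_mem_nil _⟩⟩⟩⟩⟩⟩⟩⟩⟩⟩⟩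
theorem cov : cover (P.l + 1) true (ss.flatMap fun S => S.cols) 0 = true := by kernel_rfl
theorem e1 : (List.range (P.K + 1)).map (tot1 ss P.s) = V1 :=
  tot1_fast (by kernel_rfl) (by decide +kernel)
theorem m1 : Mom P.up.A 1 P.up.F V1 P.up.err := e1 ▸ (moments2 P ok ss hs cov (P.spec2 ok1)).1
theorem eZ : (List.range (P.K + 1)).map (totZ ss (P.l + 1) P.s) = VZ :=
  totZ_fast (by kernel_rfl) (by decide +kernel)
theorem mZ : Mom P.up.A (tens (P.up.l + 1) (rot (some 2))) P.up.F VZ P.up.err :=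
  eZ ▸ (moments2 P ok ss hs cov (P.spec2 ok1)).2.1
end Ra10


end Crest.Agent.R347.Eng
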