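import Crest.Agent.R347.D.Par
import Crest.Agent.R347.D.Dat

/-! Row 347: from the moments to the data (computer generated) -/

set_option autoImplicit false
set_option Elab.async false
set_option maxRecDepth 100000

namespace Crest.Agent.R347.Eng

open _root_.Crest.Agent.R347.Num

theorem nra6x15 : Ra6.P.nearOK Ra6.V1 15 (d15.a 6) d15.δ := by decide +kernel
theorem nrb6x15 : Rb6.P.nearOK Rb6.V1 15 (d15.b 6) d15.δ := by decide +kernel
theorem nrc6x15 : Ra6.P.nearOK Ra6.VZ 15 (d15.c 6) d15.δ := by decide +kernel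
theorem nrd6x15 : Rb6.P.nearOK Rb6.VZ 15 (d15.dd 6) d15.δ := by decide +kernel
theorem nre6x15 : Rb6.P.nearOK Rb6.VX 15 (-d15.e 6) d15.δ := by decide +kernel
theorem nra7x15 : Ra7.P.nearOK Ra7.V1 15 (d15.a 7) d15.δ := by decide +kernel
theorem nrb7x15 : Rb7.P.nearOK Rb7.V1 15 (d15.b 7) d15.δ := by decide +kernel
theorem nrc7x15 : Ra7.P.nearOK Ra7.VZ 15 (d15.c 7) d15.δ := by decide +kernel
theorem nrd7x15 : Rb7.P.nearOK Rb7.VZ 15 (d15.dd 7) d15.δ := by decide +kernel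
theorem nre7x15 : Rb7.P.nearOK Rb7.VX 15 (-d15.e 7) d15.δ := by decide +kernel
theorem nra8x15 : Ra8.P.nearOK Ra8.V1 15 (d15.a 8) d15.δ := by decide +kernel
theorem nrb8x15 : Rb8.P.nearOK Rb8.V1 15 (d15.b 8) d15.δ := by decide +kernel
theorem nrc8x15 : Ra8.P.nearOK Ra8.VZ 15 (d15.c 8) d15.δ := by decide +kernel
theorem nrd8x15 : Rb8.P.nearOK Rb8.VZ 15 (d15.dd 8) d15.δ := by decide +kernel
theorem nre8x15 : Rb8.P.nearOK Rb8.VX 15 (-d15.e 8) d15.δ := by decide +kernel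
theorem nra9x15 : Ra9.P.up.nearOK Ra9.V1 15 (d15.a 9) d15.δ := by decide +kernel
theorem nrb9x15 : Rb9.P.up.nearOK Rb9.V1 15 (d15.b 9) d15.δ := by decide +kernel
theorem nrc9x15 : Ra9.P.up.nearOK Ra9.VZ 15 (d15.c 9) d15.δ := by decide +kernel
theorem nrd9x15 : Rb9.P.up.nearOK Rb9.VZ 15 (d15.dd 9) d15.δ := by decide +kernel
theorem nre9x15 : Rb9.P.up.nearOK Rb9.VX 15 (-d15.e 9) d15.δ := by decide +kernel
theorem nra10x15 : Ra10.P.up.nearOK Ra10.V1 15 (d15.a 10) d15.δ := by decide +kernel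
theorem nrb10x15 : Rb10.P.up.nearOK Rb10.V1 15 (d15.b 10) d15.δ := by decide +kernel
theorem nrc10x15 : Ra10.P.up.nearOK Ra10.VZ 15 (d15.c 10) d15.δ := by decide +kernel
theorem nrd10x15 : Rb10.P.up.nearOK Rb10.VZ 15 (d15.dd 10) d15.δ := by decide +kernel
theorem nre10x15 : Rb10.P.up.nearOK Rb10.VX 15 (-d15.e 10) d15.δ := by decide +kernel
theorem nrm2x15 : Om2.P.nearOK Om2.V1 15 (d15.pm 0) d15.δo := by decide +kernel
theorem nrp2x15 : Op2.P.nearOK Op2.V1 15 (d15.pp 0) d15.δo := by decide +kernel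
theorem nrm3x15 : Om3.P.nearOK Om3.V1 15 (d15.pm 1) d15.δo := by decide +kernel
theorem nrp3x15 : Op3.P.nearOK Op3.V1 15 (d15.pp 1) d15.δo := by decide +kernel
theorem nrm4x15 : Om4.P.nearOK Om4.V1 15 (d15.pm 2) d15.δo := by decide +kernel
theorem nrp4x15 : Op4.P.nearOK Op4.V1 15 (d15.pp 2) d15.δo := by decide +kernel
theorem nrm5x15 : Om5.P.nearOK Om5.V1 15 (d15.pm 3) d15.δo := by decide +kernel
theorem nrp5x15 : Op5.P.nearOK Op5.V1 15 (d15.pp 3) d15.δo := by decide +kernel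
theorem nrm6x15 : Om6.P.nearOK Om6.V1 15 (d15.pm 4) d15.δo := by decide +kernel
theorem nrp6x15 : Op6.P.nearOK Op6.V1 15 (d15.pp 4) d15.δo := by decide +kernel
theorem nrm7x15 : Om7.P.nearOK Om7.V1 15 (d15.pm 5) d15.δo := by decide +kernel
theorem nrp7x15 : Op7.P.nearOK Op7.V1 15 (d15.pp 5) d15.δo := by decide +kernel
theorem nra6x16 : Ra6.P.nearOK Ra6.V1 16 (d16.a 6) d16.δ := by decide +kernel
theorem nrb6x16 : Rb6.P.nearOK Rb6.V1 16 (d16.b 6) d16.δ := by decide +kernel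
theorem nrc6x16 : Ra6.P.nearOK Ra6.VZ 16 (d16.c 6) d16.δ := by decide +kernel
theorem nrd6x16 : Rb6.P.nearOK Rb6.VZ 16 (d16.dd 6) d16.δ := by decide +kernel
theorem nre6x16 : Rb6.P.nearOK Rb6.VX 16 (-d16.e 6) d16.δ := by decide +kernel
theorem nra7x16 : Ra7.P.nearOK Ra7.V1 16 (d16.a 7) d16.δ := by decide +kernel
theorem nrb7x16 : Rb7.P.nearOK Rb7.V1 16 (d16.b 7) d16.δ := by decide +kernel
theorem nrc7x16 : Ra7.P.nearOK Ra7.VZ 16 (d16.c 7) d16.δ := by decide +kernel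
theorem nrd7x16 : Rb7.P.nearOK Rb7.VZ 16 (d16.dd 7) d16.δ := by decide +kernel
theorem nre7x16 : Rb7.P.nearOK Rb7.VX 16 (-d16.e 7) d16.δ := by decide +kernel
theorem nra8x16 : Ra8.P.nearOK Ra8.V1 16 (d16.a 8) d16.δ := by decide +kernel
theorem nrb8x16 : Rb8.P.nearOK Rb8.V1 16 (d16.b 8) d16.δ := by decide +kernel
theorem nrc8x16 : Ra8.P.nearOK Ra8.VZ 16 (d16.c 8) d16.δ := by decide +kernel
theorem nrd8x16 : Rb8.P.nearOK Rb8.VZ 16 (d16.dd 8) d16.δ := by decide +kernel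
theorem nre8x16 : Rb8.P.nearOK Rb8.VX 16 (-d16.e 8) d16.δ := by decide +kernel
theorem nra9x16 : Ra9.P.up.nearOK Ra9.V1 16 (d16.a 9) d16.δ := by decide +kernel
theorem nrb9x16 : Rb9.P.up.nearOK Rb9.V1 16 (d16.b 9) d16.δ := by decide +kernel
theorem nrc9x16 : Ra9.P.up.nearOK Ra9.VZ 16 (d16.c 9) d16.δ := by decide +kernel
theorem nrd9x16 : Rb9.P.up.nearOK Rb9.VZ 16 (d16.dd 9) d16.δ := by decide +kernel
theorem nre9x16 : Rb9.P.up.nearOK Rb9.VX 16 (-d16.e 9) d16.δ := by decide +kernel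
theorem nra10x16 : Ra10.P.up.nearOK Ra10.V1 16 (d16.a 10) d16.δ := by decide +kernel
theorem nrb10x16 : Rb10.P.up.nearOK Rb10.V1 16 (d16.b 10) d16.δ := by decide +kernel
theorem nrc10x16 : Ra10.P.up.nearOK Ra10.VZ 16 (d16.c 10) d16.δ := by decide +kernel
theorem nrd10x16 : Rb10.P.up.nearOK Rb10.VZ 16 (d16.dd 10) d16.δ := by decide +kernel
theorem nre10x16 : Rb10.P.up.nearOK Rb10.VX 16 (-d16.e 10) d16.δ := by decide +kernel
theorem nrm2x16 : Om2.P.nearOK Om2.V1 16 (d16.pm 0) d16.δo := by decide +kernel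
theorem nrp2x16 : Op2.P.nearOK Op2.V1 16 (d16.pp 0) d16.δo := by decide +kernel
theorem nrm3x16 : Om3.P.nearOK Om3.V1 16 (d16.pm 1) d16.δo := by decide +kernel
theorem nrp3x16 : Op3.P.nearOK Op3.V1 16 (d16.pp 1) d16.δo := by decide +kernel
theorem nrm4x16 : Om4.P.nearOK Om4.V1 16 (d16.pm 2) d16.δo := by decide +kernel
theorem nrp4x16 : Op4.P.nearOK Op4.V1 16 (d16.pp 2) d16.δo := by decide +kernel
theorem nrm5x16 : Om5.P.nearOK Om5.V1 16 (d16.pm 3) d16.δo := by decide +kernel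
theorem nrp5x16 : Op5.P.nearOK Op5.V1 16 (d16.pp 3) d16.δo := by decide +kernel
theorem nrm6x16 : Om6.P.nearOK Om6.V1 16 (d16.pm 4) d16.δo := by decide +kernel
theorem nrp6x16 : Op6.P.nearOK Op6.V1 16 (d16.pp 4) d16.δo := by decide +kernel
theorem nrm7x16 : Om7.P.nearOK Om7.V1 16 (d16.pm 5) d16.δo := by decide +kernel
theorem nrp7x16 : Op7.P.nearOK Op7.V1 16 (d16.pp 5) d16.δo := by decide +kernel
theorem nra6x17 : Ra6.P.nearOK Ra6.V1 17 (d17.a 6) d17.δ := by decide +kernel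
theorem nrb6x17 : Rb6.P.nearOK Rb6.V1 17 (d17.b 6) d17.δ := by decide +kernel
theorem nrc6x17 : Ra6.P.nearOK Ra6.VZ 17 (d17.c 6) d17.δ := by decide +kernel
theorem nrd6x17 : Rb6.P.nearOK Rb6.VZ 17 (d17.dd 6) d17.δ := by decide +kernel
theorem nre6x17 : Rb6.P.nearOK Rb6.VX 17 (-d17.e 6) d17.δ := by decide +kernel
theorem nra7x17 : Ra7.P.nearOK Ra7.V1 17 (d17.a 7) d17.δ := by decide +kernel
theorem nrb7x17 : Rb7.P.nearOK Rb7.V1 17 (d17.b 7) d17.δ := by decide +kernel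
theorem nrc7x17 : Ra7.P.nearOK Ra7.VZ 17 (d17.c 7) d17.δ := by decide +kernel
theorem nrd7x17 : Rb7.P.nearOK Rb7.VZ 17 (d17.dd 7) d17.δ := by decide +kernel
theorem nre7x17 : Rb7.P.nearOK Rb7.VX 17 (-d17.e 7) d17.δ := by decide +kernel
theorem nra8x17 : Ra8.P.nearOK Ra8.V1 17 (d17.a 8) d17.δ := by decide +kernel
theorem nrb8x17 : Rb8.P.nearOK Rb8.V1 17 (d17.b 8) d17.δ := by decide +kernel
theorem nrc8x17 : Ra8.P.nearOK Ra8.VZ 17 (d17.c 8) d17.δ := by decide +kernel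
theorem nrd8x17 : Rb8.P.nearOK Rb8.VZ 17 (d17.dd 8) d17.δ := by decide +kernel
theorem nre8x17 : Rb8.P.nearOK Rb8.VX 17 (-d17.e 8) d17.δ := by decide +kernel
theorem nra9x17 : Ra9.P.up.nearOK Ra9.V1 17 (d17.a 9) d17.δ := by decide +kernel
theorem nrb9x17 : Rb9.P.up.nearOK Rb9.V1 17 (d17.b 9) d17.δ := by decide +kernel
theorem nrc9x17 : Ra9.P.up.nearOK Ra9.VZ 17 (d17.c 9) d17.δ := by decide +kernel
theorem nrd9x17 : Rb9.P.up.nearOK Rb9.VZ 17 (d17.dd 9) d17.δ := by decide +kernel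
theorem nre9x17 : Rb9.P.up.nearOK Rb9.VX 17 (-d17.e 9) d17.δ := by decide +kernel
theorem nra10x17 : Ra10.P.up.nearOK Ra10.V1 17 (d17.a 10) d17.δ := by decide +kernel
theorem nrb10x17 : Rb10.P.up.nearOK Rb10.V1 17 (d17.b 10) d17.δ := by decide +kernel
theorem nrc10x17 : Ra10.P.up.nearOK Ra10.VZ 17 (d17.c 10) d17.δ := by decide +kernel
theorem nrd10x17 : Rb10.P.up.nearOK Rb10.VZ 17 (d17.dd 10) d17.δ := by decide +kernel
theorem nre10x17 : Rb10.P.up.nearOK Rb10.VX 17 (-d17.e 10) d17.δ := by decide +kernel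
theorem nrm2x17 : Om2.P.nearOK Om2.V1 17 (d17.pm 0) d17.δo := by decide +kernel
theorem nrp2x17 : Op2.P.nearOK Op2.V1 17 (d17.pp 0) d17.δo := by decide +kernel
theorem nrm3x17 : Om3.P.nearOK Om3.V1 17 (d17.pm 1) d17.δo := by decide +kernel
theorem nrp3x17 : Op3.P.nearOK Op3.V1 17 (d17.pp 1) d17.δo := by decide +kernel
theorem nrm4x17 : Om4.P.nearOK Om4.V1 17 (d17.pm 2) d17.δo := by decide +kernel
theorem nrp4x17 : Op4.P.nearOK Op4.V1 17 (d17.pp 2) d17.δo := by decide +kernel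
theorem nrm5x17 : Om5.P.nearOK Om5.V1 17 (d17.pm 3) d17.δo := by decide +kernel
theorem nrp5x17 : Op5.P.nearOK Op5.V1 17 (d17.pp 3) d17.δo := by decide +kernel
theorem nrm6x17 : Om6.P.nearOK Om6.V1 17 (d17.pm 4) d17.δo := by decide +kernel
theorem nrp6x17 : Op6.P.nearOK Op6.V1 17 (d17.pp 4) d17.δo := by decide +kernel
theorem nrm7x17 : Om7.P.nearOK Om7.V1 17 (d17.pm 5) d17.δo := by decide +kernel
theorem nrp7x17 : Op7.P.nearOK Op7.V1 17 (d17.pp 5) d17.δo := by decide +kernel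

end Crest.Agent.R347.Eng
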