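import Crest.Agent.R347.D.Nr0
import Crest.Agent.R347.D.Nr1
import Crest.Agent.R347.D.GO
import Crest.Agent.R347.D.GR
import Crest.Agent.R347.D.G9
import Crest.Agent.R347.D.Ga
import Crest.Agent.R347.D.Gb
import Crest.Agent.R347.D.GM
import Crest.Agent.R347.D.Cz

/-! Row 347: the data describe the spin chain (computer generated) -/

set_option autoImplicit false
set_option Elab.async false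
set_option maxRecDepth 100000

namespace Crest.Agent.R347.Eng

open _root_.Crest.Agent.R347.Num

theorem near5 {m : ℕ → ℝ} {z : ℕ → ℚ} {δ : ℚ} (h6 : |m 6 - z 6| ≤ δ) (h7 : |m 7 - z 7| ≤ δ)
    (h8 : |m 8 - z 8| ≤ δ) (h9 : |m 9 - z 9| ≤ δ) (h10 : |m 10 - z 10| ≤ δ) : NearOn m z δ 6 10 := by
  intro L h1 h2
  interval_cases L <;> assumption

theorem near6 {m : ℕ → ℝ} {z : ℕ → ℚ} {δ : ℚ} (h0 : |m 0 - z 0| ≤ δ) (h1 : |m 1 - z 1| ≤ δ)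
    (h2 : |m 2 - z 2| ≤ δ) (h3 : |m 3 - z 3| ≤ δ) (h4 : |m 4 - z 4| ≤ δ) (h5 : |m 5 - z 5| ≤ δ) :
    NearOn m z δ 0 5 := by
  intro L h1 h2
  interval_cases L <;> assumption

theorem has11 : model.Has 11 d11 where
  one_le := by decide
  a := near5
    (ring_near Ra6.P Ra6.ok2 (.inl ⟨rfl, rfl⟩) Ra6.m1.one nra6x11)
    (ring_near Ra7.P Ra7.ok2 (.inl ⟨rfl, rfl⟩) Ra7.m1.one nra7x11)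
    (ring_near Ra8.P Ra8.ok2 (.inl ⟨rfl, rfl⟩) Ra8.m1.one nra8x11)
    (ring_near Ra9.P.up Ra9.ok2 (.inl ⟨rfl, rfl⟩) Ra9.m1.one nra9x11)
    (ring_near Ra10.P.up Ra10.ok2 (.inl ⟨rfl, rfl⟩) Ra10.m1.one nra10x11)
  b := near5
    (ring_near Rb6.P Rb6.ok2 (.inr ⟨rfl, rfl⟩) Rb6.m1.one nrb6x11)
    (ring_near Rb7.P Rb7.ok2 (.inr ⟨rfl, rfl⟩) Rb7.m1.one nrb7x11)
    (ring_near Rb8.P Rb8.ok2 (.inr ⟨rfl, rfl⟩) Rb8.m1.one nrb8x11)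
    (ring_near Rb9.P.up Rb9.ok2 (.inr ⟨rfl, rfl⟩) Rb9.m1.one nrb9x11)
    (ring_near Rb10.P.up Rb10.ok2 (.inr ⟨rfl, rfl⟩) Rb10.m1.one nrb10x11)
  c := near5
    (ring_near Ra6.P Ra6.ok2 (.inl ⟨rfl, rfl⟩) Ra6.mZ nrc6x11)
    (ring_near Ra7.P Ra7.ok2 (.inl ⟨rfl, rfl⟩) Ra7.mZ nrc7x11)
    (ring_near Ra8.P Ra8.ok2 (.inl ⟨rfl, rfl⟩) Ra8.mZ nrc8x11)
    (ring_near Ra9.P.up Ra9.ok2 (.inl ⟨rfl, rfl⟩) Ra9.mZ nrc9x11)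
    (ring_near Ra10.P.up Ra10.ok2 (.inl ⟨rfl, rfl⟩) Ra10.mZ nrc10x11)
  dd := near5
    (ring_near Rb6.P Rb6.ok2 (.inr ⟨rfl, rfl⟩) Rb6.mZ nrd6x11)
    (ring_near Rb7.P Rb7.ok2 (.inr ⟨rfl, rfl⟩) Rb7.mZ nrd7x11)
    (ring_near Rb8.P Rb8.ok2 (.inr ⟨rfl, rfl⟩) Rb8.mZ nrd8x11)
    (ring_near Rb9.P.up Rb9.ok2 (.inr ⟨rfl, rfl⟩) Rb9.mZ nrd9x11)
    (ring_near Rb10.P.up Rb10.ok2 (.inr ⟨rfl, rfl⟩) Rb10.mZ nrd10x11)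
  e := near5
    (ring_near_neg Rb6.P Rb6.ok2 (.inr ⟨rfl, rfl⟩) Rb6.mX nre6x11)
    (ring_near_neg Rb7.P Rb7.ok2 (.inr ⟨rfl, rfl⟩) Rb7.mX nre7x11)
    (ring_near_neg Rb8.P Rb8.ok2 (.inr ⟨rfl, rfl⟩) Rb8.mX nre8x11)
    (ring_near_neg Rb9.P.up Rb9.ok2 (.inr ⟨rfl, rfl⟩) Rb9.mX nre9x11)
    (ring_near_neg Rb10.P.up Rb10.ok2 (.inr ⟨rfl, rfl⟩) Rb10.mX nre10x11)
  pm := near6
    (open_near Om2.P Om2.ok2 rfl (.inl ⟨rfl, rfl⟩) Om2.m1 nrm2x11)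
    (open_near Om3.P Om3.ok2 rfl (.inl ⟨rfl, rfl⟩) Om3.m1 nrm3x11)
    (open_near Om4.P Om4.ok2 rfl (.inl ⟨rfl, rfl⟩) Om4.m1 nrm4x11)
    (open_near Om5.P Om5.ok2 rfl (.inl ⟨rfl, rfl⟩) Om5.m1 nrm5x11)
    (open_near Om6.P Om6.ok2 rfl (.inl ⟨rfl, rfl⟩) Om6.m1 nrm6x11)
    (open_near Om7.P Om7.ok2 rfl (.inl ⟨rfl, rfl⟩) Om7.m1 nrm7x11)
  pp := near6
    (open_near Op2.P Op2.ok2 rfl (.inr ⟨rfl, rfl⟩) Op2.m1 nrp2x11)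
    (open_near Op3.P Op3.ok2 rfl (.inr ⟨rfl, rfl⟩) Op3.m1 nrp3x11)
    (open_near Op4.P Op4.ok2 rfl (.inr ⟨rfl, rfl⟩) Op4.m1 nrp4x11)
    (open_near Op5.P Op5.ok2 rfl (.inr ⟨rfl, rfl⟩) Op5.m1 nrp5x11)
    (open_near Op6.P Op6.ok2 rfl (.inr ⟨rfl, rfl⟩) Op6.m1 nrp6x11)
    (open_near Op7.P Op7.ok2 rfl (.inr ⟨rfl, rfl⟩) Op7.m1 nrp7x11)

theorem has12 : model.Has 12 d12 where
  one_le := by decide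
  a := near5
    (ring_near Ra6.P Ra6.ok2 (.inl ⟨rfl, rfl⟩) Ra6.m1.one nra6x12)
    (ring_near Ra7.P Ra7.ok2 (.inl ⟨rfl, rfl⟩) Ra7.m1.one nra7x12)
    (ring_near Ra8.P Ra8.ok2 (.inl ⟨rfl, rfl⟩) Ra8.m1.one nra8x12)
    (ring_near Ra9.P.up Ra9.ok2 (.inl ⟨rfl, rfl⟩) Ra9.m1.one nra9x12)
    (ring_near Ra10.P.up Ra10.ok2 (.inl ⟨rfl, rfl⟩) Ra10.m1.one nra10x12)
  b := near5
    (ring_near Rb6.P Rb6.ok2 (.inr ⟨rfl, rfl⟩) Rb6.m1.one nrb6x12)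
    (ring_near Rb7.P Rb7.ok2 (.inr ⟨rfl, rfl⟩) Rb7.m1.one nrb7x12)
    (ring_near Rb8.P Rb8.ok2 (.inr ⟨rfl, rfl⟩) Rb8.m1.one nrb8x12)
    (ring_near Rb9.P.up Rb9.ok2 (.inr ⟨rfl, rfl⟩) Rb9.m1.one nrb9x12)
    (ring_near Rb10.P.up Rb10.ok2 (.inr ⟨rfl, rfl⟩) Rb10.m1.one nrb10x12)
  c := near5
    (ring_near Ra6.P Ra6.ok2 (.inl ⟨rfl, rfl⟩) Ra6.mZ nrc6x12)
    (ring_near Ra7.P Ra7.ok2 (.inl ⟨rfl, rfl⟩) Ra7.mZ nrc7x12)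
    (ring_near Ra8.P Ra8.ok2 (.inl ⟨rfl, rfl⟩) Ra8.mZ nrc8x12)
    (ring_near Ra9.P.up Ra9.ok2 (.inl ⟨rfl, rfl⟩) Ra9.mZ nrc9x12)
    (ring_near Ra10.P.up Ra10.ok2 (.inl ⟨rfl, rfl⟩) Ra10.mZ nrc10x12)
  dd := near5
    (ring_near Rb6.P Rb6.ok2 (.inr ⟨rfl, rfl⟩) Rb6.mZ nrd6x12)
    (ring_near Rb7.P Rb7.ok2 (.inr ⟨rfl, rfl⟩) Rb7.mZ nrd7x12)
    (ring_near Rb8.P Rb8.ok2 (.inr ⟨rfl, rfl⟩) Rb8.mZ nrd8x12)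
    (ring_near Rb9.P.up Rb9.ok2 (.inr ⟨rfl, rfl⟩) Rb9.mZ nrd9x12)
    (ring_near Rb10.P.up Rb10.ok2 (.inr ⟨rfl, rfl⟩) Rb10.mZ nrd10x12)
  e := near5
    (ring_near_neg Rb6.P Rb6.ok2 (.inr ⟨rfl, rfl⟩) Rb6.mX nre6x12)
    (ring_near_neg Rb7.P Rb7.ok2 (.inr ⟨rfl, rfl⟩) Rb7.mX nre7x12)
    (ring_near_neg Rb8.P Rb8.ok2 (.inr ⟨rfl, rfl⟩) Rb8.mX nre8x12)
    (ring_near_neg Rb9.P.up Rb9.ok2 (.inr ⟨rfl, rfl⟩) Rb9.mX nre9x12)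
    (ring_near_neg Rb10.P.up Rb10.ok2 (.inr ⟨rfl, rfl⟩) Rb10.mX nre10x12)
  pm := near6
    (open_near Om2.P Om2.ok2 rfl (.inl ⟨rfl, rfl⟩) Om2.m1 nrm2x12)
    (open_near Om3.P Om3.ok2 rfl (.inl ⟨rfl, rfl⟩) Om3.m1 nrm3x12)
    (open_near Om4.P Om4.ok2 rfl (.inl ⟨rfl, rfl⟩) Om4.m1 nrm4x12)
    (open_near Om5.P Om5.ok2 rfl (.inl ⟨rfl, rfl⟩) Om5.m1 nrm5x12)
    (open_near Om6.P Om6.ok2 rfl (.inl ⟨rfl, rfl⟩) Om6.m1 nrm6x12)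
    (open_near Om7.P Om7.ok2 rfl (.inl ⟨rfl, rfl⟩) Om7.m1 nrm7x12)
  pp := near6
    (open_near Op2.P Op2.ok2 rfl (.inr ⟨rfl, rfl⟩) Op2.m1 nrp2x12)
    (open_near Op3.P Op3.ok2 rfl (.inr ⟨rfl, rfl⟩) Op3.m1 nrp3x12)
    (open_near Op4.P Op4.ok2 rfl (.inr ⟨rfl, rfl⟩) Op4.m1 nrp4x12)
    (open_near Op5.P Op5.ok2 rfl (.inr ⟨rfl, rfl⟩) Op5.m1 nrp5x12)
    (open_near Op6.P Op6.ok2 rfl (.inr ⟨rfl, rfl⟩) Op6.m1 nrp6x12)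
    (open_near Op7.P Op7.ok2 rfl (.inr ⟨rfl, rfl⟩) Op7.m1 nrp7x12)

theorem has13 : model.Has 13 d13 where
  one_le := by decide
  a := near5
    (ring_near Ra6.P Ra6.ok2 (.inl ⟨rfl, rfl⟩) Ra6.m1.one nra6x13)
    (ring_near Ra7.P Ra7.ok2 (.inl ⟨rfl, rfl⟩) Ra7.m1.one nra7x13)
    (ring_near Ra8.P Ra8.ok2 (.inl ⟨rfl, rfl⟩) Ra8.m1.one nra8x13)
    (ring_near Ra9.P.up Ra9.ok2 (.inl ⟨rfl, rfl⟩) Ra9.m1.one nra9x13)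
    (ring_near Ra10.P.up Ra10.ok2 (.inl ⟨rfl, rfl⟩) Ra10.m1.one nra10x13)
  b := near5
    (ring_near Rb6.P Rb6.ok2 (.inr ⟨rfl, rfl⟩) Rb6.m1.one nrb6x13)
    (ring_near Rb7.P Rb7.ok2 (.inr ⟨rfl, rfl⟩) Rb7.m1.one nrb7x13)
    (ring_near Rb8.P Rb8.ok2 (.inr ⟨rfl, rfl⟩) Rb8.m1.one nrb8x13)
    (ring_near Rb9.P.up Rb9.ok2 (.inr ⟨rfl, rfl⟩) Rb9.m1.one nrb9x13)
    (ring_near Rb10.P.up Rb10.ok2 (.inr ⟨rfl, rfl⟩) Rb10.m1.one nrb10x13)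
  c := near5
    (ring_near Ra6.P Ra6.ok2 (.inl ⟨rfl, rfl⟩) Ra6.mZ nrc6x13)
    (ring_near Ra7.P Ra7.ok2 (.inl ⟨rfl, rfl⟩) Ra7.mZ nrc7x13)
    (ring_near Ra8.P Ra8.ok2 (.inl ⟨rfl, rfl⟩) Ra8.mZ nrc8x13)
    (ring_near Ra9.P.up Ra9.ok2 (.inl ⟨rfl, rfl⟩) Ra9.mZ nrc9x13)
    (ring_near Ra10.P.up Ra10.ok2 (.inl ⟨rfl, rfl⟩) Ra10.mZ nrc10x13)
  dd := near5
    (ring_near Rb6.P Rb6.ok2 (.inr ⟨rfl, rfl⟩) Rb6.mZ nrd6x13)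
    (ring_near Rb7.P Rb7.ok2 (.inr ⟨rfl, rfl⟩) Rb7.mZ nrd7x13)
    (ring_near Rb8.P Rb8.ok2 (.inr ⟨rfl, rfl⟩) Rb8.mZ nrd8x13)
    (ring_near Rb9.P.up Rb9.ok2 (.inr ⟨rfl, rfl⟩) Rb9.mZ nrd9x13)
    (ring_near Rb10.P.up Rb10.ok2 (.inr ⟨rfl, rfl⟩) Rb10.mZ nrd10x13)
  e := near5
    (ring_near_neg Rb6.P Rb6.ok2 (.inr ⟨rfl, rfl⟩) Rb6.mX nre6x13)
    (ring_near_neg Rb7.P Rb7.ok2 (.inr ⟨rfl, rfl⟩) Rb7.mX nre7x13)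
    (ring_near_neg Rb8.P Rb8.ok2 (.inr ⟨rfl, rfl⟩) Rb8.mX nre8x13)
    (ring_near_neg Rb9.P.up Rb9.ok2 (.inr ⟨rfl, rfl⟩) Rb9.mX nre9x13)
    (ring_near_neg Rb10.P.up Rb10.ok2 (.inr ⟨rfl, rfl⟩) Rb10.mX nre10x13)
  pm := near6
    (open_near Om2.P Om2.ok2 rfl (.inl ⟨rfl, rfl⟩) Om2.m1 nrm2x13)
    (open_near Om3.P Om3.ok2 rfl (.inl ⟨rfl, rfl⟩) Om3.m1 nrm3x13)
    (open_near Om4.P Om4.ok2 rfl (.inl ⟨rfl, rfl⟩) Om4.m1 nrm4x13)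
    (open_near Om5.P Om5.ok2 rfl (.inl ⟨rfl, rfl⟩) Om5.m1 nrm5x13)
    (open_near Om6.P Om6.ok2 rfl (.inl ⟨rfl, rfl⟩) Om6.m1 nrm6x13)
    (open_near Om7.P Om7.ok2 rfl (.inl ⟨rfl, rfl⟩) Om7.m1 nrm7x13)
  pp := near6
    (open_near Op2.P Op2.ok2 rfl (.inr ⟨rfl, rfl⟩) Op2.m1 nrp2x13)
    (open_near Op3.P Op3.ok2 rfl (.inr ⟨rfl, rfl⟩) Op3.m1 nrp3x13)
    (open_near Op4.P Op4.ok2 rfl (.inr ⟨rfl, rfl⟩) Op4.m1 nrp4x13)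
    (open_near Op5.P Op5.ok2 rfl (.inr ⟨rfl, rfl⟩) Op5.m1 nrp5x13)
    (open_near Op6.P Op6.ok2 rfl (.inr ⟨rfl, rfl⟩) Op6.m1 nrp6x13)
    (open_near Op7.P Op7.ok2 rfl (.inr ⟨rfl, rfl⟩) Op7.m1 nrp7x13)

theorem has14 : model.Has 14 d14 where
  one_le := by decide
  a := near5
    (ring_near Ra6.P Ra6.ok2 (.inl ⟨rfl, rfl⟩) Ra6.m1.one nra6x14)
    (ring_near Ra7.P Ra7.ok2 (.inl ⟨rfl, rfl⟩) Ra7.m1.one nra7x14)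
    (ring_near Ra8.P Ra8.ok2 (.inl ⟨rfl, rfl⟩) Ra8.m1.one nra8x14)
    (ring_near Ra9.P.up Ra9.ok2 (.inl ⟨rfl, rfl⟩) Ra9.m1.one nra9x14)
    (ring_near Ra10.P.up Ra10.ok2 (.inl ⟨rfl, rfl⟩) Ra10.m1.one nra10x14)
  b := near5
    (ring_near Rb6.P Rb6.ok2 (.inr ⟨rfl, rfl⟩) Rb6.m1.one nrb6x14)
    (ring_near Rb7.P Rb7.ok2 (.inr ⟨rfl, rfl⟩) Rb7.m1.one nrb7x14)
    (ring_near Rb8.P Rb8.ok2 (.inr ⟨rfl, rfl⟩) Rb8.m1.one nrb8x14)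
    (ring_near Rb9.P.up Rb9.ok2 (.inr ⟨rfl, rfl⟩) Rb9.m1.one nrb9x14)
    (ring_near Rb10.P.up Rb10.ok2 (.inr ⟨rfl, rfl⟩) Rb10.m1.one nrb10x14)
  c := near5
    (ring_near Ra6.P Ra6.ok2 (.inl ⟨rfl, rfl⟩) Ra6.mZ nrc6x14)
    (ring_near Ra7.P Ra7.ok2 (.inl ⟨rfl, rfl⟩) Ra7.mZ nrc7x14)
    (ring_near Ra8.P Ra8.ok2 (.inl ⟨rfl, rfl⟩) Ra8.mZ nrc8x14)
    (ring_near Ra9.P.up Ra9.ok2 (.inl ⟨rfl, rfl⟩) Ra9.mZ nrc9x14)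
    (ring_near Ra10.P.up Ra10.ok2 (.inl ⟨rfl, rfl⟩) Ra10.mZ nrc10x14)
  dd := near5
    (ring_near Rb6.P Rb6.ok2 (.inr ⟨rfl, rfl⟩) Rb6.mZ nrd6x14)
    (ring_near Rb7.P Rb7.ok2 (.inr ⟨rfl, rfl⟩) Rb7.mZ nrd7x14)
    (ring_near Rb8.P Rb8.ok2 (.inr ⟨rfl, rfl⟩) Rb8.mZ nrd8x14)
    (ring_near Rb9.P.up Rb9.ok2 (.inr ⟨rfl, rfl⟩) Rb9.mZ nrd9x14)
    (ring_near Rb10.P.up Rb10.ok2 (.inr ⟨rfl, rfl⟩) Rb10.mZ nrd10x14)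
  e := near5
    (ring_near_neg Rb6.P Rb6.ok2 (.inr ⟨rfl, rfl⟩) Rb6.mX nre6x14)
    (ring_near_neg Rb7.P Rb7.ok2 (.inr ⟨rfl, rfl⟩) Rb7.mX nre7x14)
    (ring_near_neg Rb8.P Rb8.ok2 (.inr ⟨rfl, rfl⟩) Rb8.mX nre8x14)
    (ring_near_neg Rb9.P.up Rb9.ok2 (.inr ⟨rfl, rfl⟩) Rb9.mX nre9x14)
    (ring_near_neg Rb10.P.up Rb10.ok2 (.inr ⟨rfl, rfl⟩) Rb10.mX nre10x14)
  pm := near6
    (open_near Om2.P Om2.ok2 rfl (.inl ⟨rfl, rfl⟩) Om2.m1 nrm2x14)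
    (open_near Om3.P Om3.ok2 rfl (.inl ⟨rfl, rfl⟩) Om3.m1 nrm3x14)
    (open_near Om4.P Om4.ok2 rfl (.inl ⟨rfl, rfl⟩) Om4.m1 nrm4x14)
    (open_near Om5.P Om5.ok2 rfl (.inl ⟨rfl, rfl⟩) Om5.m1 nrm5x14)
    (open_near Om6.P Om6.ok2 rfl (.inl ⟨rfl, rfl⟩) Om6.m1 nrm6x14)
    (open_near Om7.P Om7.ok2 rfl (.inl ⟨rfl, rfl⟩) Om7.m1 nrm7x14)
  pp := near6
    (open_near Op2.P Op2.ok2 rfl (.inr ⟨rfl, rfl⟩) Op2.m1 nrp2x14)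
    (open_near Op3.P Op3.ok2 rfl (.inr ⟨rfl, rfl⟩) Op3.m1 nrp3x14)
    (open_near Op4.P Op4.ok2 rfl (.inr ⟨rfl, rfl⟩) Op4.m1 nrp4x14)
    (open_near Op5.P Op5.ok2 rfl (.inr ⟨rfl, rfl⟩) Op5.m1 nrp5x14)
    (open_near Op6.P Op6.ok2 rfl (.inr ⟨rfl, rfl⟩) Op6.m1 nrp6x14)
    (open_near Op7.P Op7.ok2 rfl (.inr ⟨rfl, rfl⟩) Op7.m1 nrp7x14)

theorem has15 : model.Has 15 d15 where
  one_le := by decide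
  a := near5
    (ring_near Ra6.P Ra6.ok2 (.inl ⟨rfl, rfl⟩) Ra6.m1.one nra6x15)
    (ring_near Ra7.P Ra7.ok2 (.inl ⟨rfl, rfl⟩) Ra7.m1.one nra7x15)
    (ring_near Ra8.P Ra8.ok2 (.inl ⟨rfl, rfl⟩) Ra8.m1.one nra8x15)
    (ring_near Ra9.P.up Ra9.ok2 (.inl ⟨rfl, rfl⟩) Ra9.m1.one nra9x15)
    (ring_near Ra10.P.up Ra10.ok2 (.inl ⟨rfl, rfl⟩) Ra10.m1.one nra10x15)
  b := near5
    (ring_near Rb6.P Rb6.ok2 (.inr ⟨rfl, rfl⟩) Rb6.m1.one nrb6x15)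
    (ring_near Rb7.P Rb7.ok2 (.inr ⟨rfl, rfl⟩) Rb7.m1.one nrb7x15)
    (ring_near Rb8.P Rb8.ok2 (.inr ⟨rfl, rfl⟩) Rb8.m1.one nrb8x15)
    (ring_near Rb9.P.up Rb9.ok2 (.inr ⟨rfl, rfl⟩) Rb9.m1.one nrb9x15)
    (ring_near Rb10.P.up Rb10.ok2 (.inr ⟨rfl, rfl⟩) Rb10.m1.one nrb10x15)
  c := near5
    (ring_near Ra6.P Ra6.ok2 (.inl ⟨rfl, rfl⟩) Ra6.mZ nrc6x15)
    (ring_near Ra7.P Ra7.ok2 (.inl ⟨rfl, rfl⟩) Ra7.mZ nrc7x15)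
    (ring_near Ra8.P Ra8.ok2 (.inl ⟨rfl, rfl⟩) Ra8.mZ nrc8x15)
    (ring_near Ra9.P.up Ra9.ok2 (.inl ⟨rfl, rfl⟩) Ra9.mZ nrc9x15)
    (ring_near Ra10.P.up Ra10.ok2 (.inl ⟨rfl, rfl⟩) Ra10.mZ nrc10x15)
  dd := near5
    (ring_near Rb6.P Rb6.ok2 (.inr ⟨rfl, rfl⟩) Rb6.mZ nrd6x15)
    (ring_near Rb7.P Rb7.ok2 (.inr ⟨rfl, rfl⟩) Rb7.mZ nrd7x15)
    (ring_near Rb8.P Rb8.ok2 (.inr ⟨rfl, rfl⟩) Rb8.mZ nrd8x15)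
    (ring_near Rb9.P.up Rb9.ok2 (.inr ⟨rfl, rfl⟩) Rb9.mZ nrd9x15)
    (ring_near Rb10.P.up Rb10.ok2 (.inr ⟨rfl, rfl⟩) Rb10.mZ nrd10x15)
  e := near5
    (ring_near_neg Rb6.P Rb6.ok2 (.inr ⟨rfl, rfl⟩) Rb6.mX nre6x15)
    (ring_near_neg Rb7.P Rb7.ok2 (.inr ⟨rfl, rfl⟩) Rb7.mX nre7x15)
    (ring_near_neg Rb8.P Rb8.ok2 (.inr ⟨rfl, rfl⟩) Rb8.mX nre8x15)
    (ring_near_neg Rb9.P.up Rb9.ok2 (.inr ⟨rfl, rfl⟩) Rb9.mX nre9x15)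
    (ring_near_neg Rb10.P.up Rb10.ok2 (.inr ⟨rfl, rfl⟩) Rb10.mX nre10x15)
  pm := near6
    (open_near Om2.P Om2.ok2 rfl (.inl ⟨rfl, rfl⟩) Om2.m1 nrm2x15)
    (open_near Om3.P Om3.ok2 rfl (.inl ⟨rfl, rfl⟩) Om3.m1 nrm3x15)
    (open_near Om4.P Om4.ok2 rfl (.inl ⟨rfl, rfl⟩) Om4.m1 nrm4x15)
    (open_near Om5.P Om5.ok2 rfl (.inl ⟨rfl, rfl⟩) Om5.m1 nrm5x15)
    (open_near Om6.P Om6.ok2 rfl (.inl ⟨rfl, rfl⟩) Om6.m1 nrm6x15)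
    (open_near Om7.P Om7.ok2 rfl (.inl ⟨rfl, rfl⟩) Om7.m1 nrm7x15)
  pp := near6
    (open_near Op2.P Op2.ok2 rfl (.inr ⟨rfl, rfl⟩) Op2.m1 nrp2x15)
    (open_near Op3.P Op3.ok2 rfl (.inr ⟨rfl, rfl⟩) Op3.m1 nrp3x15)
    (open_near Op4.P Op4.ok2 rfl (.inr ⟨rfl, rfl⟩) Op4.m1 nrp4x15)
    (open_near Op5.P Op5.ok2 rfl (.inr ⟨rfl, rfl⟩) Op5.m1 nrp5x15)
    (open_near Op6.P Op6.ok2 rfl (.inr ⟨rfl, rfl⟩) Op6.m1 nrp6x15)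
    (open_near Op7.P Op7.ok2 rfl (.inr ⟨rfl, rfl⟩) Op7.m1 nrp7x15)

theorem has16 : model.Has 16 d16 where
  one_le := by decide
  a := near5
    (ring_near Ra6.P Ra6.ok2 (.inl ⟨rfl, rfl⟩) Ra6.m1.one nra6x16)
    (ring_near Ra7.P Ra7.ok2 (.inl ⟨rfl, rfl⟩) Ra7.m1.one nra7x16)
    (ring_near Ra8.P Ra8.ok2 (.inl ⟨rfl, rfl⟩) Ra8.m1.one nra8x16)
    (ring_near Ra9.P.up Ra9.ok2 (.inl ⟨rfl, rfl⟩) Ra9.m1.one nra9x16)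
    (ring_near Ra10.P.up Ra10.ok2 (.inl ⟨rfl, rfl⟩) Ra10.m1.one nra10x16)
  b := near5
    (ring_near Rb6.P Rb6.ok2 (.inr ⟨rfl, rfl⟩) Rb6.m1.one nrb6x16)
    (ring_near Rb7.P Rb7.ok2 (.inr ⟨rfl, rfl⟩) Rb7.m1.one nrb7x16)
    (ring_near Rb8.P Rb8.ok2 (.inr ⟨rfl, rfl⟩) Rb8.m1.one nrb8x16)
    (ring_near Rb9.P.up Rb9.ok2 (.inr ⟨rfl, rfl⟩) Rb9.m1.one nrb9x16)
    (ring_near Rb10.P.up Rb10.ok2 (.inr ⟨rfl, rfl⟩) Rb10.m1.one nrb10x16)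
  c := near5
    (ring_near Ra6.P Ra6.ok2 (.inl ⟨rfl, rfl⟩) Ra6.mZ nrc6x16)
    (ring_near Ra7.P Ra7.ok2 (.inl ⟨rfl, rfl⟩) Ra7.mZ nrc7x16)
    (ring_near Ra8.P Ra8.ok2 (.inl ⟨rfl, rfl⟩) Ra8.mZ nrc8x16)
    (ring_near Ra9.P.up Ra9.ok2 (.inl ⟨rfl, rfl⟩) Ra9.mZ nrc9x16)
    (ring_near Ra10.P.up Ra10.ok2 (.inl ⟨rfl, rfl⟩) Ra10.mZ nrc10x16)
  dd := near5
    (ring_near Rb6.P Rb6.ok2 (.inr ⟨rfl, rfl⟩) Rb6.mZ nrd6x16)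
    (ring_near Rb7.P Rb7.ok2 (.inr ⟨rfl, rfl⟩) Rb7.mZ nrd7x16)
    (ring_near Rb8.P Rb8.ok2 (.inr ⟨rfl, rfl⟩) Rb8.mZ nrd8x16)
    (ring_near Rb9.P.up Rb9.ok2 (.inr ⟨rfl, rfl⟩) Rb9.mZ nrd9x16)
    (ring_near Rb10.P.up Rb10.ok2 (.inr ⟨rfl, rfl⟩) Rb10.mZ nrd10x16)
  e := near5
    (ring_near_neg Rb6.P Rb6.ok2 (.inr ⟨rfl, rfl⟩) Rb6.mX nre6x16)
    (ring_near_neg Rb7.P Rb7.ok2 (.inr ⟨rfl, rfl⟩) Rb7.mX nre7x16)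
    (ring_near_neg Rb8.P Rb8.ok2 (.inr ⟨rfl, rfl⟩) Rb8.mX nre8x16)
    (ring_near_neg Rb9.P.up Rb9.ok2 (.inr ⟨rfl, rfl⟩) Rb9.mX nre9x16)
    (ring_near_neg Rb10.P.up Rb10.ok2 (.inr ⟨rfl, rfl⟩) Rb10.mX nre10x16)
  pm := near6
    (open_near Om2.P Om2.ok2 rfl (.inl ⟨rfl, rfl⟩) Om2.m1 nrm2x16)
    (open_near Om3.P Om3.ok2 rfl (.inl ⟨rfl, rfl⟩) Om3.m1 nrm3x16)
    (open_near Om4.P Om4.ok2 rfl (.inl ⟨rfl, rfl⟩) Om4.m1 nrm4x16)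
    (open_near Om5.P Om5.ok2 rfl (.inl ⟨rfl, rfl⟩) Om5.m1 nrm5x16)
    (open_near Om6.P Om6.ok2 rfl (.inl ⟨rfl, rfl⟩) Om6.m1 nrm6x16)
    (open_near Om7.P Om7.ok2 rfl (.inl ⟨rfl, rfl⟩) Om7.m1 nrm7x16)
  pp := near6
    (open_near Op2.P Op2.ok2 rfl (.inr ⟨rfl, rfl⟩) Op2.m1 nrp2x16)
    (open_near Op3.P Op3.ok2 rfl (.inr ⟨rfl, rfl⟩) Op3.m1 nrp3x16)
    (open_near Op4.P Op4.ok2 rfl (.inr ⟨rfl, rfl⟩) Op4.m1 nrp4x16)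
    (open_near Op5.P Op5.ok2 rfl (.inr ⟨rfl, rfl⟩) Op5.m1 nrp5x16)
    (open_near Op6.P Op6.ok2 rfl (.inr ⟨rfl, rfl⟩) Op6.m1 nrp6x16)
    (open_near Op7.P Op7.ok2 rfl (.inr ⟨rfl, rfl⟩) Op7.m1 nrp7x16)

theorem has17 : model.Has 17 d17 where
  one_le := by decide
  a := near5
    (ring_near Ra6.P Ra6.ok2 (.inl ⟨rfl, rfl⟩) Ra6.m1.one nra6x17)
    (ring_near Ra7.P Ra7.ok2 (.inl ⟨rfl, rfl⟩) Ra7.m1.one nra7x17)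
    (ring_near Ra8.P Ra8.ok2 (.inl ⟨rfl, rfl⟩) Ra8.m1.one nra8x17)
    (ring_near Ra9.P.up Ra9.ok2 (.inl ⟨rfl, rfl⟩) Ra9.m1.one nra9x17)
    (ring_near Ra10.P.up Ra10.ok2 (.inl ⟨rfl, rfl⟩) Ra10.m1.one nra10x17)
  b := near5
    (ring_near Rb6.P Rb6.ok2 (.inr ⟨rfl, rfl⟩) Rb6.m1.one nrb6x17)
    (ring_near Rb7.P Rb7.ok2 (.inr ⟨rfl, rfl⟩) Rb7.m1.one nrb7x17)
    (ring_near Rb8.P Rb8.ok2 (.inr ⟨rfl, rfl⟩) Rb8.m1.one nrb8x17)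
    (ring_near Rb9.P.up Rb9.ok2 (.inr ⟨rfl, rfl⟩) Rb9.m1.one nrb9x17)
    (ring_near Rb10.P.up Rb10.ok2 (.inr ⟨rfl, rfl⟩) Rb10.m1.one nrb10x17)
  c := near5
    (ring_near Ra6.P Ra6.ok2 (.inl ⟨rfl, rfl⟩) Ra6.mZ nrc6x17)
    (ring_near Ra7.P Ra7.ok2 (.inl ⟨rfl, rfl⟩) Ra7.mZ nrc7x17)
    (ring_near Ra8.P Ra8.ok2 (.inl ⟨rfl, rfl⟩) Ra8.mZ nrc8x17)
    (ring_near Ra9.P.up Ra9.ok2 (.inl ⟨rfl, rfl⟩) Ra9.mZ nrc9x17)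
    (ring_near Ra10.P.up Ra10.ok2 (.inl ⟨rfl, rfl⟩) Ra10.mZ nrc10x17)
  dd := near5
    (ring_near Rb6.P Rb6.ok2 (.inr ⟨rfl, rfl⟩) Rb6.mZ nrd6x17)
    (ring_near Rb7.P Rb7.ok2 (.inr ⟨rfl, rfl⟩) Rb7.mZ nrd7x17)
    (ring_near Rb8.P Rb8.ok2 (.inr ⟨rfl, rfl⟩) Rb8.mZ nrd8x17)
    (ring_near Rb9.P.up Rb9.ok2 (.inr ⟨rfl, rfl⟩) Rb9.mZ nrd9x17)
    (ring_near Rb10.P.up Rb10.ok2 (.inr ⟨rfl, rfl⟩) Rb10.mZ nrd10x17)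
  e := near5
    (ring_near_neg Rb6.P Rb6.ok2 (.inr ⟨rfl, rfl⟩) Rb6.mX nre6x17)
    (ring_near_neg Rb7.P Rb7.ok2 (.inr ⟨rfl, rfl⟩) Rb7.mX nre7x17)
    (ring_near_neg Rb8.P Rb8.ok2 (.inr ⟨rfl, rfl⟩) Rb8.mX nre8x17)
    (ring_near_neg Rb9.P.up Rb9.ok2 (.inr ⟨rfl, rfl⟩) Rb9.mX nre9x17)
    (ring_near_neg Rb10.P.up Rb10.ok2 (.inr ⟨rfl, rfl⟩) Rb10.mX nre10x17)
  pm := near6
    (open_near Om2.P Om2.ok2 rfl (.inl ⟨rfl, rfl⟩) Om2.m1 nrm2x17)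
    (open_near Om3.P Om3.ok2 rfl (.inl ⟨rfl, rfl⟩) Om3.m1 nrm3x17)
    (open_near Om4.P Om4.ok2 rfl (.inl ⟨rfl, rfl⟩) Om4.m1 nrm4x17)
    (open_near Om5.P Om5.ok2 rfl (.inl ⟨rfl, rfl⟩) Om5.m1 nrm5x17)
    (open_near Om6.P Om6.ok2 rfl (.inl ⟨rfl, rfl⟩) Om6.m1 nrm6x17)
    (open_near Om7.P Om7.ok2 rfl (.inl ⟨rfl, rfl⟩) Om7.m1 nrm7x17)
  pp := near6
    (open_near Op2.P Op2.ok2 rfl (.inr ⟨rfl, rfl⟩) Op2.m1 nrp2x17)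
    (open_near Op3.P Op3.ok2 rfl (.inr ⟨rfl, rfl⟩) Op3.m1 nrp3x17)
    (open_near Op4.P Op4.ok2 rfl (.inr ⟨rfl, rfl⟩) Op4.m1 nrp4x17)
    (open_near Op5.P Op5.ok2 rfl (.inr ⟨rfl, rfl⟩) Op5.m1 nrp5x17)
    (open_near Op6.P Op6.ok2 rfl (.inr ⟨rfl, rfl⟩) Op6.m1 nrp6x17)
    (open_near Op7.P Op7.ok2 rfl (.inr ⟨rfl, rfl⟩) Op7.m1 nrp7x17)

theorem base {O : OSys} (hL : Link model O) : Base model O where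
  L := hL
  h11 := has11
  h12 := has12
  h13 := has13
  h14 := has14
  h15 := has15
  h16 := has16
  h17 := has17
  a9 := varZa hL Ea9 (by decide +kernel)
  b9 := varZb hL Eb9 (by decide +kernel)
  a10 := varZa hL Ea10 (by decide +kernel)
  b10 := varZb hL Eb10 (by decide +kernel)
  a11 := varZa hL Ea11 (by decide +kernel)
  b11 := varZb hL Eb11 (by decide +kernel)
  a12 := varZa hL Ea12 (by decide +kernel)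
  b12 := varZb hL Eb12 (by decide +kernel)
  a13 := varZa hL Ea13 (by decide +kernel)
  b13 := varZb hL Eb13 (by decide +kernel)
  a14 := varZa hL Ea14 (by decide +kernel)
  b14 := varZb hL Eb14 (by decide +kernel)
  a15 := varZa hL Ea15 (by decide +kernel)
  b15 := varZb hL Eb15 (by decide +kernel)
  a16 := varZa hL Ea16 (by decide +kernel)
  b16 := varZb hL Eb16 (by decide +kernel)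
  a17 := varZa hL Ea17 (by decide +kernel)
  b17 := varZb hL Eb17 (by decide +kernel)
  a18 := varZa hL Ea18 (by decide +kernel)
  b18 := varZb hL Eb18 (by decide +kernel)
  a19 := varZa hL Ea19 (by decide +kernel)
  b19 := varZb hL Eb19 (by decide +kernel)
  a20 := varZa hL Ea20 (by decide +kernel)
  b20 := varZb hL Eb20 (by decide +kernel)
  a21 := varZa hL Ea21 (by decide +kernel)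
  b21 := varZb hL Eb21 (by decide +kernel)
  a22 := varZa hL Ea22 (by decide +kernel)
  b22 := varZb hL Eb22 (by decide +kernel)
  e8 := varZe hL Ee8 (by decide +kernel)
  e22 := varZe hL Ee22 (by decide +kernel)
  e34 := varZe hL Ee34 (by decide +kernel)
  e36 := varZe hL Ee36 (by decide +kernel)

end Crest.Agent.R347.Eng
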