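import Crest.Agent.R347.D.Par
import Crest.Agent.R347.D.Dat

/-! Row 347: from the moments to the data (computer generated) -/

set_option autoImplicit false
set_option Elab.async false
set_option maxRecDepth 100000

namespace Crest.Agent.R347.Eng

open _root_.Crest.Agent.R347.Num

theorem nra6x11 : Ra6.P.nearOK Ra6.V1 11 (d11.a 6) d11.δ := by decide +kernel
theorem nrb6x11 : Rb6.P.nearOK Rb6.V1 11 (d11.b 6) d11.δ := by decide +kernel
theorem nrc6x11 : Ra6.P.nearOK Ra6.VZ 11 (d11.c 6) d11.δ := by decide +kernel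
theorem nrd6x11 : Rb6.P.nearOK Rb6.VZ 11 (d11.dd 6) d11.δ := by decide +kernel
theorem nre6x11 : Rb6.P.nearOK Rb6.VX 11 (-d11.e 6) d11.δ := by decide +kernel
theorem nra7x11 : Ra7.P.nearOK Ra7.V1 11 (d11.a 7) d11.δ := by decide +kernel
theorem nrb7x11 : Rb7.P.nearOK Rb7.V1 11 (d11.b 7) d11.δ := by decide +kernel
theorem nrc7x11 : Ra7.P.nearOK Ra7.VZ 11 (d11.c 7) d11.δ := by decide +kernel
theorem nrd7x11 : Rb7.P.nearOK Rb7.VZ 11 (d11.dd 7) d11.δ := by decide +kernel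
theorem nre7x11 : Rb7.P.nearOK Rb7.VX 11 (-d11.e 7) d11.δ := by decide +kernel
theorem nra8x11 : Ra8.P.nearOK Ra8.V1 11 (d11.a 8) d11.δ := by decide +kernel
theorem nrb8x11 : Rb8.P.nearOK Rb8.V1 11 (d11.b 8) d11.δ := by decide +kernel
theorem nrc8x11 : Ra8.P.nearOK Ra8.VZ 11 (d11.c 8) d11.δ := by decide +kernel
theorem nrd8x11 : Rb8.P.nearOK Rb8.VZ 11 (d11.dd 8) d11.δ := by decide +kernel
theorem nre8x11 : Rb8.P.nearOK Rb8.VX 11 (-d11.e 8) d11.δ := by decide +kernel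
theorem nra9x11 : Ra9.P.up.nearOK Ra9.V1 11 (d11.a 9) d11.δ := by decide +kernel
theorem nrb9x11 : Rb9.P.up.nearOK Rb9.V1 11 (d11.b 9) d11.δ := by decide +kernel
theorem nrc9x11 : Ra9.P.up.nearOK Ra9.VZ 11 (d11.c 9) d11.δ := by decide +kernel
theorem nrd9x11 : Rb9.P.up.nearOK Rb9.VZ 11 (d11.dd 9) d11.δ := by decide +kernel
theorem nre9x11 : Rb9.P.up.nearOK Rb9.VX 11 (-d11.e 9) d11.δ := by decide +kernel
theorem nra10x11 : Ra10.P.up.nearOK Ra10.V1 11 (d11.a 10) d11.δ := by decide +kernel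
theorem nrb10x11 : Rb10.P.up.nearOK Rb10.V1 11 (d11.b 10) d11.δ := by decide +kernel
theorem nrc10x11 : Ra10.P.up.nearOK Ra10.VZ 11 (d11.c 10) d11.δ := by decide +kernel
theorem nrd10x11 : Rb10.P.up.nearOK Rb10.VZ 11 (d11.dd 10) d11.δ := by decide +kernel
theorem nre10x11 : Rb10.P.up.nearOK Rb10.VX 11 (-d11.e 10) d11.δ := by decide +kernel
theorem nrm2x11 : Om2.P.nearOK Om2.V1 11 (d11.pm 0) d11.δo := by decide +kernel
theorem nrp2x11 : Op2.P.nearOK Op2.V1 11 (d11.pp 0) d11.δo := by decide +kernel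
theorem nrm3x11 : Om3.P.nearOK Om3.V1 11 (d11.pm 1) d11.δo := by decide +kernel
theorem nrp3x11 : Op3.P.nearOK Op3.V1 11 (d11.pp 1) d11.δo := by decide +kernel
theorem nrm4x11 : Om4.P.nearOK Om4.V1 11 (d11.pm 2) d11.δo := by decide +kernel
theorem nrp4x11 : Op4.P.nearOK Op4.V1 11 (d11.pp 2) d11.δo := by decide +kernel
theorem nrm5x11 : Om5.P.nearOK Om5.V1 11 (d11.pm 3) d11.δo := by decide +kernel
theorem nrp5x11 : Op5.P.nearOK Op5.V1 11 (d11.pp 3) d11.δo := by decide +kernel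
theorem nrm6x11 : Om6.P.nearOK Om6.V1 11 (d11.pm 4) d11.δo := by decide +kernel
theorem nrp6x11 : Op6.P.nearOK Op6.V1 11 (d11.pp 4) d11.δo := by decide +kernel
theorem nrm7x11 : Om7.P.nearOK Om7.V1 11 (d11.pm 5) d11.δo := by decide +kernel
theorem nrp7x11 : Op7.P.nearOK Op7.V1 11 (d11.pp 5) d11.δo := by decide +kernel
theorem nra6x12 : Ra6.P.nearOK Ra6.V1 12 (d12.a 6) d12.δ := by decide +kernel
theorem nrb6x12 : Rb6.P.nearOK Rb6.V1 12 (d12.b 6) d12.δ := by decide +kernel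
theorem nrc6x12 : Ra6.P.nearOK Ra6.VZ 12 (d12.c 6) d12.δ := by decide +kernel
theorem nrd6x12 : Rb6.P.nearOK Rb6.VZ 12 (d12.dd 6) d12.δ := by decide +kernel
theorem nre6x12 : Rb6.P.nearOK Rb6.VX 12 (-d12.e 6) d12.δ := by decide +kernel
theorem nra7x12 : Ra7.P.nearOK Ra7.V1 12 (d12.a 7) d12.δ := by decide +kernel
theorem nrb7x12 : Rb7.P.nearOK Rb7.V1 12 (d12.b 7) d12.δ := by decide +kernel
theorem nrc7x12 : Ra7.P.nearOK Ra7.VZ 12 (d12.c 7) d12.δ := by decide +kernel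
theorem nrd7x12 : Rb7.P.nearOK Rb7.VZ 12 (d12.dd 7) d12.δ := by decide +kernel
theorem nre7x12 : Rb7.P.nearOK Rb7.VX 12 (-d12.e 7) d12.δ := by decide +kernel
theorem nra8x12 : Ra8.P.nearOK Ra8.V1 12 (d12.a 8) d12.δ := by decide +kernel
theorem nrb8x12 : Rb8.P.nearOK Rb8.V1 12 (d12.b 8) d12.δ := by decide +kernel
theorem nrc8x12 : Ra8.P.nearOK Ra8.VZ 12 (d12.c 8) d12.δ := by decide +kernel
theorem nrd8x12 : Rb8.P.nearOK Rb8.VZ 12 (d12.dd 8) d12.δ := by decide +kernel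
theorem nre8x12 : Rb8.P.nearOK Rb8.VX 12 (-d12.e 8) d12.δ := by decide +kernel
theorem nra9x12 : Ra9.P.up.nearOK Ra9.V1 12 (d12.a 9) d12.δ := by decide +kernel
theorem nrb9x12 : Rb9.P.up.nearOK Rb9.V1 12 (d12.b 9) d12.δ := by decide +kernel
theorem nrc9x12 : Ra9.P.up.nearOK Ra9.VZ 12 (d12.c 9) d12.δ := by decide +kernel
theorem nrd9x12 : Rb9.P.up.nearOK Rb9.VZ 12 (d12.dd 9) d12.δ := by decide +kernel
theorem nre9x12 : Rb9.P.up.nearOK Rb9.VX 12 (-d12.e 9) d12.δ := by decide +kernel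
theorem nra10x12 : Ra10.P.up.nearOK Ra10.V1 12 (d12.a 10) d12.δ := by decide +kernel
theorem nrb10x12 : Rb10.P.up.nearOK Rb10.V1 12 (d12.b 10) d12.δ := by decide +kernel
theorem nrc10x12 : Ra10.P.up.nearOK Ra10.VZ 12 (d12.c 10) d12.δ := by decide +kernel
theorem nrd10x12 : Rb10.P.up.nearOK Rb10.VZ 12 (d12.dd 10) d12.δ := by decide +kernel
theorem nre10x12 : Rb10.P.up.nearOK Rb10.VX 12 (-d12.e 10) d12.δ := by decide +kernel
theorem nrm2x12 : Om2.P.nearOK Om2.V1 12 (d12.pm 0) d12.δo := by decide +kernel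
theorem nrp2x12 : Op2.P.nearOK Op2.V1 12 (d12.pp 0) d12.δo := by decide +kernel
theorem nrm3x12 : Om3.P.nearOK Om3.V1 12 (d12.pm 1) d12.δo := by decide +kernel
theorem nrp3x12 : Op3.P.nearOK Op3.V1 12 (d12.pp 1) d12.δo := by decide +kernel
theorem nrm4x12 : Om4.P.nearOK Om4.V1 12 (d12.pm 2) d12.δo := by decide +kernel
theorem nrp4x12 : Op4.P.nearOK Op4.V1 12 (d12.pp 2) d12.δo := by decide +kernel
theorem nrm5x12 : Om5.P.nearOK Om5.V1 12 (d12.pm 3) d12.δo := by decide +kernel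
theorem nrp5x12 : Op5.P.nearOK Op5.V1 12 (d12.pp 3) d12.δo := by decide +kernel
theorem nrm6x12 : Om6.P.nearOK Om6.V1 12 (d12.pm 4) d12.δo := by decide +kernel
theorem nrp6x12 : Op6.P.nearOK Op6.V1 12 (d12.pp 4) d12.δo := by decide +kernel
theorem nrm7x12 : Om7.P.nearOK Om7.V1 12 (d12.pm 5) d12.δo := by decide +kernel
theorem nrp7x12 : Op7.P.nearOK Op7.V1 12 (d12.pp 5) d12.δo := by decide +kernel
theorem nra6x13 : Ra6.P.nearOK Ra6.V1 13 (d13.a 6) d13.δ := by decide +kernel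
theorem nrb6x13 : Rb6.P.nearOK Rb6.V1 13 (d13.b 6) d13.δ := by decide +kernel
theorem nrc6x13 : Ra6.P.nearOK Ra6.VZ 13 (d13.c 6) d13.δ := by decide +kernel
theorem nrd6x13 : Rb6.P.nearOK Rb6.VZ 13 (d13.dd 6) d13.δ := by decide +kernel
theorem nre6x13 : Rb6.P.nearOK Rb6.VX 13 (-d13.e 6) d13.δ := by decide +kernel
theorem nra7x13 : Ra7.P.nearOK Ra7.V1 13 (d13.a 7) d13.δ := by decide +kernel
theorem nrb7x13 : Rb7.P.nearOK Rb7.V1 13 (d13.b 7) d13.δ := by decide +kernel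
theorem nrc7x13 : Ra7.P.nearOK Ra7.VZ 13 (d13.c 7) d13.δ := by decide +kernel
theorem nrd7x13 : Rb7.P.nearOK Rb7.VZ 13 (d13.dd 7) d13.δ := by decide +kernel
theorem nre7x13 : Rb7.P.nearOK Rb7.VX 13 (-d13.e 7) d13.δ := by decide +kernel
theorem nra8x13 : Ra8.P.nearOK Ra8.V1 13 (d13.a 8) d13.δ := by decide +kernel
theorem nrb8x13 : Rb8.P.nearOK Rb8.V1 13 (d13.b 8) d13.δ := by decide +kernel
theorem nrc8x13 : Ra8.P.nearOK Ra8.VZ 13 (d13.c 8) d13.δ := by decide +kernel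
theorem nrd8x13 : Rb8.P.nearOK Rb8.VZ 13 (d13.dd 8) d13.δ := by decide +kernel
theorem nre8x13 : Rb8.P.nearOK Rb8.VX 13 (-d13.e 8) d13.δ := by decide +kernel
theorem nra9x13 : Ra9.P.up.nearOK Ra9.V1 13 (d13.a 9) d13.δ := by decide +kernel
theorem nrb9x13 : Rb9.P.up.nearOK Rb9.V1 13 (d13.b 9) d13.δ := by decide +kernel
theorem nrc9x13 : Ra9.P.up.nearOK Ra9.VZ 13 (d13.c 9) d13.δ := by decide +kernel
theorem nrd9x13 : Rb9.P.up.nearOK Rb9.VZ 13 (d13.dd 9) d13.δ := by decide +kernel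
theorem nre9x13 : Rb9.P.up.nearOK Rb9.VX 13 (-d13.e 9) d13.δ := by decide +kernel
theorem nra10x13 : Ra10.P.up.nearOK Ra10.V1 13 (d13.a 10) d13.δ := by decide +kernel
theorem nrb10x13 : Rb10.P.up.nearOK Rb10.V1 13 (d13.b 10) d13.δ := by decide +kernel
theorem nrc10x13 : Ra10.P.up.nearOK Ra10.VZ 13 (d13.c 10) d13.δ := by decide +kernel
theorem nrd10x13 : Rb10.P.up.nearOK Rb10.VZ 13 (d13.dd 10) d13.δ := by decide +kernel
theorem nre10x13 : Rb10.P.up.nearOK Rb10.VX 13 (-d13.e 10) d13.δ := by decide +kernel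
theorem nrm2x13 : Om2.P.nearOK Om2.V1 13 (d13.pm 0) d13.δo := by decide +kernel
theorem nrp2x13 : Op2.P.nearOK Op2.V1 13 (d13.pp 0) d13.δo := by decide +kernel
theorem nrm3x13 : Om3.P.nearOK Om3.V1 13 (d13.pm 1) d13.δo := by decide +kernel
theorem nrp3x13 : Op3.P.nearOK Op3.V1 13 (d13.pp 1) d13.δo := by decide +kernel
theorem nrm4x13 : Om4.P.nearOK Om4.V1 13 (d13.pm 2) d13.δo := by decide +kernel
theorem nrp4x13 : Op4.P.nearOK Op4.V1 13 (d13.pp 2) d13.δo := by decide +kernel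
theorem nrm5x13 : Om5.P.nearOK Om5.V1 13 (d13.pm 3) d13.δo := by decide +kernel
theorem nrp5x13 : Op5.P.nearOK Op5.V1 13 (d13.pp 3) d13.δo := by decide +kernel
theorem nrm6x13 : Om6.P.nearOK Om6.V1 13 (d13.pm 4) d13.δo := by decide +kernel
theorem nrp6x13 : Op6.P.nearOK Op6.V1 13 (d13.pp 4) d13.δo := by decide +kernel
theorem nrm7x13 : Om7.P.nearOK Om7.V1 13 (d13.pm 5) d13.δo := by decide +kernel
theorem nrp7x13 : Op7.P.nearOK Op7.V1 13 (d13.pp 5) d13.δo := by decide +kernel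
theorem nra6x14 : Ra6.P.nearOK Ra6.V1 14 (d14.a 6) d14.δ := by decide +kernel
theorem nrb6x14 : Rb6.P.nearOK Rb6.V1 14 (d14.b 6) d14.δ := by decide +kernel
theorem nrc6x14 : Ra6.P.nearOK Ra6.VZ 14 (d14.c 6) d14.δ := by decide +kernel
theorem nrd6x14 : Rb6.P.nearOK Rb6.VZ 14 (d14.dd 6) d14.δ := by decide +kernel
theorem nre6x14 : Rb6.P.nearOK Rb6.VX 14 (-d14.e 6) d14.δ := by decide +kernel
theorem nra7x14 : Ra7.P.nearOK Ra7.V1 14 (d14.a 7) d14.δ := by decide +kernel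
theorem nrb7x14 : Rb7.P.nearOK Rb7.V1 14 (d14.b 7) d14.δ := by decide +kernel
theorem nrc7x14 : Ra7.P.nearOK Ra7.VZ 14 (d14.c 7) d14.δ := by decide +kernel
theorem nrd7x14 : Rb7.P.nearOK Rb7.VZ 14 (d14.dd 7) d14.δ := by decide +kernel
theorem nre7x14 : Rb7.P.nearOK Rb7.VX 14 (-d14.e 7) d14.δ := by decide +kernel
theorem nra8x14 : Ra8.P.nearOK Ra8.V1 14 (d14.a 8) d14.δ := by decide +kernel
theorem nrb8x14 : Rb8.P.nearOK Rb8.V1 14 (d14.b 8) d14.δ := by decide +kernel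
theorem nrc8x14 : Ra8.P.nearOK Ra8.VZ 14 (d14.c 8) d14.δ := by decide +kernel
theorem nrd8x14 : Rb8.P.nearOK Rb8.VZ 14 (d14.dd 8) d14.δ := by decide +kernel
theorem nre8x14 : Rb8.P.nearOK Rb8.VX 14 (-d14.e 8) d14.δ := by decide +kernel
theorem nra9x14 : Ra9.P.up.nearOK Ra9.V1 14 (d14.a 9) d14.δ := by decide +kernel
theorem nrb9x14 : Rb9.P.up.nearOK Rb9.V1 14 (d14.b 9) d14.δ := by decide +kernel
theorem nrc9x14 : Ra9.P.up.nearOK Ra9.VZ 14 (d14.c 9) d14.δ := by decide +kernel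
theorem nrd9x14 : Rb9.P.up.nearOK Rb9.VZ 14 (d14.dd 9) d14.δ := by decide +kernel
theorem nre9x14 : Rb9.P.up.nearOK Rb9.VX 14 (-d14.e 9) d14.δ := by decide +kernel
theorem nra10x14 : Ra10.P.up.nearOK Ra10.V1 14 (d14.a 10) d14.δ := by decide +kernel
theorem nrb10x14 : Rb10.P.up.nearOK Rb10.V1 14 (d14.b 10) d14.δ := by decide +kernel
theorem nrc10x14 : Ra10.P.up.nearOK Ra10.VZ 14 (d14.c 10) d14.δ := by decide +kernel
theorem nrd10x14 : Rb10.P.up.nearOK Rb10.VZ 14 (d14.dd 10) d14.δ := by decide +kernel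
theorem nre10x14 : Rb10.P.up.nearOK Rb10.VX 14 (-d14.e 10) d14.δ := by decide +kernel
theorem nrm2x14 : Om2.P.nearOK Om2.V1 14 (d14.pm 0) d14.δo := by decide +kernel
theorem nrp2x14 : Op2.P.nearOK Op2.V1 14 (d14.pp 0) d14.δo := by decide +kernel
theorem nrm3x14 : Om3.P.nearOK Om3.V1 14 (d14.pm 1) d14.δo := by decide +kernel
theorem nrp3x14 : Op3.P.nearOK Op3.V1 14 (d14.pp 1) d14.δo := by decide +kernel
theorem nrm4x14 : Om4.P.nearOK Om4.V1 14 (d14.pm 2) d14.δo := by decide +kernel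
theorem nrp4x14 : Op4.P.nearOK Op4.V1 14 (d14.pp 2) d14.δo := by decide +kernel
theorem nrm5x14 : Om5.P.nearOK Om5.V1 14 (d14.pm 3) d14.δo := by decide +kernel
theorem nrp5x14 : Op5.P.nearOK Op5.V1 14 (d14.pp 3) d14.δo := by decide +kernel
theorem nrm6x14 : Om6.P.nearOK Om6.V1 14 (d14.pm 4) d14.δo := by decide +kernel
theorem nrp6x14 : Op6.P.nearOK Op6.V1 14 (d14.pp 4) d14.δo := by decide +kernel
theorem nrm7x14 : Om7.P.nearOK Om7.V1 14 (d14.pm 5) d14.δo := by decide +kernel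
theorem nrp7x14 : Op7.P.nearOK Op7.V1 14 (d14.pp 5) d14.δo := by decide +kernel

end Crest.Agent.R347.Eng
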